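import Mathlib

/-!
# Rational interval arithmetic for the box tail

Pure real/rational arithmetic: bilinear forms on triples, rational boxes in units of `x`,
the limit scheme.  No probability here.
-/

namespace Crest.Agent.PottsTree.BoxTail

open Filter

/-- coefficients of a symmetric bilinear form on triples -/
structure Co where
  rr : ℚ
  rt : ℚ
  rs : ℚ
  tt : ℚ
  ts : ℚ
  ss : ℚ

/-- a triple of reals -/
structure Tr where
  r : ℝ
  t : ℝ
  s : ℝ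

/-- the bilinear form -/
def bil (c : Co) (x y : Tr) : ℝ :=
  (c.rr : ℝ) * (x.r * y.r) + (c.rt : ℝ) * (x.r * y.t) + (c.rt : ℝ) * (x.t * y.r) +
    (c.rs : ℝ) * (x.r * y.s) + (c.rs : ℝ) * (x.s * y.r) + (c.tt : ℝ) * (x.t * y.t) +
    (c.ts : ℝ) * (x.t * y.s) + (c.ts : ℝ) * (x.s * y.t) + (c.ss : ℝ) * (x.s * y.s)

/-- the six bilinear forms -/
structure CoSys where
  Ur : Co
  Lr : Co
  Ut : Co
  Lt : Co
  Us : Co
  Ls : Co

/-- rational interval -/
structure Iv where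
  lo : ℚ
  hi : ℚ

/-- box of three intervals -/
structure Bx where
  r : Iv
  t : Iv
  s : Iv

/-- `v` lies in `x * I` -/
def InIv (x : ℝ) (I : Iv) (v : ℝ) : Prop := x * (I.lo : ℝ) ≤ v ∧ v ≤ x * (I.hi : ℝ)

/-- the triple `m` lies in `x * b` -/
def Mem (x : ℝ) (b : Bx) (m : Tr) : Prop := InIv x b.r m.r ∧ InIv x b.t m.t ∧ InIv x b.s m.s

/-- upper bound of `u * a * b` on a rectangle -/
def prodHi (u : ℚ) (A B : Iv) : ℚ :=
  max (max (u * (A.lo * B.lo)) (u * (A.lo * B.hi))) (max (u * (A.hi * B.lo)) (u * (A.hi * B.hi)))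

/-- lower bound of `u * a * b` on a rectangle -/
def prodLo (u : ℚ) (A B : Iv) : ℚ :=
  min (min (u * (A.lo * B.lo)) (u * (A.lo * B.hi))) (min (u * (A.hi * B.lo)) (u * (A.hi * B.hi)))

lemma corner_hi {u al ah bl bh a b : ℝ} (h1 : al ≤ a) (h2 : a ≤ ah) (h3 : bl ≤ b) (h4 : b ≤ bh) :
    u * (a * b) ≤ max (max (u * (al * bl)) (u * (al * bh))) (max (u * (ah * bl)) (u * (ah * bh))) := by
  have key : ∀ {c : ℝ}, al ≤ c → c ≤ ah → ∀ {d : ℝ}, (d = bl ∨ d = bh) →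
      u * (c * d) ≤ max (max (u * (al * bl)) (u * (al * bh))) (max (u * (ah * bl)) (u * (ah * bh))) := by
    intro c h5 h6 d hd
    by_cases hs : 0 ≤ u * d
    · have : u * (c * d) ≤ u * (ah * d) := by nlinarith
      refine this.trans ?_
      rcases hd with rfl | rfl
      · exact (le_max_left _ _).trans (le_max_right _ _)
      · exact (le_max_right _ _).trans (le_max_right _ _)
    · have hs' : u * d ≤ 0 := (not_le.1 hs).le
      have : u * (c * d) ≤ u * (al * d) := by nlinarith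
      refine this.trans ?_
      rcases hd with rfl | rfl
      · exact (le_max_left _ _).trans (le_max_left _ _)
      · exact (le_max_right _ _).trans (le_max_left _ _)
  by_cases hs : 0 ≤ u * a
  · have : u * (a * b) ≤ u * (a * bh) := by nlinarith
    exact this.trans (key h1 h2 (Or.inr rfl))
  · have hs' : u * a ≤ 0 := (not_le.1 hs).le
    have : u * (a * b) ≤ u * (a * bl) := by nlinarith
    exact this.trans (key h1 h2 (Or.inl rfl))

lemma corner_lo {u al ah bl bh a b : ℝ} (h1 : al ≤ a) (h2 : a ≤ ah) (h3 : bl ≤ b) (h4 : b ≤ bh) :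
    min (min (u * (al * bl)) (u * (al * bh))) (min (u * (ah * bl)) (u * (ah * bh))) ≤ u * (a * b) := by
  have := corner_hi (u := -u) h1 h2 h3 h4
  have e : max (max (-u * (al * bl)) (-u * (al * bh))) (max (-u * (ah * bl)) (-u * (ah * bh))) =
      - min (min (u * (al * bl)) (u * (al * bh))) (min (u * (ah * bl)) (u * (ah * bh))) := by
    simp only [neg_mul, max_neg_neg]
  rw [e] at this
  linarith

lemma InIv.div {x : ℝ} (hx : 0 < x) {I : Iv} {v : ℝ} (h : InIv x I v) :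
    (I.lo : ℝ) ≤ v / x ∧ v / x ≤ (I.hi : ℝ) := by
  constructor
  · rw [le_div_iff₀ hx]
    linarith [h.1]
  · rw [div_le_iff₀ hx]
    linarith [h.2]

lemma prod_le_prodHi {x : ℝ} (hx : 0 < x) (u : ℚ) {A B : Iv} {a b : ℝ} (ha : InIv x A a)
    (hb : InIv x B b) : (u : ℝ) * (a * b) ≤ x ^ 2 * (prodHi u A B : ℚ) := by
  obtain ⟨h1, h2⟩ := ha.div hx
  obtain ⟨h3, h4⟩ := hb.div hx
  have := corner_hi (u := (u : ℝ)) h1 h2 h3 h4
  have e : a * b = x ^ 2 * (a / x * (b / x)) := by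
    field_simp
  rw [e]
  have hx2 : 0 ≤ x ^ 2 := by positivity
  have h5 := mul_le_mul_of_nonneg_left this hx2
  simp only [prodHi]
  push_cast
  nlinarith

lemma prodLo_le_prod {x : ℝ} (hx : 0 < x) (u : ℚ) {A B : Iv} {a b : ℝ} (ha : InIv x A a)
    (hb : InIv x B b) : x ^ 2 * (prodLo u A B : ℚ) ≤ (u : ℝ) * (a * b) := by
  obtain ⟨h1, h2⟩ := ha.div hx
  obtain ⟨h3, h4⟩ := hb.div hx
  have := corner_lo (u := (u : ℝ)) h1 h2 h3 h4
  have e : a * b = x ^ 2 * (a / x * (b / x)) := by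
    field_simp
  rw [e]
  have hx2 : 0 ≤ x ^ 2 := by positivity
  have h5 := mul_le_mul_of_nonneg_left this hx2
  simp only [prodLo]
  push_cast
  nlinarith

/-- upper bound of the bilinear form on a box -/
def bilHi (c : Co) (X Y : Bx) : ℚ :=
  prodHi c.rr X.r Y.r + prodHi c.rt X.r Y.t + prodHi c.rt X.t Y.r + prodHi c.rs X.r Y.s +
    prodHi c.rs X.s Y.r + prodHi c.tt X.t Y.t + prodHi c.ts X.t Y.s + prodHi c.ts X.s Y.t +
    prodHi c.ss X.s Y.s

/-- lower bound of the bilinear form on a box -/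
def bilLo (c : Co) (X Y : Bx) : ℚ :=
  prodLo c.rr X.r Y.r + prodLo c.rt X.r Y.t + prodLo c.rt X.t Y.r + prodLo c.rs X.r Y.s +
    prodLo c.rs X.s Y.r + prodLo c.tt X.t Y.t + prodLo c.ts X.t Y.s + prodLo c.ts X.s Y.t +
    prodLo c.ss X.s Y.s

lemma bil_le_bilHi {x : ℝ} (hx : 0 < x) (c : Co) {X Y : Bx} {m m' : Tr} (hm : Mem x X m)
    (hm' : Mem x Y m') : bil c m m' ≤ x ^ 2 * (bilHi c X Y : ℚ) := by
  obtain ⟨h1, h2, h3⟩ := hm
  obtain ⟨h4, h5, h6⟩ := hm'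
  have a1 := prod_le_prodHi hx c.rr h1 h4
  have a2 := prod_le_prodHi hx c.rt h1 h5
  have a3 := prod_le_prodHi hx c.rt h2 h4
  have a4 := prod_le_prodHi hx c.rs h1 h6
  have a5 := prod_le_prodHi hx c.rs h3 h4
  have a6 := prod_le_prodHi hx c.tt h2 h5
  have a7 := prod_le_prodHi hx c.ts h2 h6
  have a8 := prod_le_prodHi hx c.ts h3 h5
  have a9 := prod_le_prodHi hx c.ss h3 h6
  simp only [bil, bilHi]
  push_cast
  nlinarith

lemma bilLo_le_bil {x : ℝ} (hx : 0 < x) (c : Co) {X Y : Bx} {m m' : Tr} (hm : Mem x X m)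
    (hm' : Mem x Y m') : x ^ 2 * (bilLo c X Y : ℚ) ≤ bil c m m' := by
  obtain ⟨h1, h2, h3⟩ := hm
  obtain ⟨h4, h5, h6⟩ := hm'
  have a1 := prodLo_le_prod hx c.rr h1 h4
  have a2 := prodLo_le_prod hx c.rt h1 h5
  have a3 := prodLo_le_prod hx c.rt h2 h4
  have a4 := prodLo_le_prod hx c.rs h1 h6
  have a5 := prodLo_le_prod hx c.rs h3 h4
  have a6 := prodLo_le_prod hx c.tt h2 h5
  have a7 := prodLo_le_prod hx c.ts h2 h6
  have a8 := prodLo_le_prod hx c.ts h3 h5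
  have a9 := prodLo_le_prod hx c.ss h3 h6
  simp only [bil, bilLo]
  push_cast
  nlinarith

/-- round up, to `2 ^ -32` -/
def rup (a : ℚ) : ℚ := ((⌈a * 4294967296⌉ : ℤ) : ℚ) / 4294967296

/-- round down, to `2 ^ -32` -/
def rdn (a : ℚ) : ℚ := ((⌊a * 4294967296⌋ : ℤ) : ℚ) / 4294967296

lemma le_rup (a : ℚ) : a ≤ rup a := by
  have := Int.le_ceil (a * 4294967296)
  simp only [rup]
  rw [le_div_iff₀ (by norm_num)]
  exact this

lemma rdn_le (a : ℚ) : rdn a ≤ a := by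
  have := Int.floor_le (a * 4294967296)
  simp only [rdn]
  rw [div_le_iff₀ (by norm_num)]
  exact this

/-- one component of the star of two boxes -/
def starIv (x₀ : ℚ) (L U : Co) (A A' : Iv) (X Y : Bx) : Iv :=
  ⟨rdn (A.lo + A'.lo + x₀ * min 0 (bilLo L X Y)), rup (A.hi + A'.hi + x₀ * max 0 (bilHi U X Y))⟩

/-- the star of two boxes -/
def starBx (S : CoSys) (x₀ : ℚ) (X Y : Bx) : Bx :=
  ⟨starIv x₀ S.Lr S.Ur X.r Y.r X Y, starIv x₀ S.Lt S.Ut X.t Y.t X Y, starIv x₀ S.Ls S.Us X.s Y.s X Y⟩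

lemma starIv_sound {x x₀ : ℝ} {q₀ : ℚ} (hq₀ : (q₀ : ℝ) = x₀) (hx : 0 < x) (hx₀ : x ≤ x₀) {L U : Co}
    {A A' : Iv} {X Y : Bx} {m m' : Tr} (hm : Mem x X m) (hm' : Mem x Y m') {a a' v : ℝ}
    (ha : InIv x A a) (ha' : InIv x A' a') (h1 : a + a' + bil L m m' ≤ v)
    (h2 : v ≤ a + a' + bil U m m') : InIv x (starIv q₀ L U A A' X Y) v := by
  have hb1 := bilLo_le_bil hx L hm hm'
  have hb2 := bil_le_bilHi hx U hm hm'
  have hxx : x ^ 2 ≤ x * x₀ := by nlinarith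
  constructor
  · have e : (((rdn (A.lo + A'.lo + q₀ * min 0 (bilLo L X Y)) : ℚ)) : ℝ) ≤
        (A.lo : ℝ) + A'.lo + x₀ * min 0 ((bilLo L X Y : ℚ) : ℝ) := by
      have := rdn_le (A.lo + A'.lo + q₀ * min 0 (bilLo L X Y))
      have h3 : ((rdn (A.lo + A'.lo + q₀ * min 0 (bilLo L X Y)) : ℚ) : ℝ) ≤
          ((A.lo + A'.lo + q₀ * min 0 (bilLo L X Y) : ℚ) : ℝ) := by exact_mod_cast this
      push_cast at h3
      rwa [hq₀] at h3
    have hmin : min 0 ((bilLo L X Y : ℚ) : ℝ) ≤ 0 := min_le_left _ _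
    have hmin2 : min 0 ((bilLo L X Y : ℚ) : ℝ) ≤ ((bilLo L X Y : ℚ) : ℝ) := min_le_right _ _
    show x * ((rdn (A.lo + A'.lo + q₀ * min 0 (bilLo L X Y)) : ℚ) : ℝ) ≤ v
    have h4 : x * (x₀ * min 0 ((bilLo L X Y : ℚ) : ℝ)) ≤ x ^ 2 * ((bilLo L X Y : ℚ) : ℝ) := by
      have h5 : x * x₀ * min 0 ((bilLo L X Y : ℚ) : ℝ) ≤ x ^ 2 * min 0 ((bilLo L X Y : ℚ) : ℝ) :=
        mul_le_mul_of_nonpos_right hxx hmin
      have h6 : x ^ 2 * min 0 ((bilLo L X Y : ℚ) : ℝ) ≤ x ^ 2 * ((bilLo L X Y : ℚ) : ℝ) :=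
        mul_le_mul_of_nonneg_left hmin2 (by positivity)
      nlinarith
    have h7 := mul_le_mul_of_nonneg_left e hx.le
    have h8 := ha.1
    have h9 := ha'.1
    nlinarith
  · have e : (A.hi : ℝ) + A'.hi + x₀ * max 0 ((bilHi U X Y : ℚ) : ℝ) ≤
        ((rup (A.hi + A'.hi + q₀ * max 0 (bilHi U X Y)) : ℚ) : ℝ) := by
      have := le_rup (A.hi + A'.hi + q₀ * max 0 (bilHi U X Y))
      have h3 : ((A.hi + A'.hi + q₀ * max 0 (bilHi U X Y) : ℚ) : ℝ) ≤
          ((rup (A.hi + A'.hi + q₀ * max 0 (bilHi U X Y)) : ℚ) : ℝ) := by exact_mod_cast this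
      push_cast at h3
      rwa [hq₀] at h3
    have hmax : 0 ≤ max 0 ((bilHi U X Y : ℚ) : ℝ) := le_max_left _ _
    have hmax2 : ((bilHi U X Y : ℚ) : ℝ) ≤ max 0 ((bilHi U X Y : ℚ) : ℝ) := le_max_right _ _
    show v ≤ x * ((rup (A.hi + A'.hi + q₀ * max 0 (bilHi U X Y)) : ℚ) : ℝ)
    have h4 : x ^ 2 * ((bilHi U X Y : ℚ) : ℝ) ≤ x * (x₀ * max 0 ((bilHi U X Y : ℚ) : ℝ)) := by
      have h5 : x ^ 2 * max 0 ((bilHi U X Y : ℚ) : ℝ) ≤ x * x₀ * max 0 ((bilHi U X Y : ℚ) : ℝ) :=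
        mul_le_mul_of_nonneg_right hxx hmax
      have h6 : x ^ 2 * ((bilHi U X Y : ℚ) : ℝ) ≤ x ^ 2 * max 0 ((bilHi U X Y : ℚ) : ℝ) :=
        mul_le_mul_of_nonneg_left hmax2 (by positivity)
      nlinarith
    have h7 := mul_le_mul_of_nonneg_left e hx.le
    have h8 := ha.2
    have h9 := ha'.2
    nlinarith

/-- multiplication of an interval by an interval -/
def mulIv (A B : Iv) : Iv := ⟨prodLo 1 A B, prodHi 1 A B⟩

lemma mulIv_sound {x : ℝ} (hx : 0 < x) {A B : Iv} {a v : ℝ} (ha : (A.lo : ℝ) ≤ a ∧ a ≤ A.hi)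
    (hv : InIv x B v) : InIv x (mulIv A B) (a * v) := by
  obtain ⟨h3, h4⟩ := hv.div hx
  have e : a * v = x * (a * (v / x)) := by field_simp
  constructor
  · have := corner_lo (u := 1) ha.1 ha.2 h3 h4
    show x * ((prodLo 1 A B : ℚ) : ℝ) ≤ a * v
    rw [e]
    refine mul_le_mul_of_nonneg_left ?_ hx.le
    simp only [prodLo]
    push_cast
    simpa using this
  · have := corner_hi (u := 1) ha.1 ha.2 h3 h4
    show a * v ≤ x * ((prodHi 1 A B : ℚ) : ℝ)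
    rw [e]
    refine mul_le_mul_of_nonneg_left ?_ hx.le
    simp only [prodHi]
    push_cast
    simpa using this

/-- intersection of intervals -/
def capIv (A B : Iv) : Iv := ⟨max A.lo B.lo, min A.hi B.hi⟩

lemma capIv_sound {x : ℝ} (hx : 0 < x) {A B : Iv} {v : ℝ} (h1 : InIv x A v) (h2 : InIv x B v) :
    InIv x (capIv A B) v := by
  constructor
  · show x * ((max A.lo B.lo : ℚ) : ℝ) ≤ v
    push_cast
    rcases max_cases (A.lo : ℝ) (B.lo : ℝ) with ⟨h, _⟩ | ⟨h, _⟩ <;> rw [h]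
    · exact h1.1
    · exact h2.1
  · show v ≤ x * ((min A.hi B.hi : ℚ) : ℝ)
    push_cast
    rcases min_cases (A.hi : ℝ) (B.hi : ℝ) with ⟨h, _⟩ | ⟨h, _⟩ <;> rw [h]
    · exact h1.2
    · exact h2.2

/-- intersection of boxes, the first component is kept from `R` -/
def capBx (A B : Bx) : Bx := ⟨A.r, capIv A.t B.t, capIv A.s B.s⟩

lemma capBx_sound {x : ℝ} (hx : 0 < x) {A B : Bx} {m : Tr} (h1 : Mem x A m) (h2 : Mem x B m) :
    Mem x (capBx A B) m :=
  ⟨h1.1, capIv_sound hx h1.2.1 h2.2.1, capIv_sound hx h1.2.2 h2.2.2⟩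

/-- the trivial box: `r/x` in `[1, 1 + η]`, `t ∈ [-r/2, r]`, `s ∈ [0, r]`. -/
def box0 (η : ℚ) : Bx := ⟨⟨1, 1 + η⟩, ⟨-(1 + η) / 2, 1 + η⟩, ⟨0, 1 + η⟩⟩

/-- iterate a level map -/
def iterBx (level : Bx → Bx × ℚ) (η : ℚ) : ℕ → Bx
  | 0 => box0 η
  | j + 1 => capBx (iterBx level η j) (level (iterBx level η j)).1

lemma iterBx_r (level : Bx → Bx × ℚ) (η : ℚ) (j : ℕ) : (iterBx level η j).r = ⟨1, 1 + η⟩ := by
  induction j with
  | zero => rfl
  | succ j ih => exact ih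

/-- **The limit scheme.**  `m n` are the moments along the levels; the first component is antitone;
`level` is a sound level map.  If the final deficit is negative, then `E r → 0`. -/
theorem tendsto_of_level {m : ℕ → Tr} (hanti : Antitone fun n => (m n).r)
    (h0 : ∀ n, 0 ≤ (m n).r) (ht : ∀ n, - ((m n).r / 2) ≤ (m n).t ∧ (m n).t ≤ (m n).r)
    (hs : ∀ n, 0 ≤ (m n).s ∧ (m n).s ≤ (m n).r)
    {level : Bx → Bx × ℚ} {x₀ η : ℚ} (hη : 0 < η) {J : ℕ}
    (hsound : ∀ (x : ℝ), 0 < x → x ≤ x₀ → ∀ (b : Bx) (n : ℕ), b.r = ⟨1, 1 + η⟩ → Mem x b (m n) →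
      InIv x (level b).1.t (m (n + 1)).t ∧ InIv x (level b).1.s (m (n + 1)).s ∧
        (m (n + 1)).r ≤ (m n).r + x ^ 2 * (((level b).2 : ℚ) : ℝ))
    (hJ : (level (iterBx level η J)).2 < 0) {ℓ₀ : ℕ} (hℓ₀ : (m ℓ₀).r ≤ x₀) :
    Tendsto (fun n => (m n).r) atTop (nhds 0) := by
  set f : ℕ → ℝ := fun n => (m n).r with hf
  have hbdd : BddBelow (Set.range f) := ⟨0, by rintro _ ⟨n, rfl⟩; exact h0 n⟩
  have hlim := tendsto_atTop_ciInf hanti hbdd
  set x := ⨅ n, f n with hx_def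
  have hxle : ∀ n, x ≤ f n := fun n => ciInf_le hbdd n
  have hx0 : 0 ≤ x := le_ciInf h0
  rcases hx0.eq_or_lt with hx | hx
  · rw [← hx] at hlim
    exact hlim
  exfalso
  have hxx₀ : x ≤ x₀ := (hxle ℓ₀).trans hℓ₀
  set E : ℝ := (((level (iterBx level η J)).2 : ℚ) : ℝ) with hE
  have hE0 : E < 0 := by
    have : (((level (iterBx level η J)).2 : ℚ) : ℝ) < ((0 : ℚ) : ℝ) := by exact_mod_cast hJ
    rw [hE]
    simpa using this
  have hηR : (0 : ℝ) < η := by exact_mod_cast hη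
  set η' : ℝ := min (η : ℝ) (-E * x / 2) with hη'
  have hη'0 : 0 < η' := lt_min hηR (by nlinarith)
  have hev : ∀ᶠ n in atTop, f n < x * (1 + η') :=
    hlim.eventually (gt_mem_nhds (by nlinarith))
  obtain ⟨N, hN⟩ := eventually_atTop.1 hev
  have hbox : ∀ j n, N + j ≤ n → Mem x (iterBx level η j) (m n) := by
    intro j
    induction j with
    | zero =>
      intro n hn
      have h1 : f n < x * (1 + η') := hN n (by omega)
      have h2 : x * (1 + η') ≤ x * (1 + η) := by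
        have : η' ≤ η := min_le_left _ _
        nlinarith
      have h3 : f n ≤ x * (1 + η) := h1.le.trans h2
      have h4 := hxle n
      have ht' := ht n
      have hs' := hs n
      have h5 : (m n).r ≤ x * (1 + η) := h3
      have h4' : x ≤ (m n).r := h4
      have h6 : - ((m n).r / 2) ≤ (m n).t := ht'.1
      refine ⟨⟨?_, ?_⟩, ⟨?_, ?_⟩, ⟨?_, ?_⟩⟩
      · show x * (((1 : ℚ)) : ℝ) ≤ (m n).r
        simpa using h4'
      · show (m n).r ≤ x * ((1 + η : ℚ) : ℝ)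
        push_cast
        exact h5
      · show x * ((-(1 + η) / 2 : ℚ) : ℝ) ≤ (m n).t
        push_cast
        nlinarith
      · show (m n).t ≤ x * ((1 + η : ℚ) : ℝ)
        push_cast
        exact ht'.2.trans h5
      · show x * (((0 : ℚ)) : ℝ) ≤ (m n).s
        simpa using hs'.1
      · show (m n).s ≤ x * ((1 + η : ℚ) : ℝ)
        push_cast
        exact hs'.2.trans h5
    | succ j ih =>
      intro n hn
      obtain ⟨n', rfl⟩ : ∃ n', n = n' + 1 := ⟨n - 1, by omega⟩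
      have h1 := ih n' (by omega)
      have h2 := ih (n' + 1) (by omega)
      obtain ⟨h3, h4, -⟩ := hsound x hx hxx₀ _ n' (iterBx_r _ _ _) h1
      exact ⟨h2.1, capIv_sound hx h2.2.1 h3, capIv_sound hx h2.2.2 h4⟩
  have h1 := hbox J (N + J) le_rfl
  obtain ⟨-, -, h2⟩ := hsound x hx hxx₀ _ (N + J) (iterBx_r _ _ _) h1
  have h3 : f (N + J) < x * (1 + η') := hN _ (by omega)
  have h4 : η' ≤ -E * x / 2 := min_le_right _ _
  have h5 := hxle (N + J + 1)
  have h6 : (m (N + J + 1)).r ≤ f (N + J) + x ^ 2 * E := h2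
  have h7 : f (N + J + 1) = (m (N + J + 1)).r := rfl
  have h8 : x * η' ≤ x * (-E * x / 2) := mul_le_mul_of_nonneg_left h4 hx.le
  have h9 : 0 < x ^ 2 * (-E) := by
    have : 0 < -E := by linarith
    positivity
  nlinarith

end Crest.Agent.PottsTree.BoxTail
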