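import Crest.Agent.Lib.PottsTree.PoisDouble
import Crest.Agent.Lib.PottsTree.Tail
import Crest.Agent.Lib.PottsTree.BoxArith

/-!
# The box tail

Three functionals `r = A / 2`, `t`, `s` with bilinear pair bounds.  Their moments along a level
recursion satisfy interval inequalities.  If the limit `x` of the antitone sequence `E r` were
positive, the moments at late levels would lie in boxes (rational multiples of `x`), and a finite
rational computation of boxes contradicts `x > 0`.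
-/

namespace Crest.Agent.PottsTree.BoxTail

open Finset Filter
open Crest.ProbabilityR.Broadcast
open ConeData Cmp

/-- `r = A / 2` -/
noncomputable def rr (q : ℕ) (p : Fin q → ℝ) : ℝ := A q p / 2

/-- Functionals with pair bounds. -/
structure PairSys (q : ℕ) where
  t : (Fin q → ℝ) → ℝ
  s : (Fin q → ℝ) → ℝ
  co : CoSys
  bdd_t : BddS t
  bdd_s : BddS s
  t_unif : t (fun _ => 1 / (q : ℝ)) = 0
  s_unif : s (fun _ => 1 / (q : ℝ)) = 0
  t_lo : ∀ p ∈ Sx q, - (rr q p / 2) ≤ t p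
  t_hi : ∀ p ∈ Sx q, t p ≤ rr q p
  s_lo : ∀ p ∈ Sx q, 0 ≤ s p
  s_hi : ∀ p ∈ Sx q, s p ≤ rr q p
  rad_t : ∀ lam : ℝ, ∀ p ∈ Sx q, t (T q lam p) = lam ^ 3 * t p
  rad_s : ∀ lam : ℝ, ∀ p ∈ Sx q, s (T q lam p) = lam ^ 4 * s p
  up_r : ∀ p ∈ Sx q, ∀ p' ∈ Sx q, B (rr q) p p' ≤
    rr q p + rr q p' + bil co.Ur ⟨rr q p, t p, s p⟩ ⟨rr q p', t p', s p'⟩
  lo_r : ∀ p ∈ Sx q, ∀ p' ∈ Sx q,
    rr q p + rr q p' + bil co.Lr ⟨rr q p, t p, s p⟩ ⟨rr q p', t p', s p'⟩ ≤ B (rr q) p p'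
  up_t : ∀ p ∈ Sx q, ∀ p' ∈ Sx q, B t p p' ≤
    t p + t p' + bil co.Ut ⟨rr q p, t p, s p⟩ ⟨rr q p', t p', s p'⟩
  lo_t : ∀ p ∈ Sx q, ∀ p' ∈ Sx q,
    t p + t p' + bil co.Lt ⟨rr q p, t p, s p⟩ ⟨rr q p', t p', s p'⟩ ≤ B t p p'
  up_s : ∀ p ∈ Sx q, ∀ p' ∈ Sx q, B s p p' ≤
    s p + s p' + bil co.Us ⟨rr q p, t p, s p⟩ ⟨rr q p', t p', s p'⟩
  lo_s : ∀ p ∈ Sx q, ∀ p' ∈ Sx q,
    s p + s p' + bil co.Ls ⟨rr q p, t p, s p⟩ ⟨rr q p', t p', s p'⟩ ≤ B s p p'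

variable {q : ℕ}

lemma bddS_rr : BddS (rr q) := by
  obtain ⟨C, hC⟩ := bddS_A (q := q)
  refine ⟨C / 2, fun p hp => ?_⟩
  have := hC p hp
  simp only [rr, abs_div]
  norm_num
  linarith

lemma rr_nonneg {p : Fin q → ℝ} (hp : p ∈ Sx q) : 0 ≤ rr q p := by
  have := A_nonneg hp
  simp only [rr]
  linarith

lemma rr_eq : rr q = fun p => (1 / 2 : ℝ) * A q p := by
  funext p
  simp only [rr]
  ring

lemma convexOn_rr : ConvexOn ℝ (Sx q) (rr q) := by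
  have h := (convexOn_A (q := q)).smul (show (0 : ℝ) ≤ 1 / 2 by norm_num)
  have e : (fun x => (1 / 2 : ℝ) • A q x) = rr q := by
    funext p
    simp [rr]
    ring
  rwa [e] at h

lemma rr_unif (hq : q ≠ 0) : rr q (fun _ => 1 / (q : ℝ)) = 0 := by
  have hq' : (q : ℝ) ≠ 0 := by exact_mod_cast hq
  simp [rr, A]
  field_simp
  ring

lemma rr_T (hq : q ≠ 0) (lam : ℝ) {p : Fin q → ℝ} (hp : p ∈ Sx q) :
    rr q (T q lam p) = lam ^ 2 * rr q p := by
  simp only [rr]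
  rw [A_T hq lam hp]
  ring

lemma pot_rr {Ω : Type*} (L : Ω → Fin q → ℝ) : Pot (rr q) L = Pot (A q) L / 2 := by
  rw [rr_eq, pot_const_mul]
  ring

namespace PairSys

variable (P : PairSys q)

/-- the triple of a point -/
noncomputable def tri (p : Fin q → ℝ) : Tr := ⟨rr q p, P.t p, P.s p⟩

/-- the moments of a law -/
noncomputable def mom {Ω : Type*} (L : Ω → Fin q → ℝ) : Tr := ⟨Pot (rr q) L, Pot P.t L, Pot P.s L⟩

section Star

variable {Ω Ω' : Type*} {L : Ω → Fin q → ℝ} {L' : Ω' → Fin q → ℝ}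

lemma pot_star_le_bil (hq : q ≠ 0) (hL : IsLik L) (hL' : IsLik L') (hS' : SymLik L')
    {f : (Fin q → ℝ) → ℝ} (hf : BddS f) (c : Co)
    (h : ∀ p ∈ Sx q, ∀ p' ∈ Sx q, B f p p' ≤ f p + f p' + bil c (P.tri p) (P.tri p')) :
    Pot f (star L L') ≤ Pot f L + Pot f L' + bil c (P.mom L) (P.mom L') := by
  have hr := bddS_rr (q := q)
  have key := pot_star_le_sum (ι := Fin 11) hq hL hL' hS' hf Finset.univ
    (u := ![f, fun _ => 1, fun p => (c.rr : ℝ) * rr q p, fun p => (c.rt : ℝ) * rr q p,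
      fun p => (c.rt : ℝ) * P.t p, fun p => (c.rs : ℝ) * rr q p, fun p => (c.rs : ℝ) * P.s p,
      fun p => (c.tt : ℝ) * P.t p, fun p => (c.ts : ℝ) * P.t p, fun p => (c.ts : ℝ) * P.s p,
      fun p => (c.ss : ℝ) * P.s p])
    (v := ![fun _ => 1, f, rr q, P.t, rr q, P.s, rr q, P.t, P.s, P.t, P.s])
    (fun k _ => by
      fin_cases k
      · exact hf
      · exact BddS.const _
      · exact hr.const_mul _
      · exact hr.const_mul _
      · exact P.bdd_t.const_mul _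
      · exact hr.const_mul _
      · exact P.bdd_s.const_mul _
      · exact P.bdd_t.const_mul _
      · exact P.bdd_t.const_mul _
      · exact P.bdd_s.const_mul _
      · exact P.bdd_s.const_mul _)
    (fun k _ => by
      fin_cases k
      · exact BddS.const _
      · exact hf
      · exact hr
      · exact P.bdd_t
      · exact hr
      · exact P.bdd_s
      · exact hr
      · exact P.bdd_t
      · exact P.bdd_s
      · exact P.bdd_t
      · exact P.bdd_s)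
    (fun p hp p' hp' => by
      have := h p hp p' hp'
      simp only [Fin.sum_univ_succ, Fin.sum_univ_zero, Matrix.cons_val_zero,
        Matrix.cons_val_succ, Matrix.cons_val_fin_one]
      simp only [bil, tri] at this
      linarith)
  simp only [Fin.sum_univ_succ, Fin.sum_univ_zero, Matrix.cons_val_zero, Matrix.cons_val_succ,
    Matrix.cons_val_fin_one] at key
  rw [pot_const hq hL, pot_const hq hL'] at key
  simp only [pot_const_mul] at key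
  simp only [bil, mom]
  linarith

lemma le_pot_star_bil (hq : q ≠ 0) (hL : IsLik L) (hL' : IsLik L') (hS' : SymLik L')
    {f : (Fin q → ℝ) → ℝ} (hf : BddS f) (c : Co)
    (h : ∀ p ∈ Sx q, ∀ p' ∈ Sx q, f p + f p' + bil c (P.tri p) (P.tri p') ≤ B f p p') :
    Pot f L + Pot f L' + bil c (P.mom L) (P.mom L') ≤ Pot f (star L L') := by
  have hr := bddS_rr (q := q)
  have key := sum_le_pot_star (ι := Fin 11) hq hL hL' hS' hf Finset.univ
    (u := ![f, fun _ => 1, fun p => (c.rr : ℝ) * rr q p, fun p => (c.rt : ℝ) * rr q p,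
      fun p => (c.rt : ℝ) * P.t p, fun p => (c.rs : ℝ) * rr q p, fun p => (c.rs : ℝ) * P.s p,
      fun p => (c.tt : ℝ) * P.t p, fun p => (c.ts : ℝ) * P.t p, fun p => (c.ts : ℝ) * P.s p,
      fun p => (c.ss : ℝ) * P.s p])
    (v := ![fun _ => 1, f, rr q, P.t, rr q, P.s, rr q, P.t, P.s, P.t, P.s])
    (fun k _ => by
      fin_cases k
      · exact hf
      · exact BddS.const _
      · exact hr.const_mul _
      · exact hr.const_mul _
      · exact P.bdd_t.const_mul _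
      · exact hr.const_mul _
      · exact P.bdd_s.const_mul _
      · exact P.bdd_t.const_mul _
      · exact P.bdd_t.const_mul _
      · exact P.bdd_s.const_mul _
      · exact P.bdd_s.const_mul _)
    (fun k _ => by
      fin_cases k
      · exact BddS.const _
      · exact hf
      · exact hr
      · exact P.bdd_t
      · exact hr
      · exact P.bdd_s
      · exact hr
      · exact P.bdd_t
      · exact P.bdd_s
      · exact P.bdd_t
      · exact P.bdd_s)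
    (fun p hp p' hp' => by
      have := h p hp p' hp'
      simp only [Fin.sum_univ_succ, Fin.sum_univ_zero, Matrix.cons_val_zero,
        Matrix.cons_val_succ, Matrix.cons_val_fin_one]
      simp only [bil, tri] at this
      linarith)
  simp only [Fin.sum_univ_succ, Fin.sum_univ_zero, Matrix.cons_val_zero, Matrix.cons_val_succ,
    Matrix.cons_val_fin_one] at key
  rw [pot_const hq hL, pot_const hq hL'] at key
  simp only [pot_const_mul] at key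
  simp only [bil, mom]
  linarith

/-- The moments of a star lie in the star of the boxes. -/
lemma star_sound (hq : q ≠ 0) (hL : IsLik L) (hL' : IsLik L') (hS' : SymLik L') {x : ℝ} {q₀ : ℚ}
    (hx : 0 < x) (hx₀ : x ≤ q₀) {X Y : Bx} (hm : Mem x X (P.mom L)) (hm' : Mem x Y (P.mom L')) :
    Mem x (starBx P.co q₀ X Y) (P.mom (star L L')) := by
  refine ⟨?_, ?_, ?_⟩
  · exact starIv_sound rfl hx hx₀ hm hm' hm.1 hm'.1
      (P.le_pot_star_bil hq hL hL' hS' bddS_rr _ P.lo_r)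
      (P.pot_star_le_bil hq hL hL' hS' bddS_rr _ P.up_r)
  · exact starIv_sound rfl hx hx₀ hm hm' hm.2.1 hm'.2.1
      (P.le_pot_star_bil hq hL hL' hS' P.bdd_t _ P.lo_t)
      (P.pot_star_le_bil hq hL hL' hS' P.bdd_t _ P.up_t)
  · exact starIv_sound rfl hx hx₀ hm hm' hm.2.2 hm'.2.2
      (P.le_pot_star_bil hq hL hL' hS' P.bdd_s _ P.lo_s)
      (P.pot_star_le_bil hq hL hL' hS' P.bdd_s _ P.up_s)

/-- The first moment of a star. -/
lemma star_r_le (hq : q ≠ 0) (hL : IsLik L) (hL' : IsLik L') (hS' : SymLik L') {x : ℝ}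
    (hx : 0 < x) {X Y : Bx} (hm : Mem x X (P.mom L)) (hm' : Mem x Y (P.mom L')) :
    Pot (rr q) (star L L') ≤ Pot (rr q) L + Pot (rr q) L' + x ^ 2 * (bilHi P.co.Ur X Y : ℚ) := by
  have h1 := P.pot_star_le_bil hq hL hL' hS' bddS_rr _ P.up_r
  have h2 := bil_le_bilHi hx P.co.Ur hm hm'
  linarith

end Star

section Contract

variable {Ω : Type*} {L : Ω → Fin q → ℝ}

lemma mom_contract (hq : q ≠ 0) (lam : ℝ) (hL : IsLik L) :
    P.mom (contract lam L) =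
      ⟨lam ^ 2 * (P.mom L).r, lam ^ 3 * (P.mom L).t, lam ^ 4 * (P.mom L).s⟩ := by
  simp only [mom, pot_contract hq, Tr.mk.injEq]
  refine ⟨?_, ?_, ?_⟩
  · rw [← pot_const_mul]
    exact pot_congr hL fun p hp => rr_T hq lam hp
  · rw [← pot_const_mul]
    exact pot_congr hL fun p hp => P.rad_t lam p hp
  · rw [← pot_const_mul]
    exact pot_congr hL fun p hp => P.rad_s lam p hp

end Contract

/-- the triple at no observation -/
lemma mom_starPow_zero {Ω : Type*} (L : Ω → Fin q → ℝ) (hq : q ≠ 0) :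
    P.mom (starPow L 0) = ⟨0, 0, 0⟩ := by
  simp only [mom, pot_starPow_zero L hq, rr_unif hq, P.t_unif, P.s_unif]

end PairSys

/-- the box `{0}` -/
def zeroBx : Bx := ⟨⟨0, 0⟩, ⟨0, 0⟩, ⟨0, 0⟩⟩

lemma mem_zeroBx {x : ℝ} : Mem x zeroBx ⟨0, 0, 0⟩ := by
  refine ⟨⟨?_, ?_⟩, ⟨?_, ?_⟩, ⟨?_, ?_⟩⟩ <;> simp [zeroBx]

/-- the star chain: boxes of `S_k` and the accumulated deficit -/
def chain (S : CoSys) (x₀ : ℚ) (Y : Bx) : ℕ → Bx × ℚ
  | 0 => (zeroBx, 0)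
  | k + 1 => (starBx S x₀ Y (chain S x₀ Y k).1, (chain S x₀ Y k).2 + bilHi S.Ur Y (chain S x₀ Y k).1)

namespace PairSys

variable (P : PairSys q)

lemma chain_sound {Ω : Type*} {X : Ω → Fin q → ℝ} (hq : q ≠ 0) (hX : IsLik X) (hS : SymLik X)
    {x : ℝ} {q₀ : ℚ} (hx : 0 < x) (hx₀ : x ≤ q₀) {Y : Bx} (hY : Mem x Y (P.mom X)) (k : ℕ) :
    Mem x (chain P.co q₀ Y k).1 (P.mom (starPow X k)) ∧
      Pot (rr q) (starPow X k) ≤ k * Pot (rr q) X + x ^ 2 * ((chain P.co q₀ Y k).2 : ℚ) := by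
  induction k with
  | zero =>
    refine ⟨?_, ?_⟩
    · rw [P.mom_starPow_zero X hq]
      exact mem_zeroBx
    · rw [pot_starPow_zero X hq, rr_unif hq]
      simp [chain]
  | succ k ih =>
    obtain ⟨h1, h2⟩ := ih
    have hP := isLik_starPow hX k
    have hS' := symLik_starPow hq hX hS k
    have e : P.mom (starPow X (k + 1)) = P.mom (star X (starPow X k)) := by
      simp only [mom, pot_congr_starPow_succ]
    refine ⟨?_, ?_⟩
    · rw [e]
      exact P.star_sound hq hX hP hS' hx hx₀ hY h1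
    · rw [pot_congr_starPow_succ]
      have h3 := P.star_r_le hq hX hP hS' hx hY h1
      simp only [chain]
      push_cast
      nlinarith

end PairSys

/-- Enclosures of the powers of `λ`. -/
structure LamEnc (lam : ℝ) (l1 l2 l3 l4 : Iv) : Prop where
  h1 : (l1.lo : ℝ) ≤ lam ∧ lam ≤ l1.hi
  h2 : (l2.lo : ℝ) ≤ lam ^ 2 ∧ lam ^ 2 ≤ l2.hi
  h3 : (l3.lo : ℝ) ≤ lam ^ 3 ∧ lam ^ 3 ≤ l3.hi
  h4 : (l4.lo : ℝ) ≤ lam ^ 4 ∧ lam ^ 4 ≤ l4.hi

/-- the box of the contracted law -/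
def contractBx (l2 l3 l4 : Iv) (b : Bx) : Bx := ⟨mulIv l2 b.r, mulIv l3 b.t, mulIv l4 b.s⟩

/-- The level map on the regular tree. -/
def levelReg (S : CoSys) (x₀ : ℚ) (n : ℕ) (l2 l3 l4 : Iv) (b : Bx) : Bx × ℚ :=
  chain S x₀ (contractBx l2 l3 l4 b) n

namespace PairSys

variable (P : PairSys q)

section Sequence

/-- the general facts along a level sequence -/
lemma mom_bounds {Ω : Type*} {L : Ω → Fin q → ℝ} (hq : q ≠ 0) (hL : IsLik L) :
    0 ≤ (P.mom L).r ∧ (- ((P.mom L).r / 2) ≤ (P.mom L).t ∧ (P.mom L).t ≤ (P.mom L).r) ∧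
      (0 ≤ (P.mom L).s ∧ (P.mom L).s ≤ (P.mom L).r) := by
  have hr := bddS_rr (q := q)
  refine ⟨pot_nonneg hL hr fun p hp => rr_nonneg hp, ⟨?_, ?_⟩, ?_, ?_⟩
  · have h := pot_mono hL ((hr.const_mul (-(1 / 2))) ) P.bdd_t (f := fun p => -(1 / 2) * rr q p)
      (fun p hp => by
        have := P.t_lo p hp
        linarith)
    rw [pot_const_mul] at h
    simp only [mom]
    linarith
  · exact pot_mono hL P.bdd_t hr P.t_hi
  · exact pot_nonneg hL P.bdd_s P.s_lo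
  · exact pot_mono hL P.bdd_s hr P.s_hi

end Sequence

/-- **Regular tree.** -/
theorem tendsto_advantage_of_box (hq : q ≠ 0) {b : ℕ} {lam : ℝ} (hc : ChanOK q lam)
    (hbl : (b : ℝ) * lam ^ 2 ≤ 1) {l1 l2 l3 l4 : Iv} (hlam : LamEnc lam l1 l2 l3 l4) {x₀ η : ℚ}
    (hη : 0 < η) {J : ℕ}
    (hJ : (levelReg P.co x₀ b l2 l3 l4 (iterBx (levelReg P.co x₀ b l2 l3 l4) η J)).2 < 0) {ℓ₀ : ℕ}
    (hℓ₀ : Pot (rr q) (regL q b lam ℓ₀) ≤ x₀) :
    Tendsto (advantage q b lam) atTop (nhds 0) := by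
  have hlik : ∀ ℓ, IsLik (regL q b lam ℓ) := fun ℓ => isLik_regL hq hc b ℓ
  have hsym : ∀ ℓ, SymLik (regL q b lam ℓ) := fun ℓ => symLik_regL hq hc b ℓ
  have hlim : Tendsto (fun n => (P.mom (regL q b lam n)).r) atTop (nhds 0) := by
    refine tendsto_of_level (level := levelReg P.co x₀ b l2 l3 l4) (x₀ := x₀) (η := η) (J := J)
      ?_ (fun n => (P.mom_bounds hq (hlik n)).1) (fun n => (P.mom_bounds hq (hlik n)).2.1)
      (fun n => (P.mom_bounds hq (hlik n)).2.2) hη ?_ hJ hℓ₀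
    · exact antitone_nat_of_succ_le fun n =>
        dom_regL_succ hq hc b n _ bddS_rr convexOn_rr
    · intro x hx hx₀ B' n _ hB
      have hL0 := hlik n
      have hX := isLik_contract hq hc hL0
      have hSX := symLik_contract hq hc (hsym n)
      have hY : Mem x (contractBx l2 l3 l4 B') (P.mom (contract lam (regL q b lam n))) := by
        rw [P.mom_contract hq lam hL0]
        exact ⟨mulIv_sound hx hlam.h2 hB.1, mulIv_sound hx hlam.h3 hB.2.1,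
          mulIv_sound hx hlam.h4 hB.2.2⟩
      obtain ⟨h1, h2⟩ := P.chain_sound hq hX hSX hx hx₀ hY b
      have e : P.mom (regL q b lam (n + 1)) =
          P.mom (starPow (contract lam (regL q b lam n)) b) := by
        simp only [mom, pot_regL_succ]
      rw [e]
      refine ⟨h1.2.1, h1.2.2, ?_⟩
      have h3 : Pot (rr q) (contract lam (regL q b lam n)) =
          lam ^ 2 * Pot (rr q) (regL q b lam n) := by
        have := congrArg Tr.r (P.mom_contract hq lam (L := regL q b lam n) hL0)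
        simpa [mom] using this
      show Pot (rr q) (starPow (contract lam (regL q b lam n)) b) ≤
        Pot (rr q) (regL q b lam n) + x ^ 2 * _
      have h4 := (P.mom_bounds hq hL0).1
      have h5 : 0 ≤ Pot (rr q) (regL q b lam n) := h4
      have h6 := mul_le_mul_of_nonneg_right hbl h5
      simp only [levelReg]
      rw [h3] at h2
      nlinarith
  have hA : Tendsto (fun n => Pot (A q) (regL q b lam n)) atTop (nhds 0) := by
    have := hlim.const_mul 2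
    simp only [mul_zero] at this
    refine this.congr fun n => ?_
    simp only [mom, pot_rr]
    ring
  have := tendsto_pot_tv_of_tendsto_A (α := fun ℓ => (Fin ℓ → Fin b) → Fin q)
    (L := fun ℓ => regL q b lam ℓ) hq hlik hA
  refine this.congr fun ℓ => ?_
  exact (advantage_eq hq b lam ℓ (hlik ℓ)).symm


end PairSys

/-! ### Poisson tree -/

/-- the `ℓ¹` norm of the coefficients -/
def sumAbs (c : Co) : ℚ := |c.rr| + 2 * |c.rt| + 2 * |c.rs| + |c.tt| + 2 * |c.ts| + |c.ss|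

lemma sumAbs_nonneg (c : Co) : 0 ≤ sumAbs c := by
  simp only [sumAbs]
  positivity

/-- interval plus error -/
def addErr (I : Iv) (e : ℚ) : Iv := ⟨I.lo - e, I.hi + e⟩

/-- crude constant of the error of a thin Poisson mixture -/
def errC (U L : Co) (Ur : Co) (w η x₀ l2hi : ℚ) : ℚ :=
  rup (max (sumAbs U) (sumAbs L) * w ^ 2 * (1 + η) ^ 2 *
    (1 + sumAbs Ur / 2 * (2 * l2hi * (1 + η) * x₀)) ^ 2 / 2 * 3)

/-- the base box of the doubling -/
def baseBx (S : CoSys) (x₀ w η l2hi : ℚ) (l1 l2 : Iv) (b : Bx) : Bx :=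
  ⟨addErr (mulIv ⟨w, w⟩ b.r) (x₀ * errC S.Ur S.Lr S.Ur w η x₀ l2hi),
    addErr (mulIv ⟨w, w⟩ (mulIv l1 b.t)) (x₀ * errC S.Ut S.Lt S.Ur w η x₀ l2hi),
    addErr (mulIv ⟨w, w⟩ (mulIv l2 b.s)) (x₀ * errC S.Us S.Ls S.Ur w η x₀ l2hi)⟩

/-- the doubling: boxes of `P_{2^j δ}` and the accumulated deficit -/
def dbl (S : CoSys) (x₀ : ℚ) (D₀ : Bx) (e₀ : ℚ) : ℕ → Bx × ℚ
  | 0 => (D₀, e₀)
  | j + 1 => (starBx S x₀ (dbl S x₀ D₀ e₀ j).1 (dbl S x₀ D₀ e₀ j).1,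
      2 * (dbl S x₀ D₀ e₀ j).2 + bilHi S.Ur (dbl S x₀ D₀ e₀ j).1 (dbl S x₀ D₀ e₀ j).1)

/-- The level map on the Poisson tree. -/
def levelPois (S : CoSys) (x₀ η : ℚ) (s : ℕ) (l1 l2 : Iv) (b : Bx) : Bx × ℚ :=
  dbl S x₀ (baseBx S x₀ ((1 / 2) ^ s) η l2.hi l1 l2 b) (errC S.Ur S.Lr S.Ur ((1 / 2) ^ s) η x₀ l2.hi) s

namespace PairSys

variable (P : PairSys q)

lemma abs_t_le {p : Fin q → ℝ} (hp : p ∈ Sx q) : |P.t p| ≤ rr q p := by
  have h1 := P.t_lo p hp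
  have h2 := P.t_hi p hp
  have h3 := rr_nonneg hp
  rw [abs_le]
  constructor <;> linarith

lemma abs_s_le {p : Fin q → ℝ} (hp : p ∈ Sx q) : |P.s p| ≤ rr q p := by
  have h1 := P.s_lo p hp
  have h2 := P.s_hi p hp
  rw [abs_of_nonneg h1]
  exact h2

/-- crude bound of a bilinear form -/
lemma abs_bil_le (c : Co) {p p' : Fin q → ℝ} (hp : p ∈ Sx q) (hp' : p' ∈ Sx q) :
    |bil c (P.tri p) (P.tri p')| ≤ (sumAbs c : ℚ) * (rr q p * rr q p') := by
  set a := rr q p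
  set a' := rr q p'
  have ha : 0 ≤ a := rr_nonneg hp
  have ha' : 0 ≤ a' := rr_nonneg hp'
  have h1 : |P.t p| ≤ a := P.abs_t_le hp
  have h2 : |P.s p| ≤ a := P.abs_s_le hp
  have h3 : |P.t p'| ≤ a' := P.abs_t_le hp'
  have h4 : |P.s p'| ≤ a' := P.abs_s_le hp'
  have key : ∀ (u : ℚ) (b b' : ℝ), |b| ≤ a → |b'| ≤ a' →
      |(u : ℝ) * (b * b')| ≤ |(u : ℝ)| * (a * a') := by
    intro u b b' hb hb'
    rw [abs_mul, abs_mul]
    exact mul_le_mul_of_nonneg_left (mul_le_mul hb hb' (abs_nonneg _) ha) (abs_nonneg _)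
  have ha1 : |a| ≤ a := (abs_of_nonneg ha).le
  have ha2 : |a'| ≤ a' := (abs_of_nonneg ha').le
  have k1 := key c.rr a a' ha1 ha2
  have k2 := key c.rt a (P.t p') ha1 h3
  have k3 := key c.rt (P.t p) a' h1 ha2
  have k4 := key c.rs a (P.s p') ha1 h4
  have k5 := key c.rs (P.s p) a' h2 ha2
  have k6 := key c.tt (P.t p) (P.t p') h1 h3
  have k7 := key c.ts (P.t p) (P.s p') h1 h4
  have k8 := key c.ts (P.s p) (P.t p') h2 h3
  have k9 := key c.ss (P.s p) (P.s p') h2 h4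
  have e : ((sumAbs c : ℚ) : ℝ) * (a * a') = |(c.rr : ℝ)| * (a * a') + 2 * (|(c.rt : ℝ)| * (a * a')) +
      2 * (|(c.rs : ℝ)| * (a * a')) + |(c.tt : ℝ)| * (a * a') +
      2 * (|(c.ts : ℝ)| * (a * a')) + |(c.ss : ℝ)| * (a * a') := by
    simp only [sumAbs]
    push_cast
    ring
  rw [e]
  simp only [bil, tri]
  rw [abs_le] at k1 k2 k3 k4 k5 k6 k7 k8 k9 ⊢
  constructor <;> linarith [k1.1, k1.2, k2.1, k2.2, k3.1, k3.2, k4.1, k4.2, k5.1, k5.2, k6.1,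
    k6.2, k7.1, k7.2, k8.1, k8.2, k9.1, k9.2]

lemma B_neg (f : (Fin q → ℝ) → ℝ) (p p' : Fin q → ℝ) : B (fun x => - f x) p p' = - B f p p' := by
  simp only [B, K]
  rw [← mul_neg, ← Finset.sum_neg_distrib]
  congr 2
  funext π
  ring

lemma B_const_mul (c : ℝ) (f : (Fin q → ℝ) → ℝ) (p p' : Fin q → ℝ) :
    B (fun x => c * f x) p p' = c * B f p p' := by
  simp only [B, K]
  have h : ∀ π : Equiv.Perm (Fin q), (q : ℝ) * ((∑ j, p j * rel π p' j) * (c * f (sp p (rel π p')))) =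
      c * ((q : ℝ) * ((∑ j, p j * rel π p' j) * f (sp p (rel π p')))) := fun π => by ring
  simp only [h]
  rw [← Finset.mul_sum]
  ring

/-- N5 from the pair bound of `r`. -/
lemma N5 {p p' : Fin q → ℝ} (hp : p ∈ Sx q) (hp' : p' ∈ Sx q) :
    B (A q) p p' ≤ A q p + A q p' + ((sumAbs P.co.Ur : ℚ) / 2) * (A q p * A q p') := by
  have h1 := P.up_r p hp p' hp'
  have h2 := P.abs_bil_le P.co.Ur hp hp'
  have h3 : bil P.co.Ur ⟨rr q p, P.t p, P.s p⟩ ⟨rr q p', P.t p', P.s p'⟩ ≤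
      (sumAbs P.co.Ur : ℚ) * (rr q p * rr q p') := (le_abs_self _).trans h2
  have e : A q = fun x => 2 * rr q x := by
    funext x
    simp only [rr]
    ring
  have h4 : B (A q) p p' = 2 * B (rr q) p p' := by
    rw [e]
    exact B_const_mul 2 (rr q) p p'
  rw [h4]
  simp only [rr] at h1 h3 ⊢
  nlinarith

section Base

variable {Ω : Type*} {X : Ω → Fin q → ℝ}

/-- error of a thin Poisson mixture -/
lemma pois_base_ge (hq : q ≠ 0) {δ : ℝ} (hδ : 0 ≤ δ) (hX : IsLik X) (hS : SymLik X)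
    {f : (Fin q → ℝ) → ℝ} (hf : BddS f) (hu : f (fun _ => 1 / (q : ℝ)) = 0) {L : Co}
    (hlo : ∀ p ∈ Sx q, ∀ p' ∈ Sx q, f p + f p' + bil L (P.tri p) (P.tri p') ≤ B f p p') :
    δ * Pot f X - (sumAbs L : ℚ) / 4 * (Pot (A q) X) ^ 2 *
      ((δ * (1 + (sumAbs P.co.Ur : ℚ) / 2 * Pot (A q) X)) ^ 2 / 2 *
        Real.exp (δ * ((sumAbs P.co.Ur : ℚ) / 2) * Pot (A q) X)) ≤ Pot f (poisMix δ X) := by
  have hK : (0 : ℝ) ≤ (sumAbs L : ℚ) / 4 := by
    have : (0 : ℝ) ≤ (sumAbs L : ℚ) := by exact_mod_cast sumAbs_nonneg L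
    positivity
  have hK2 : (0 : ℝ) ≤ (sumAbs P.co.Ur : ℚ) / 2 := by
    have : (0 : ℝ) ≤ (sumAbs P.co.Ur : ℚ) := by exact_mod_cast sumAbs_nonneg P.co.Ur
    positivity
  refine pot_Th_poisMix_ge hq hδ hX hS hf (by rw [hu]) hK hK2 ?_ fun p hp p' hp' => P.N5 hp hp'
  intro p hp p' hp'
  have h1 := hlo p hp p' hp'
  have h2 := P.abs_bil_le L hp hp'
  have h3 : -(((sumAbs L : ℚ) : ℝ) * (rr q p * rr q p')) ≤ bil L (P.tri p) (P.tri p') := by
    have := (abs_le.1 h2).1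
    linarith
  simp only [rr] at h3
  nlinarith

lemma pois_base_le (hq : q ≠ 0) {δ : ℝ} (hδ : 0 ≤ δ) (hX : IsLik X) (hS : SymLik X)
    {f : (Fin q → ℝ) → ℝ} (hf : BddS f) (hu : f (fun _ => 1 / (q : ℝ)) = 0) {U : Co}
    (hup : ∀ p ∈ Sx q, ∀ p' ∈ Sx q, B f p p' ≤ f p + f p' + bil U (P.tri p) (P.tri p')) :
    Pot f (poisMix δ X) ≤ δ * Pot f X + (sumAbs U : ℚ) / 4 * (Pot (A q) X) ^ 2 *
      ((δ * (1 + (sumAbs P.co.Ur : ℚ) / 2 * Pot (A q) X)) ^ 2 / 2 *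
        Real.exp (δ * ((sumAbs P.co.Ur : ℚ) / 2) * Pot (A q) X)) := by
  have hK : (0 : ℝ) ≤ (sumAbs U : ℚ) / 4 := by
    have : (0 : ℝ) ≤ (sumAbs U : ℚ) := by exact_mod_cast sumAbs_nonneg U
    positivity
  have hK2 : (0 : ℝ) ≤ (sumAbs P.co.Ur : ℚ) / 2 := by
    have : (0 : ℝ) ≤ (sumAbs P.co.Ur : ℚ) := by exact_mod_cast sumAbs_nonneg P.co.Ur
    positivity
  have key := pot_Th_poisMix_ge hq hδ hX hS (Th := fun x => - f x) hf.neg
    (by show 0 ≤ - f (fun _ => 1 / (q : ℝ)); rw [hu]; simp) hK hK2 ?_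
    fun p hp p' hp' => P.N5 hp hp'
  · rw [pot_neg, pot_neg] at key
    linarith
  · intro p hp p' hp'
    have h1 := hup p hp p' hp'
    have h2 := P.abs_bil_le U hp hp'
    have h3 : bil U (P.tri p) (P.tri p') ≤ ((sumAbs U : ℚ) : ℝ) * (rr q p * rr q p') :=
      (le_abs_self _).trans h2
    rw [B_neg]
    simp only [rr] at h3
    nlinarith


/-- the error of a thin Poisson mixture, in units of `x ^ 2` -/
lemma err_le {K K2 : ℝ} (hK : 0 ≤ K) (hK2 : 0 ≤ K2) {lam δ d w Φ x x₀ η l2hi : ℝ} (hx : 0 < x)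
    (hxx₀ : x ≤ x₀) (hη : 0 ≤ η) (hΦ0 : 0 ≤ Φ) (hΦ : Φ ≤ x * (1 + η)) (hw : 0 ≤ w) (hδ : δ = d * w)
    (hdl : d * lam ^ 2 = 1) (hl2 : lam ^ 2 ≤ l2hi) (hE : K2 * (2 * w * (1 + η) * x₀) ≤ 1)
    {Y : ℝ} (hY : Y = lam ^ 2 * (2 * Φ)) :
    K / 4 * Y ^ 2 * ((δ * (1 + K2 * Y)) ^ 2 / 2 * Real.exp (δ * K2 * Y)) ≤
      x ^ 2 * (K * w ^ 2 * (1 + η) ^ 2 * (1 + K2 * (2 * l2hi * (1 + η) * x₀)) ^ 2 / 2 * 3) := by
  have hl0 : 0 ≤ lam ^ 2 := by positivity
  have hY0 : 0 ≤ Y := by rw [hY]; positivity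
  have hx0 : 0 ≤ x₀ := hx.le.trans hxx₀
  have h1η : 0 ≤ 1 + η := by linarith
  have hδY : δ * Y = 2 * w * Φ := by
    rw [hδ, hY]
    calc d * w * (lam ^ 2 * (2 * Φ)) = (d * lam ^ 2) * (2 * w * Φ) := by ring
      _ = 2 * w * Φ := by rw [hdl, one_mul]
  have hδY0 : 0 ≤ δ * Y := by rw [hδY]; positivity
  have hδYle : δ * Y ≤ 2 * w * (x * (1 + η)) := by
    rw [hδY]
    exact mul_le_mul_of_nonneg_left hΦ (by positivity)
  have hsq : (δ * Y) ^ 2 ≤ 4 * w ^ 2 * x ^ 2 * (1 + η) ^ 2 := by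
    have := pow_le_pow_left₀ hδY0 hδYle 2
    nlinarith
  have hYle : Y ≤ 2 * l2hi * (1 + η) * x₀ := by
    rw [hY]
    have h1 : Φ ≤ x₀ * (1 + η) := hΦ.trans (mul_le_mul_of_nonneg_right hxx₀ h1η)
    have h2 : lam ^ 2 * Φ ≤ l2hi * (x₀ * (1 + η)) := mul_le_mul hl2 h1 hΦ0 (hl0.trans hl2)
    nlinarith
  have hs : (1 + K2 * Y) ^ 2 ≤ (1 + K2 * (2 * l2hi * (1 + η) * x₀)) ^ 2 := by
    have h1 : K2 * Y ≤ K2 * (2 * l2hi * (1 + η) * x₀) := mul_le_mul_of_nonneg_left hYle hK2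
    have h2 : 0 ≤ 1 + K2 * Y := by positivity
    exact pow_le_pow_left₀ h2 (by linarith) 2
  have hexp : Real.exp (δ * K2 * Y) ≤ 3 := by
    have h1 : δ * K2 * Y ≤ 1 := by
      have h2 : δ * Y ≤ 2 * w * (1 + η) * x₀ := by
        refine hδYle.trans ?_
        have : x * (1 + η) ≤ x₀ * (1 + η) := mul_le_mul_of_nonneg_right hxx₀ h1η
        have h3 : 2 * w * (x * (1 + η)) ≤ 2 * w * (x₀ * (1 + η)) :=
          mul_le_mul_of_nonneg_left this (by positivity)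
        linarith
      have h3 := mul_le_mul_of_nonneg_left h2 hK2
      nlinarith
    have h2 := Real.exp_le_exp.2 h1
    have h3 := Real.exp_one_lt_d9
    linarith
  have hP1 : 0 ≤ (1 + K2 * Y) ^ 2 := by positivity
  have hP2 : 0 ≤ (1 + K2 * (2 * l2hi * (1 + η) * x₀)) ^ 2 := by positivity
  have e : K / 4 * Y ^ 2 * ((δ * (1 + K2 * Y)) ^ 2 / 2 * Real.exp (δ * K2 * Y)) =
      K / 8 * (δ * Y) ^ 2 * (1 + K2 * Y) ^ 2 * Real.exp (δ * K2 * Y) := by ring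
  rw [e]
  have h1 : K / 8 * (δ * Y) ^ 2 * (1 + K2 * Y) ^ 2 ≤
      K / 8 * (4 * w ^ 2 * x ^ 2 * (1 + η) ^ 2) * (1 + K2 * (2 * l2hi * (1 + η) * x₀)) ^ 2 := by
    refine mul_le_mul ?_ hs hP1 (by positivity)
    exact mul_le_mul_of_nonneg_left hsq (by positivity)
  have h2 : 0 ≤ K / 8 * (δ * Y) ^ 2 * (1 + K2 * Y) ^ 2 := by positivity
  have h3 : K / 8 * (δ * Y) ^ 2 * (1 + K2 * Y) ^ 2 * Real.exp (δ * K2 * Y) ≤
      K / 8 * (4 * w ^ 2 * x ^ 2 * (1 + η) ^ 2) * (1 + K2 * (2 * l2hi * (1 + η) * x₀)) ^ 2 * 3 :=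
    mul_le_mul h1 hexp (Real.exp_pos _).le (by positivity)
  refine h3.trans (le_of_eq ?_)
  ring

end Base

/-! ### soundness of the Poisson level map -/

section PoisLevel

variable {Ω : Type*} {L : Ω → Fin q → ℝ}

/-- the rational error constant dominates the real one -/
lemma errC_ge (U Lo Ur : Co) (w η x₀ l2hi : ℚ) {K : ℝ} (hK : K = (sumAbs U : ℚ) ∨ K = (sumAbs Lo : ℚ)) :
    K * (w : ℝ) ^ 2 * (1 + (η : ℝ)) ^ 2 *
        (1 + ((sumAbs Ur : ℚ) : ℝ) / 2 * (2 * (l2hi : ℝ) * (1 + (η : ℝ)) * (x₀ : ℝ))) ^ 2 / 2 * 3 ≤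
      (errC U Lo Ur w η x₀ l2hi : ℚ) := by
  have h := le_rup (max (sumAbs U) (sumAbs Lo) * w ^ 2 * (1 + η) ^ 2 *
    (1 + sumAbs Ur / 2 * (2 * l2hi * (1 + η) * x₀)) ^ 2 / 2 * 3)
  have h' : ((max (sumAbs U) (sumAbs Lo) * w ^ 2 * (1 + η) ^ 2 *
    (1 + sumAbs Ur / 2 * (2 * l2hi * (1 + η) * x₀)) ^ 2 / 2 * 3 : ℚ) : ℝ) ≤
      (errC U Lo Ur w η x₀ l2hi : ℚ) := by exact_mod_cast h
  refine le_trans ?_ h'
  push_cast
  have hK' : K ≤ max ((sumAbs U : ℚ) : ℝ) ((sumAbs Lo : ℚ) : ℝ) := by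
    rcases hK with h | h <;> rw [h]
    · exact le_max_left _ _
    · exact le_max_right _ _
  have hpos : 0 ≤ (w : ℝ) ^ 2 * (1 + (η : ℝ)) ^ 2 *
      (1 + ((sumAbs Ur : ℚ) : ℝ) / 2 * (2 * (l2hi : ℝ) * (1 + (η : ℝ)) * (x₀ : ℝ))) ^ 2 / 2 * 3 := by
    positivity
  have := mul_le_mul_of_nonneg_right hK' hpos
  nlinarith

lemma errC_nonneg (U Lo Ur : Co) (w η x₀ l2hi : ℚ) : (0 : ℝ) ≤ (errC U Lo Ur w η x₀ l2hi : ℚ) := by
  have h := errC_ge U Lo Ur w η x₀ l2hi (K := (sumAbs U : ℚ)) (Or.inl rfl)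
  refine le_trans ?_ h
  have : (0 : ℝ) ≤ ((sumAbs U : ℚ) : ℝ) := by exact_mod_cast sumAbs_nonneg U
  positivity

end PoisLevel

/-- a point of `addErr` -/
lemma inIv_addErr {x x₀ : ℝ} {q₀ e : ℚ} (hq₀ : (q₀ : ℝ) = x₀) (hx : 0 < x) (hxx₀ : x ≤ x₀)
    (he : (0 : ℝ) ≤ (e : ℝ)) {I : Iv} {v w : ℝ} (hw : InIv x I w)
    (h1 : w - x ^ 2 * (e : ℝ) ≤ v) (h2 : v ≤ w + x ^ 2 * (e : ℝ)) :
    InIv x (addErr I (q₀ * e)) v := by
  have h3 : x ^ 2 * (e : ℝ) ≤ x * (x₀ * (e : ℝ)) := by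
    have : x * x ≤ x * x₀ := mul_le_mul_of_nonneg_left hxx₀ hx.le
    nlinarith [mul_le_mul_of_nonneg_right this he]
  constructor
  · show x * ((I.lo - q₀ * e : ℚ) : ℝ) ≤ v
    push_cast
    rw [hq₀]
    have := hw.1
    nlinarith
  · show v ≤ x * ((I.hi + q₀ * e : ℚ) : ℝ)
    push_cast
    rw [hq₀]
    have := hw.2
    nlinarith

/-- Soundness of the base box of the doubling. -/
lemma base_sound (hq : q ≠ 0) {lam d : ℝ} {s : ℕ} (hc : ChanOK q lam) (hd : 0 ≤ d)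
    (hdl : d * lam ^ 2 = 1) {l1 l2 l3 l4 : Iv} (hlam : LamEnc lam l1 l2 l3 l4) {x₀ η : ℚ}
    (hη : 0 ≤ η) (hE : ((sumAbs P.co.Ur : ℚ) / 2 : ℝ) * (2 * (((1 / 2 : ℚ) ^ s : ℚ) : ℝ) * (1 + (η : ℝ)) * x₀) ≤ 1)
    {Ω : Type*} {L : Ω → Fin q → ℝ} (hL : IsLik L) (hS : SymLik L) {x : ℝ} (hx : 0 < x)
    (hxx₀ : x ≤ x₀) {b : Bx} (hb : b.r = ⟨1, 1 + η⟩) (hm : Mem x b (P.mom L)) :
    Mem x (baseBx P.co x₀ ((1 / 2) ^ s) η l2.hi l1 l2 b)
        (P.mom (poisMix (d * ((1 / 2 : ℝ) ^ s)) (contract lam L))) ∧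
      Pot (rr q) (poisMix (d * ((1 / 2 : ℝ) ^ s)) (contract lam L)) ≤
        ((1 / 2 : ℝ) ^ s) * Pot (rr q) L +
          x ^ 2 * (errC P.co.Ur P.co.Lr P.co.Ur ((1 / 2) ^ s) η x₀ l2.hi : ℚ) := by
  have hX := isLik_contract hq hc hL
  have hSX := symLik_contract hq hc hS
  set w : ℝ := (1 / 2 : ℝ) ^ s with hw
  have hw0 : 0 ≤ w := by positivity
  have hwq : (((1 / 2 : ℚ) ^ s : ℚ) : ℝ) = w := by
    rw [hw]
    push_cast
    rfl
  have hδ : 0 ≤ d * w := mul_nonneg hd hw0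
  set δ := d * w with hδ_def
  have hr0 : 0 ≤ (P.mom L).r := (P.mom_bounds hq hL).1
  have hrhi : (P.mom L).r ≤ x * (1 + (η : ℝ)) := by
    have := hm.1.2
    rw [hb] at this
    simpa using this
  have hηR : (0 : ℝ) ≤ η := by exact_mod_cast hη
  have hmom := congrArg Tr.r (P.mom_contract hq lam (L := L) hL)
  have hmomt := congrArg Tr.t (P.mom_contract hq lam (L := L) hL)
  have hmoms := congrArg Tr.s (P.mom_contract hq lam (L := L) hL)
  simp only [mom] at hmom hmomt hmoms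
  -- `A`-potential of the contraction
  have hY : Pot (A q) (contract lam L) = lam ^ 2 * (2 * (P.mom L).r) := by
    rw [pot_A_contract hq lam hL]
    simp only [mom, pot_rr]
    ring
  have hK2 : (0 : ℝ) ≤ ((sumAbs P.co.Ur : ℚ) : ℝ) / 2 := by
    have : (0 : ℝ) ≤ ((sumAbs P.co.Ur : ℚ) : ℝ) := by exact_mod_cast sumAbs_nonneg P.co.Ur
    positivity
  have herr : ∀ (U Lo : Co) (K' : Co), (K' = U ∨ K' = Lo) →
      ((sumAbs K' : ℚ) : ℝ) / 4 * (Pot (A q) (contract lam L)) ^ 2 *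
        ((δ * (1 + ((sumAbs P.co.Ur : ℚ) : ℝ) / 2 * Pot (A q) (contract lam L))) ^ 2 / 2 *
          Real.exp (δ * (((sumAbs P.co.Ur : ℚ) : ℝ) / 2) * Pot (A q) (contract lam L))) ≤
        x ^ 2 * (errC U Lo P.co.Ur ((1 / 2) ^ s) η x₀ l2.hi : ℚ) := by
    intro U Lo K' hK'
    have hK0 : (0 : ℝ) ≤ ((sumAbs K' : ℚ) : ℝ) := by exact_mod_cast sumAbs_nonneg K'
    have h1 := err_le (K := ((sumAbs K' : ℚ) : ℝ)) (K2 := ((sumAbs P.co.Ur : ℚ) : ℝ) / 2) hK0 hK2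
      (lam := lam) (δ := δ) (d := d) (w := w) (Φ := (P.mom L).r) (x := x) (x₀ := (x₀ : ℝ))
      (η := (η : ℝ)) (l2hi := (l2.hi : ℝ)) hx hxx₀ hηR hr0 hrhi hw0 rfl hdl hlam.h2.2
      (by rw [hwq] at hE; exact hE) hY
    refine h1.trans (mul_le_mul_of_nonneg_left ?_ (by positivity))
    have := errC_ge U Lo P.co.Ur ((1 / 2) ^ s) η x₀ l2.hi (K := ((sumAbs K' : ℚ) : ℝ))
      (by
        rcases hK' with h | h
        · exact Or.inl (by rw [h])
        · exact Or.inr (by rw [h]))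
    rw [hwq] at this
    exact this
  have hr := bddS_rr (q := q)
  have hδw : δ * lam ^ 2 = w := by
    rw [hδ_def]
    calc d * w * lam ^ 2 = (d * lam ^ 2) * w := by ring
      _ = w := by rw [hdl, one_mul]
  -- the three components
  have hw_iv : ((⟨(1 / 2) ^ s, (1 / 2) ^ s⟩ : Iv).lo : ℝ) ≤ w ∧ w ≤ ((⟨(1 / 2) ^ s, (1 / 2) ^ s⟩ : Iv).hi : ℝ) := by
    constructor
    · exact le_of_eq hwq
    · exact le_of_eq hwq.symm
  have c1 : δ * Pot (rr q) (contract lam L) = w * (P.mom L).r := by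
    show δ * Pot (rr q) (contract lam L) = w * Pot (rr q) L
    rw [hmom, ← hδw]
    ring
  have c2 : δ * Pot P.t (contract lam L) = w * (lam * (P.mom L).t) := by
    show δ * Pot P.t (contract lam L) = w * (lam * Pot P.t L)
    rw [hmomt, ← hδw]
    ring
  have c3 : δ * Pot P.s (contract lam L) = w * (lam ^ 2 * (P.mom L).s) := by
    show δ * Pot P.s (contract lam L) = w * (lam ^ 2 * Pot P.s L)
    rw [hmoms, ← hδw]
    ring
  have t1 := P.pois_base_ge hq hδ hX hSX hr (rr_unif hq) P.lo_r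
  have t2 := P.pois_base_le hq hδ hX hSX hr (rr_unif hq) P.up_r
  have t3 := P.pois_base_ge hq hδ hX hSX P.bdd_t P.t_unif P.lo_t
  have t4 := P.pois_base_le hq hδ hX hSX P.bdd_t P.t_unif P.up_t
  have t5 := P.pois_base_ge hq hδ hX hSX P.bdd_s P.s_unif P.lo_s
  have t6 := P.pois_base_le hq hδ hX hSX P.bdd_s P.s_unif P.up_s
  have e1 := herr P.co.Ur P.co.Lr P.co.Lr (Or.inr rfl)
  have e2 := herr P.co.Ur P.co.Lr P.co.Ur (Or.inl rfl)
  have e3 := herr P.co.Ut P.co.Lt P.co.Lt (Or.inr rfl)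
  have e4 := herr P.co.Ut P.co.Lt P.co.Ut (Or.inl rfl)
  have e5 := herr P.co.Us P.co.Ls P.co.Ls (Or.inr rfl)
  have e6 := herr P.co.Us P.co.Ls P.co.Us (Or.inl rfl)
  refine ⟨⟨?_, ?_, ?_⟩, ?_⟩
  · refine inIv_addErr rfl hx hxx₀ (errC_nonneg _ _ _ _ _ _ _)
      (mulIv_sound hx hw_iv hm.1) ?_ ?_
    · show _ ≤ Pot (rr q) _
      rw [c1] at t1
      linarith
    · show Pot (rr q) _ ≤ _
      rw [c1] at t2
      linarith
  · refine inIv_addErr rfl hx hxx₀ (errC_nonneg _ _ _ _ _ _ _)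
      (mulIv_sound hx hw_iv (mulIv_sound hx hlam.h1 hm.2.1)) ?_ ?_
    · show _ ≤ Pot P.t _
      rw [c2] at t3
      linarith
    · show Pot P.t _ ≤ _
      rw [c2] at t4
      linarith
  · refine inIv_addErr rfl hx hxx₀ (errC_nonneg _ _ _ _ _ _ _)
      (mulIv_sound hx hw_iv (mulIv_sound hx hlam.h2 hm.2.2)) ?_ ?_
    · show _ ≤ Pot P.s _
      rw [c3] at t5
      linarith
    · show Pot P.s _ ≤ _
      rw [c3] at t6
      linarith
  · rw [c1] at t2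
    have : ((1 / 2 : ℝ) ^ s) * Pot (rr q) L = w * (P.mom L).r := rfl
    rw [this]
    linarith

/-- Soundness of the doubling. -/
lemma dbl_sound (hq : q ≠ 0) {Ω : Type*} {X : Ω → Fin q → ℝ} (hX : IsLik X) (hS : SymLik X)
    {δ : ℝ} (hδ : 0 ≤ δ) {x : ℝ} {q₀ : ℚ} (hx : 0 < x) (hx₀ : x ≤ q₀) {D₀ : Bx} {e₀ : ℚ} {v : ℝ}
    (h0 : Mem x D₀ (P.mom (poisMix δ X)))
    (h1 : Pot (rr q) (poisMix δ X) ≤ v + x ^ 2 * (e₀ : ℚ)) (j : ℕ) :
    Mem x (dbl P.co q₀ D₀ e₀ j).1 (P.mom (poisMix ((2 : ℝ) ^ j * δ) X)) ∧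
      Pot (rr q) (poisMix ((2 : ℝ) ^ j * δ) X) ≤
        (2 : ℝ) ^ j * v + x ^ 2 * ((dbl P.co q₀ D₀ e₀ j).2 : ℚ) := by
  induction j with
  | zero =>
    simpa [dbl] using ⟨h0, h1⟩
  | succ j ih =>
    obtain ⟨i1, i2⟩ := ih
    have ha : 0 ≤ (2 : ℝ) ^ j * δ := by positivity
    set a := (2 : ℝ) ^ j * δ with ha_def
    have e2 : (2 : ℝ) ^ (j + 1) * δ = a + a := by
      rw [ha_def, pow_succ]
      ring
    have hP := isLik_poisMix ha hX
    have hSP := symLik_poisMix hq ha hX hS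
    have e : P.mom (poisMix (a + a) X) = P.mom (star (poisMix a X) (poisMix a X)) := by
      simp only [mom]
      rw [pot_star_poisMix hq ha ha hX bddS_rr, pot_star_poisMix hq ha ha hX P.bdd_t,
        pot_star_poisMix hq ha ha hX P.bdd_s]
    rw [e2]
    refine ⟨?_, ?_⟩
    · rw [e]
      exact P.star_sound hq hP hP hSP hx hx₀ i1 i1
    · rw [← pot_star_poisMix hq ha ha hX bddS_rr]
      have h3 := P.star_r_le hq hP hP hSP hx i1 i1
      simp only [dbl]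
      push_cast
      rw [pow_succ]
      nlinarith

/-- **Poisson tree.** -/
theorem tendsto_gwAdvantage_of_box (hq : q ≠ 0) {d lam : ℝ} (hd : 0 ≤ d) (hc : ChanOK q lam)
    (hdl : d * lam ^ 2 = 1) {l1 l2 l3 l4 : Iv} (hlam : LamEnc lam l1 l2 l3 l4) {x₀ η : ℚ}
    (hη : 0 < η) {s J : ℕ}
    (hE : ((sumAbs P.co.Ur : ℚ) / 2 : ℝ) * (2 * (((1 / 2 : ℚ) ^ s : ℚ) : ℝ) * (1 + (η : ℝ)) * x₀) ≤ 1)
    (hJ : (levelPois P.co x₀ η s l1 l2 (iterBx (levelPois P.co x₀ η s l1 l2) η J)).2 < 0) {ℓ₀ : ℕ}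
    (hℓ₀ : Pot (rr q) (gwL q lam d ℓ₀) ≤ x₀) :
    Tendsto (gwAdvantage q lam d) atTop (nhds 0) := by
  have hlik : ∀ ℓ, IsLik (gwL q lam d ℓ) := fun ℓ => isLik_gwL hq hc hd ℓ
  have hsym : ∀ ℓ, SymLik (gwL q lam d ℓ) := fun ℓ => symLik_gwL hq hc hd ℓ
  have hlim : Tendsto (fun n => (P.mom (gwL q lam d n)).r) atTop (nhds 0) := by
    refine tendsto_of_level (level := levelPois P.co x₀ η s l1 l2) (x₀ := x₀) (η := η) (J := J)
      ?_ (fun n => (P.mom_bounds hq (hlik n)).1) (fun n => (P.mom_bounds hq (hlik n)).2.1)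
      (fun n => (P.mom_bounds hq (hlik n)).2.2) hη ?_ hJ hℓ₀
    · exact antitone_nat_of_succ_le fun n =>
        dom_gwL_succ hq hc hd n _ bddS_rr convexOn_rr
    · intro x hx hx₀ B' n hbr hB
      have hL0 := hlik n
      have hX := isLik_contract hq hc hL0
      have hSX := symLik_contract hq hc (hsym n)
      obtain ⟨b1, b2⟩ := P.base_sound hq (s := s) hc hd hdl hlam hη.le hE hL0 (hsym n) hx hx₀ hbr hB
      have hw0 : (0 : ℝ) ≤ d * ((1 / 2 : ℝ) ^ s) := by positivity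
      obtain ⟨h1, h2⟩ := P.dbl_sound hq hX hSX hw0 hx hx₀ b1 b2 s
      have e0 : (2 : ℝ) ^ s * (d * ((1 / 2 : ℝ) ^ s)) = d := by
        have : (2 : ℝ) ^ s * (1 / 2 : ℝ) ^ s = 1 := by
          rw [← mul_pow]
          norm_num
        calc (2 : ℝ) ^ s * (d * ((1 / 2 : ℝ) ^ s)) = d * ((2 : ℝ) ^ s * (1 / 2 : ℝ) ^ s) := by ring
          _ = d := by rw [this, mul_one]
      rw [e0] at h1 h2
      have e : P.mom (gwL q lam d (n + 1)) = P.mom (poisMix d (contract lam (gwL q lam d n))) := by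
        rw [gwL_succ]
      rw [e]
      refine ⟨h1.2.1, h1.2.2, ?_⟩
      have e3 : (2 : ℝ) ^ s * (((1 / 2 : ℝ) ^ s) * Pot (rr q) (gwL q lam d n)) =
          Pot (rr q) (gwL q lam d n) := by
        have : (2 : ℝ) ^ s * (1 / 2 : ℝ) ^ s = 1 := by
          rw [← mul_pow]
          norm_num
        rw [← mul_assoc, this, one_mul]
      rw [e3] at h2
      exact h2
  have hA : Tendsto (fun n => Pot (A q) (gwL q lam d n)) atTop (nhds 0) := by
    have := hlim.const_mul 2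
    simp only [mul_zero] at this
    refine this.congr fun n => ?_
    simp only [mom, pot_rr]
    ring
  have := tendsto_pot_tv_of_tendsto_A (α := fun ℓ => PObs q ℓ)
    (L := fun ℓ => gwL q lam d ℓ) hq hlik hA
  refine this.congr fun ℓ => ?_
  exact (gwAdvantage_eq hq hc hd ℓ).symm

end PairSys

end Crest.Agent.PottsTree.BoxTail
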