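import Crest.Agent.Lib.PottsTree.CertQ3Refl

/-! Data of a Bernstein sign check (q = 3). -/

set_option linter.unusedVariables false

set_option maxRecDepth 100000

noncomputable section

namespace Crest.Agent.PottsTree.CertQ3

def monsB1 (u v c : ℝ) : List ℝ := [u^8,u^7*v,u^7*c,u^6*v^2,u^6*v*c,u^6*c^2,u^5*v^3,u^5*v^2*c,u^5*v*c^2,u^5*c^3,u^4*v^4,u^4*v^3*c,u^4*v^2*c^2,u^4*v*c^3,u^4*c^4,u^3*v^5,u^3*v^4*c,u^3*v^3*c^2,u^3*v^2*c^3,u^3*v*c^4,u^3*c^5,u^2*v^6,u^2*v^5*c,u^2*v^4*c^2,u^2*v^3*c^3,u^2*v^2*c^4,u^2*v*c^5,u^2*c^6,u*v^7,u*v^6*c,u*v^5*c^2,u*v^4*c^3,u*v^3*c^4,u*v^2*c^5,u*v*c^6,u*c^7,v^8,v^7*c,v^6*c^2,v^5*c^3,v^4*c^4,v^3*c^5,v^2*c^6,v*c^7,c^8]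

def TB1_0 : List ℤ := [Int.ofNat 2,Int.ofNat 23,Int.ofNat 30,Int.ofNat 107,Int.ofNat 285,Int.ofNat 180,Int.ofNat 248,Int.ofNat 1035,Int.ofNat 1350,Int.ofNat 540,Int.ofNat 260,Int.ofNat 1650,Int.ofNat 3510,Int.ofNat 2970,Int.ofNat 810,Int.negSucc 15,Int.ofNat 600,Int.ofNat 2880,Int.ofNat 4590,Int.ofNat 2835,Int.ofNat 486,Int.negSucc 303,Int.negSucc 1439,Int.negSucc 2159,Int.negSucc 539,Int.ofNat 1215,Int.ofNat 729,Int.ofNat 0,Int.negSucc 255,Int.negSucc 1679,Int.negSucc 4319,Int.negSucc 5399,Int.negSucc 3239,Int.negSucc 728,Int.ofNat 0,Int.ofNat 0,Int.negSucc 63,Int.negSucc 479,Int.negSucc 1439,Int.negSucc 2159,Int.negSucc 1619,Int.negSucc 485,Int.ofNat 0,Int.ofNat 0,Int.ofNat 0]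
def TB1_1 : List ℤ := [Int.ofNat 4,Int.ofNat 28,Int.ofNat 24,Int.ofNat 61,Int.ofNat 120,Int.ofNat 36,Int.ofNat 10,Int.ofNat 126,Int.ofNat 108,Int.ofNat 0,Int.negSucc 118,Int.negSucc 191,Int.negSucc 26,Int.ofNat 0,Int.ofNat 0,Int.negSucc 103,Int.negSucc 329,Int.negSucc 233,Int.ofNat 0,Int.ofNat 0,Int.ofNat 0,Int.ofNat 40,Int.ofNat 36,Int.negSucc 26,Int.ofNat 0,Int.ofNat 0,Int.ofNat 0,Int.ofNat 0,Int.ofNat 64,Int.ofNat 168,Int.ofNat 108,Int.ofNat 0,Int.ofNat 0,Int.ofNat 0,Int.ofNat 0,Int.ofNat 0,Int.ofNat 16,Int.ofNat 48,Int.ofNat 36,Int.ofNat 0,Int.ofNat 0,Int.ofNat 0,Int.ofNat 0,Int.ofNat 0,Int.ofNat 0]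
def TB1_2 : List ℤ := [Int.ofNat 1,Int.ofNat 13,Int.ofNat 18,Int.ofNat 73,Int.ofNat 198,Int.ofNat 135,Int.ofNat 232,Int.ofNat 918,Int.ofNat 1215,Int.ofNat 540,Int.ofNat 460,Int.ofNat 2340,Int.ofNat 4455,Int.ofNat 3780,Int.ofNat 1215,Int.ofNat 592,Int.ofNat 3600,Int.ofNat 8640,Int.ofNat 10260,Int.ofNat 6075,Int.ofNat 1458,Int.ofNat 496,Int.ofNat 3456,Int.ofNat 9720,Int.ofNat 14040,Int.ofNat 10935,Int.ofNat 4374,Int.ofNat 729,Int.ofNat 256,Int.ofNat 2016,Int.ofNat 6480,Int.ofNat 10800,Int.ofNat 9720,Int.ofNat 4374,Int.ofNat 729,Int.ofNat 0,Int.ofNat 64,Int.ofNat 576,Int.ofNat 2160,Int.ofNat 4320,Int.ofNat 4860,Int.ofNat 2916,Int.ofNat 729,Int.ofNat 0,Int.ofNat 0]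
def TB1_3 : List ℤ := [Int.ofNat 2,Int.ofNat 17,Int.ofNat 18,Int.ofNat 56,Int.ofNat 117,Int.ofNat 54,Int.ofNat 86,Int.ofNat 270,Int.ofNat 243,Int.ofNat 54,Int.ofNat 47,Int.ofNat 234,Int.ofNat 324,Int.ofNat 135,Int.ofNat 0,Int.negSucc 39,Int.negSucc 44,Int.ofNat 54,Int.ofNat 54,Int.ofNat 0,Int.ofNat 0,Int.negSucc 87,Int.negSucc 269,Int.negSucc 242,Int.negSucc 53,Int.ofNat 0,Int.ofNat 0,Int.ofNat 0,Int.negSucc 63,Int.negSucc 251,Int.negSucc 323,Int.negSucc 134,Int.ofNat 0,Int.ofNat 0,Int.ofNat 0,Int.ofNat 0,Int.negSucc 15,Int.negSucc 71,Int.negSucc 107,Int.negSucc 53,Int.ofNat 0,Int.ofNat 0,Int.ofNat 0,Int.ofNat 0,Int.ofNat 0]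
def TB1_4 : List ℤ := [Int.ofNat 4,Int.ofNat 16,Int.ofNat 0,Int.ofNat 13,Int.ofNat 0,Int.ofNat 0,Int.negSucc 16,Int.ofNat 0,Int.ofNat 0,Int.ofNat 0,Int.negSucc 31,Int.ofNat 0,Int.ofNat 0,Int.ofNat 0,Int.ofNat 0,Int.negSucc 16,Int.ofNat 0,Int.ofNat 0,Int.ofNat 0,Int.ofNat 0,Int.ofNat 0,Int.ofNat 13,Int.ofNat 0,Int.ofNat 0,Int.ofNat 0,Int.ofNat 0,Int.ofNat 0,Int.ofNat 0,Int.ofNat 16,Int.ofNat 0,Int.ofNat 0,Int.ofNat 0,Int.ofNat 0,Int.ofNat 0,Int.ofNat 0,Int.ofNat 0,Int.ofNat 4,Int.ofNat 0,Int.ofNat 0,Int.ofNat 0,Int.ofNat 0,Int.ofNat 0,Int.ofNat 0,Int.ofNat 0,Int.ofNat 0]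
def TB1_5 : List ℤ := [Int.ofNat 1,Int.ofNat 10,Int.ofNat 12,Int.ofNat 43,Int.ofNat 96,Int.ofNat 54,Int.ofNat 106,Int.ofNat 324,Int.ofNat 324,Int.ofNat 108,Int.ofNat 169,Int.ofNat 624,Int.ofNat 810,Int.ofNat 432,Int.ofNat 81,Int.ofNat 184,Int.ofNat 780,Int.ofNat 1188,Int.ofNat 756,Int.ofNat 162,Int.ofNat 0,Int.ofNat 136,Int.ofNat 648,Int.ofNat 1134,Int.ofNat 864,Int.ofNat 243,Int.ofNat 0,Int.ofNat 0,Int.ofNat 64,Int.ofNat 336,Int.ofNat 648,Int.ofNat 540,Int.ofNat 162,Int.ofNat 0,Int.ofNat 0,Int.ofNat 0,Int.ofNat 16,Int.ofNat 96,Int.ofNat 216,Int.ofNat 216,Int.ofNat 81,Int.ofNat 0,Int.ofNat 0,Int.ofNat 0,Int.ofNat 0]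
def TB1_6 : List ℤ := [Int.ofNat 2,Int.ofNat 11,Int.ofNat 6,Int.ofNat 23,Int.ofNat 21,Int.ofNat 0,Int.ofNat 23,Int.ofNat 27,Int.ofNat 0,Int.ofNat 0,Int.ofNat 5,Int.ofNat 15,Int.ofNat 0,Int.ofNat 0,Int.ofNat 0,Int.negSucc 18,Int.negSucc 14,Int.ofNat 0,Int.ofNat 0,Int.ofNat 0,Int.ofNat 0,Int.negSucc 24,Int.negSucc 26,Int.ofNat 0,Int.ofNat 0,Int.ofNat 0,Int.ofNat 0,Int.ofNat 0,Int.negSucc 15,Int.negSucc 20,Int.ofNat 0,Int.ofNat 0,Int.ofNat 0,Int.ofNat 0,Int.ofNat 0,Int.ofNat 0,Int.negSucc 3,Int.negSucc 5,Int.ofNat 0,Int.ofNat 0,Int.ofNat 0,Int.ofNat 0,Int.ofNat 0,Int.ofNat 0,Int.ofNat 0]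
def TB1_7 : List ℤ := [Int.ofNat 1,Int.ofNat 7,Int.ofNat 6,Int.ofNat 22,Int.ofNat 30,Int.ofNat 9,Int.ofNat 43,Int.ofNat 72,Int.ofNat 27,Int.ofNat 0,Int.ofNat 58,Int.ofNat 114,Int.ofNat 54,Int.ofNat 0,Int.ofNat 0,Int.ofNat 55,Int.ofNat 120,Int.ofNat 63,Int.ofNat 0,Int.ofNat 0,Int.ofNat 0,Int.ofNat 37,Int.ofNat 90,Int.ofNat 54,Int.ofNat 0,Int.ofNat 0,Int.ofNat 0,Int.ofNat 0,Int.ofNat 16,Int.ofNat 42,Int.ofNat 27,Int.ofNat 0,Int.ofNat 0,Int.ofNat 0,Int.ofNat 0,Int.ofNat 0,Int.ofNat 4,Int.ofNat 12,Int.ofNat 9,Int.ofNat 0,Int.ofNat 0,Int.ofNat 0,Int.ofNat 0,Int.ofNat 0,Int.ofNat 0]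
def TB1_8 : List ℤ := [Int.ofNat 1,Int.ofNat 4,Int.ofNat 0,Int.ofNat 10,Int.ofNat 0,Int.ofNat 0,Int.ofNat 16,Int.ofNat 0,Int.ofNat 0,Int.ofNat 0,Int.ofNat 19,Int.ofNat 0,Int.ofNat 0,Int.ofNat 0,Int.ofNat 0,Int.ofNat 16,Int.ofNat 0,Int.ofNat 0,Int.ofNat 0,Int.ofNat 0,Int.ofNat 0,Int.ofNat 10,Int.ofNat 0,Int.ofNat 0,Int.ofNat 0,Int.ofNat 0,Int.ofNat 0,Int.ofNat 0,Int.ofNat 4,Int.ofNat 0,Int.ofNat 0,Int.ofNat 0,Int.ofNat 0,Int.ofNat 0,Int.ofNat 0,Int.ofNat 0,Int.ofNat 1,Int.ofNat 0,Int.ofNat 0,Int.ofNat 0,Int.ofNat 0,Int.ofNat 0,Int.ofNat 0,Int.ofNat 0,Int.ofNat 0]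
def TB1 : List (List ℤ) := [TB1_0,TB1_1,TB1_2,TB1_3,TB1_4,TB1_5,TB1_6,TB1_7,TB1_8]
def MB1 : List (List ℤ) := [[Int.negSucc 5194,Int.ofNat 0,Int.ofNat 2166,Int.ofNat 14565,Int.ofNat 0,Int.negSucc 24249,Int.ofNat 0,Int.ofNat 0,Int.ofNat 0],[Int.ofNat 0,Int.ofNat 5675,Int.ofNat 0,Int.negSucc 8334,Int.negSucc 634,Int.ofNat 0,Int.ofNat 3295,Int.negSucc 11349,Int.ofNat 1270],[Int.ofNat 2166,Int.ofNat 0,Int.ofNat 1312,Int.ofNat 0,Int.ofNat 0,Int.ofNat 14640,Int.ofNat 0,Int.ofNat 0,Int.ofNat 0],[Int.ofNat 14565,Int.negSucc 8334,Int.ofNat 0,Int.negSucc 33059,Int.ofNat 0,Int.ofNat 87390,Int.ofNat 16475,Int.negSucc 50009,Int.ofNat 0],[Int.ofNat 0,Int.negSucc 634,Int.ofNat 0,Int.ofNat 0,Int.ofNat 4445,Int.ofNat 0,Int.negSucc 3809,Int.ofNat 1270,Int.negSucc 8889],[Int.negSucc 24249,Int.ofNat 0,Int.ofNat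 14640,Int.ofNat 87390,Int.ofNat 0,Int.negSucc 22079,Int.ofNat 0,Int.negSucc 100019,Int.ofNat 0],[Int.ofNat 0,Int.ofNat 3295,Int.ofNat 0,Int.ofNat 16475,Int.negSucc 3809,Int.ofNat 0,Int.negSucc 39384,Int.ofNat 59310,Int.negSucc 11429],[Int.ofNat 0,Int.negSucc 11349,Int.ofNat 0,Int.negSucc 50009,Int.ofNat 1270,Int.negSucc 100019,Int.ofNat 59310,Int.ofNat 149680,Int.negSucc 27939],[Int.ofNat 0,Int.ofNat 1270,Int.ofNat 0,Int.ofNat 0,Int.negSucc 8889,Int.ofNat 0,Int.negSucc 11429,Int.negSucc 27939,Int.ofNat 81280]]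

theorem checkB1 : checkBil MB1 TB1 45 = true := by decide +kernel

end Crest.Agent.PottsTree.CertQ3

end
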