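import Crest.Agent.Lib.PottsTree.CertQ3Refl

/-! Data of a Bernstein sign check (q = 3). -/

set_option linter.unusedVariables false

set_option maxRecDepth 100000

noncomputable section

namespace Crest.Agent.PottsTree.CertQ3

def monsB2 (u v c : ℝ) : List ℝ := [u^12,u^11*v,u^11*c,u^10*v^2,u^10*v*c,u^10*c^2,u^9*v^3,u^9*v^2*c,u^9*v*c^2,u^9*c^3,u^8*v^4,u^8*v^3*c,u^8*v^2*c^2,u^8*v*c^3,u^8*c^4,u^7*v^5,u^7*v^4*c,u^7*v^3*c^2,u^7*v^2*c^3,u^7*v*c^4,u^7*c^5,u^6*v^6,u^6*v^5*c,u^6*v^4*c^2,u^6*v^3*c^3,u^6*v^2*c^4,u^6*v*c^5,u^6*c^6,u^5*v^7,u^5*v^6*c,u^5*v^5*c^2,u^5*v^4*c^3,u^5*v^3*c^4,u^5*v^2*c^5,u^5*v*c^6,u^5*c^7,u^4*v^8,u^4*v^7*c,u^4*v^6*c^2,u^4*v^5*c^3,u^4*v^4*c^4,u^4*v^3*c^5,u^4*v^2*c^6,u^4*v*c^7,u^4*c^8,u^3*v^9,u^3*v^8*c,u^3*v^7*c^2,u^3*v^6*c^3,u^3*v^5*c^4,u^3*v^4*c^5,u^3*v^3*c^6,u^3*v^2*c^7,u^3*v*c^8,u^3*c^9,u^2*v^10,u^2*v^9*c,u^2*v^8*c^2,u^2*v^7*c^3,u^2*v^6*c^4,u^2*v^5*c^5,u^2*v^4*c^6,u^2*v^3*c^7,u^2*v^2*c^8,u^2*v*c^9,u^2*c^10,u*v^11,u*v^10*c,u*v^9*c^2,u*v^8*c^3,u*v^7*c^4,u*v^6*c^5,u*v^5*c^6,u*v^4*c^7,u*v^3*c^8,u*v^2*c^9,u*v*c^10,u*c^11,v^12,v^11*c,v^10*c^2,v^9*c^3,v^8*c^4,v^7*c^5,v^6*c^6,v^5*c^7,v^4*c^8,v^3*c^9,v^2*c^10,v*c^11,c^12]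

def TB2_0 : List ℤ := [Int.ofNat 2,Int.ofNat 39,Int.ofNat 54,Int.ofNat 339,Int.ofNat 945,Int.ofNat 648,Int.ofNat 1720,Int.ofNat 7263,Int.ofNat 10044,Int.ofNat 4536,Int.ofNat 5580,Int.ofNat 31914,Int.ofNat 67068,Int.ofNat 61236,Int.ofNat 20412,Int.ofNat 11808,Int.ofNat 86832,Int.ofNat 248832,Int.ofNat 347004,Int.ofNat 234738,Int.ofNat 61236,Int.ofNat 15456,Int.ofNat 145152,Int.ofNat 544320,Int.ofNat 1047816,Int.ofNat 1092042,Int.ofNat 581742,Int.ofNat 122472,Int.ofNat 9216,Int.ofNat 127008,Int.ofNat 653184,Int.ofNat 1714608,Int.ofNat 2531088,Int.ofNat 2112642,Int.ofNat 918540,Int.ofNat 157464,Int.negSucc 5759,Int.negSucc 5183,Int.ofNat 217728,Int.ofNat 1143072,Int.ofNat 2653560,Int.ofNat 3367980,Int.ofNat 2388204,Int.ofNat 866052,Int.ofNat 118098,Int.negSucc 16639,Int.negSucc 145151,Int.negSucc 497663,Int.negSucc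 762047,Int.negSucc 163295,Int.ofNat 1224720,Int.ofNat 1959552,Int.ofNat 1338444,Int.ofNat 413343,Int.ofNat 39366,Int.negSucc 14591,Int.negSucc 158975,Int.negSucc 746495,Int.negSucc 1959551,Int.negSucc 3102623,Int.negSucc 2939327,Int.negSucc 1469663,Int.negSucc 157463,Int.ofNat 177147,Int.ofNat 59049,Int.ofNat 0,Int.negSucc 6143,Int.negSucc 76031,Int.negSucc 414719,Int.negSucc 1306367,Int.negSucc 2612735,Int.negSucc 3429215,Int.negSucc 2939327,Int.negSucc 1574639,Int.negSucc 472391,Int.negSucc 59048,Int.ofNat 0,Int.ofNat 0,Int.negSucc 1023,Int.negSucc 13823,Int.negSucc 82943,Int.negSucc 290303,Int.negSucc 653183,Int.negSucc 979775,Int.negSucc 979775,Int.negSucc 629855,Int.negSucc 236195,Int.negSucc 39365,Int.ofNat 0,Int.ofNat 0,Int.ofNat 0]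
def TB2_1 : List ℤ := [Int.ofNat 4,Int.ofNat 60,Int.ofNat 72,Int.ofNat 381,Int.ofNat 936,Int.ofNat 540,Int.ofNat 1298,Int.ofNat 4986,Int.ofNat 5940,Int.ofNat 2160,Int.ofNat 2385,Int.ofNat 13392,Int.ofNat 25515,Int.ofNat 19440,Int.ofNat 4860,Int.ofNat 1584,Int.ofNat 16146,Int.ofNat 49410,Int.ofNat 63180,Int.ofNat 34020,Int.ofNat 5832,Int.negSucc 2351,Int.negSucc 3779,Int.ofNat 22275,Int.ofNat 71280,Int.ofNat 74115,Int.ofNat 29160,Int.ofNat 2916,Int.negSucc 5759,Int.negSucc 34775,Int.negSucc 72899,Int.negSucc 53459,Int.ofNat 12150,Int.ofNat 30618,Int.ofNat 8748,Int.ofNat 0,Int.negSucc 3743,Int.negSucc 34127,Int.negSucc 115019,Int.negSucc 184679,Int.negSucc 144584,Int.negSucc 46655,Int.negSucc 2186,Int.ofNat 0,Int.ofNat 0,Int.ofNat 1280,Int.ofNat 864,Int.negSucc 25919,Int.negSucc 90719,Int.negSucc 126359,Int.negSucc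 80189,Int.negSucc 18953,Int.ofNat 0,Int.ofNat 0,Int.ofNat 0,Int.ofNat 3072,Int.ofNat 21312,Int.ofNat 58320,Int.ofNat 77760,Int.ofNat 48600,Int.ofNat 8748,Int.negSucc 2186,Int.ofNat 0,Int.ofNat 0,Int.ofNat 0,Int.ofNat 0,Int.ofNat 1536,Int.ofNat 12672,Int.ofNat 43200,Int.ofNat 77760,Int.ofNat 77760,Int.ofNat 40824,Int.ofNat 8748,Int.ofNat 0,Int.ofNat 0,Int.ofNat 0,Int.ofNat 0,Int.ofNat 0,Int.ofNat 256,Int.ofNat 2304,Int.ofNat 8640,Int.ofNat 17280,Int.ofNat 19440,Int.ofNat 11664,Int.ofNat 2916,Int.ofNat 0,Int.ofNat 0,Int.ofNat 0,Int.ofNat 0,Int.ofNat 0,Int.ofNat 0]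
def TB2_2 : List ℤ := [Int.ofNat 8,Int.ofNat 84,Int.ofNat 72,Int.ofNat 330,Int.ofNat 612,Int.ofNat 216,Int.ofNat 499,Int.ofNat 1746,Int.ofNat 1404,Int.ofNat 216,Int.negSucc 224,Int.ofNat 999,Int.ofNat 2430,Int.ofNat 972,Int.ofNat 0,Int.negSucc 1610,Int.negSucc 4022,Int.negSucc 1862,Int.ofNat 486,Int.ofNat 0,Int.ofNat 0,Int.negSucc 1328,Int.negSucc 6452,Int.negSucc 8342,Int.negSucc 2834,Int.ofNat 0,Int.ofNat 0,Int.ofNat 0,Int.ofNat 1008,Int.ofNat 945,Int.negSucc 2672,Int.negSucc 2672,Int.ofNat 0,Int.ofNat 0,Int.ofNat 0,Int.ofNat 0,Int.ofNat 1908,Int.ofNat 7182,Int.ofNat 8181,Int.ofNat 2673,Int.ofNat 0,Int.ofNat 0,Int.ofNat 0,Int.ofNat 0,Int.ofNat 0,Int.ofNat 400,Int.ofNat 2808,Int.ofNat 5184,Int.ofNat 2835,Int.ofNat 0,Int.ofNat 0,Int.ofNat 0,Int.ofNat 0,Int.ofNat 0,Int.ofNat 0,Int.negSucc 623,Int.negSucc 2015,Int.negSucc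 1943,Int.negSucc 485,Int.ofNat 0,Int.ofNat 0,Int.ofNat 0,Int.ofNat 0,Int.ofNat 0,Int.ofNat 0,Int.ofNat 0,Int.negSucc 383,Int.negSucc 1583,Int.negSucc 2159,Int.negSucc 971,Int.ofNat 0,Int.ofNat 0,Int.ofNat 0,Int.ofNat 0,Int.ofNat 0,Int.ofNat 0,Int.ofNat 0,Int.ofNat 0,Int.negSucc 63,Int.negSucc 287,Int.negSucc 431,Int.negSucc 215,Int.ofNat 0,Int.ofNat 0,Int.ofNat 0,Int.ofNat 0,Int.ofNat 0,Int.ofNat 0,Int.ofNat 0,Int.ofNat 0,Int.ofNat 0]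
def TB2_3 : List ℤ := [Int.ofNat 16,Int.ofNat 96,Int.ofNat 0,Int.ofNat 120,Int.ofNat 0,Int.ofNat 0,Int.negSucc 279,Int.ofNat 0,Int.ofNat 0,Int.ofNat 0,Int.negSucc 638,Int.ofNat 0,Int.ofNat 0,Int.ofNat 0,Int.ofNat 0,Int.ofNat 180,Int.ofNat 0,Int.ofNat 0,Int.ofNat 0,Int.ofNat 0,Int.ofNat 0,Int.ofNat 1014,Int.ofNat 0,Int.ofNat 0,Int.ofNat 0,Int.ofNat 0,Int.ofNat 0,Int.ofNat 0,Int.ofNat 180,Int.ofNat 0,Int.ofNat 0,Int.ofNat 0,Int.ofNat 0,Int.ofNat 0,Int.ofNat 0,Int.ofNat 0,Int.negSucc 638,Int.ofNat 0,Int.ofNat 0,Int.ofNat 0,Int.ofNat 0,Int.ofNat 0,Int.ofNat 0,Int.ofNat 0,Int.ofNat 0,Int.negSucc 279,Int.ofNat 0,Int.ofNat 0,Int.ofNat 0,Int.ofNat 0,Int.ofNat 0,Int.ofNat 0,Int.ofNat 0,Int.ofNat 0,Int.ofNat 0,Int.ofNat 120,Int.ofNat 0,Int.ofNat 0,Int.ofNat 0,Int.ofNat 0,Int.ofNat 0,Int.ofNat 0,Int.ofNat 0,Int.ofNat 0,Int.ofNat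 0,Int.ofNat 0,Int.ofNat 96,Int.ofNat 0,Int.ofNat 0,Int.ofNat 0,Int.ofNat 0,Int.ofNat 0,Int.ofNat 0,Int.ofNat 0,Int.ofNat 0,Int.ofNat 0,Int.ofNat 0,Int.ofNat 0,Int.ofNat 16,Int.ofNat 0,Int.ofNat 0,Int.ofNat 0,Int.ofNat 0,Int.ofNat 0,Int.ofNat 0,Int.ofNat 0,Int.ofNat 0,Int.ofNat 0,Int.ofNat 0,Int.ofNat 0,Int.ofNat 0]
def TB2_4 : List ℤ := [Int.ofNat 1,Int.ofNat 21,Int.ofNat 30,Int.ofNat 201,Int.ofNat 570,Int.ofNat 405,Int.ofNat 1160,Int.ofNat 4890,Int.ofNat 6885,Int.ofNat 3240,Int.ofNat 4500,Int.ofNat 25020,Int.ofNat 52245,Int.ofNat 48600,Int.ofNat 17010,Int.ofNat 12384,Int.ofNat 84960,Int.ofNat 233280,Int.ofNat 320760,Int.ofNat 221130,Int.ofNat 61236,Int.ofNat 24864,Int.ofNat 201600,Int.ofNat 680400,Int.ofNat 1224720,Int.ofNat 1241730,Int.ofNat 673596,Int.ofNat 153090,Int.ofNat 36864,Int.ofNat 342720,Int.ofNat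 1360800,Int.ofNat 2993760,Int.ofNat 3946320,Int.ofNat 3123036,Int.ofNat 1377810,Int.ofNat 262440,Int.ofNat 40320,Int.ofNat 420480,Int.ofNat 1905120,Int.ofNat 4898880,Int.ofNat 7824600,Int.ofNat 7960680,Int.ofNat 5051970,Int.ofNat 1837080,Int.ofNat 295245,Int.ofNat 32000,Int.ofNat 368640,Int.ofNat 1866240,Int.ofNat 5443200,Int.ofNat 10069920,Int.ofNat 12247200,Int.ofNat 9797760,Int.ofNat 4986360,Int.ofNat 1476225,Int.ofNat 196830,Int.ofNat 17664,Int.ofNat 222720,Int.ofNat 1244160,Int.ofNat 4043520,Int.ofNat 8436960,Int.ofNat 11757312,Int.ofNat 11022480,Int.ofNat 6823440,Int.ofNat 2657205,Int.ofNat 590490,Int.ofNat 59049,Int.ofNat 6144,Int.ofNat 84480,Int.ofNat 518400,Int.ofNat 1866240,Int.ofNat 4354560,Int.ofNat 6858432,Int.ofNat 7348320,Int.ofNat 5248800,Int.ofNat 2361960,Int.ofNat 590490,Int.ofNat 59049,Int.ofNat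 0,Int.ofNat 1024,Int.ofNat 15360,Int.ofNat 103680,Int.ofNat 414720,Int.ofNat 1088640,Int.ofNat 1959552,Int.ofNat 2449440,Int.ofNat 2099520,Int.ofNat 1180980,Int.ofNat 393660,Int.ofNat 59049,Int.ofNat 0,Int.ofNat 0]
def TB2_5 : List ℤ := [Int.ofNat 2,Int.ofNat 33,Int.ofNat 42,Int.ofNat 240,Int.ofNat 609,Int.ofNat 378,Int.ofNat 1006,Int.ofNat 3822,Int.ofNat 4725,Int.ofNat 1890,Int.ofNat 2655,Int.ofNat 13482,Int.ofNat 24948,Int.ofNat 19845,Int.ofNat 5670,Int.ofNat 4464,Int.ofNat 28791,Int.ofNat 71442,Int.ofNat 85050,Int.ofNat 48195,Int.ofNat 10206,Int.ofNat 4368,Int.ofNat 36162,Int.ofNat 116235,Int.ofNat 187110,Int.ofNat 158760,Int.ofNat 66339,Int.ofNat 10206,Int.ofNat 1152,Int.ofNat 19404,Int.ofNat 92988,Int.ofNat 206955,Int.ofNat 243810,Int.ofNat 153090,Int.ofNat 45927,Int.ofNat 4374,Int.negSucc 3167,Int.negSucc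 14615,Int.negSucc 11339,Int.ofNat 51030,Int.ofNat 133245,Int.ofNat 132678,Int.ofNat 61236,Int.ofNat 10935,Int.ofNat 0,Int.negSucc 5119,Int.negSucc 37295,Int.negSucc 108863,Int.negSucc 158759,Int.negSucc 113399,Int.negSucc 25514,Int.ofNat 10206,Int.ofNat 4374,Int.ofNat 0,Int.ofNat 0,Int.negSucc 3839,Int.negSucc 32927,Int.negSucc 117935,Int.negSucc 226799,Int.negSucc 249479,Int.negSucc 153089,Int.negSucc 45926,Int.negSucc 4373,Int.ofNat 0,Int.ofNat 0,Int.ofNat 0,Int.negSucc 1535,Int.negSucc 14783,Int.negSucc 60479,Int.negSucc 136079,Int.negSucc 181439,Int.negSucc 142883,Int.negSucc 61235,Int.negSucc 10934,Int.ofNat 0,Int.ofNat 0,Int.ofNat 0,Int.ofNat 0,Int.negSucc 255,Int.negSucc 2687,Int.negSucc 12095,Int.negSucc 30239,Int.negSucc 45359,Int.negSucc 40823,Int.negSucc 20411,Int.negSucc 4373,Int.ofNat 0,Int.ofNat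 0,Int.ofNat 0,Int.ofNat 0,Int.ofNat 0]
def TB2_6 : List ℤ := [Int.ofNat 4,Int.ofNat 48,Int.ofNat 48,Int.ofNat 237,Int.ofNat 480,Int.ofNat 216,Int.ofNat 599,Int.ofNat 1884,Int.ofNat 1728,Int.ofNat 432,Int.ofNat 720,Int.ofNat 3420,Int.ofNat 5022,Int.ofNat 2592,Int.ofNat 324,Int.negSucc 8,Int.ofNat 1800,Int.ofNat 5346,Int.ofNat 4860,Int.ofNat 1296,Int.ofNat 0,Int.negSucc 1226,Int.negSucc 3707,Int.negSucc 2591,Int.ofNat 972,Int.ofNat 1053,Int.ofNat 0,Int.ofNat 0,Int.negSucc 1583,Int.negSucc 7307,Int.negSucc 11501,Int.negSucc 7127,Int.negSucc 1376,Int.ofNat 0,Int.ofNat 0,Int.ofNat 0,Int.negSucc 611,Int.negSucc 4391,Int.negSucc 9881,Int.negSucc 8747,Int.negSucc 2591,Int.ofNat 0,Int.ofNat 0,Int.ofNat 0,Int.ofNat 0,Int.ofNat 560,Int.ofNat 1440,Int.ofNat 0,Int.negSucc 2267,Int.negSucc 1376,Int.ofNat 0,Int.ofNat 0,Int.ofNat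 0,Int.ofNat 0,Int.ofNat 0,Int.ofNat 816,Int.ofNat 3840,Int.ofNat 6480,Int.ofNat 4536,Int.ofNat 1053,Int.ofNat 0,Int.ofNat 0,Int.ofNat 0,Int.ofNat 0,Int.ofNat 0,Int.ofNat 0,Int.ofNat 384,Int.ofNat 2112,Int.ofNat 4320,Int.ofNat 3888,Int.ofNat 1296,Int.ofNat 0,Int.ofNat 0,Int.ofNat 0,Int.ofNat 0,Int.ofNat 0,Int.ofNat 0,Int.ofNat 0,Int.ofNat 64,Int.ofNat 384,Int.ofNat 864,Int.ofNat 864,Int.ofNat 324,Int.ofNat 0,Int.ofNat 0,Int.ofNat 0,Int.ofNat 0,Int.ofNat 0,Int.ofNat 0,Int.ofNat 0,Int.ofNat 0]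
def TB2_7 : List ℤ := [Int.ofNat 8,Int.ofNat 60,Int.ofNat 24,Int.ofNat 150,Int.ofNat 132,Int.ofNat 0,Int.ofNat 73,Int.ofNat 186,Int.ofNat 0,Int.ofNat 0,Int.negSucc 287,Int.negSucc 152,Int.ofNat 0,Int.ofNat 0,Int.ofNat 0,Int.negSucc 476,Int.negSucc 557,Int.ofNat 0,Int.ofNat 0,Int.ofNat 0,Int.ofNat 0,Int.negSucc 104,Int.negSucc 314,Int.ofNat 0,Int.ofNat 0,Int.ofNat 0,Int.ofNat 0,Int.ofNat 0,Int.ofNat 396,Int.ofNat 315,Int.ofNat 0,Int.ofNat 0,Int.ofNat 0,Int.ofNat 0,Int.ofNat 0,Int.ofNat 0,Int.ofNat 423,Int.ofNat 558,Int.ofNat 0,Int.ofNat 0,Int.ofNat 0,Int.ofNat 0,Int.ofNat 0,Int.ofNat 0,Int.ofNat 0,Int.ofNat 40,Int.ofNat 153,Int.ofNat 0,Int.ofNat 0,Int.ofNat 0,Int.ofNat 0,Int.ofNat 0,Int.ofNat 0,Int.ofNat 0,Int.ofNat 0,Int.negSucc 167,Int.negSucc 185,Int.ofNat 0,Int.ofNat 0,Int.ofNat 0,Int.ofNat 0,Int.ofNat 0,Int.ofNat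 0,Int.ofNat 0,Int.ofNat 0,Int.ofNat 0,Int.negSucc 95,Int.negSucc 131,Int.ofNat 0,Int.ofNat 0,Int.ofNat 0,Int.ofNat 0,Int.ofNat 0,Int.ofNat 0,Int.ofNat 0,Int.ofNat 0,Int.ofNat 0,Int.ofNat 0,Int.negSucc 15,Int.negSucc 23,Int.ofNat 0,Int.ofNat 0,Int.ofNat 0,Int.ofNat 0,Int.ofNat 0,Int.ofNat 0,Int.ofNat 0,Int.ofNat 0,Int.ofNat 0,Int.ofNat 0,Int.ofNat 0]
def TB2_8 : List ℤ := [Int.ofNat 1,Int.ofNat 18,Int.ofNat 24,Int.ofNat 147,Int.ofNat 384,Int.ofNat 252,Int.ofNat 722,Int.ofNat 2760,Int.ofNat 3528,Int.ofNat 1512,Int.ofNat 2385,Int.ofNat 11808,Int.ofNat 21924,Int.ofNat 18144,Int.ofNat 5670,Int.ofNat 5616,Int.ofNat 33624,Int.ofNat 80136,Int.ofNat 95256,Int.ofNat 56700,Int.ofNat 13608,Int.ofNat 9744,Int.ofNat 67536,Int.ofNat 192780,Int.ofNat 290304,Int.ofNat 243810,Int.ofNat 108864,Int.ofNat 20412,Int.ofNat 12672,Int.ofNat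 98784,Int.ofNat 323568,Int.ofNat 576072,Int.ofNat 601020,Int.ofNat 367416,Int.ofNat 122472,Int.ofNat 17496,Int.ofNat 12384,Int.ofNat 106560,Int.ofNat 390096,Int.ofNat 789264,Int.ofNat 958230,Int.ofNat 707616,Int.ofNat 306180,Int.ofNat 69984,Int.ofNat 6561,Int.ofNat 8960,Int.ofNat 84096,Int.ofNat 338688,Int.ofNat 762048,Int.ofNat 1043280,Int.ofNat 884520,Int.ofNat 449064,Int.ofNat 122472,Int.ofNat 13122,Int.ofNat 0,Int.ofNat 4608,Int.ofNat 46848,Int.ofNat 205632,Int.ofNat 508032,Int.ofNat 771120,Int.ofNat 734832,Int.ofNat 428652,Int.ofNat 139968,Int.ofNat 19683,Int.ofNat 0,Int.ofNat 0,Int.ofNat 1536,Int.ofNat 16896,Int.ofNat 80640,Int.ofNat 217728,Int.ofNat 362880,Int.ofNat 381024,Int.ofNat 244944,Int.ofNat 87480,Int.ofNat 13122,Int.ofNat 0,Int.ofNat 0,Int.ofNat 0,Int.ofNat 256,Int.ofNat 3072,Int.ofNat 16128,Int.ofNat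 48384,Int.ofNat 90720,Int.ofNat 108864,Int.ofNat 81648,Int.ofNat 34992,Int.ofNat 6561,Int.ofNat 0,Int.ofNat 0,Int.ofNat 0,Int.ofNat 0]
def TB2_9 : List ℤ := [Int.ofNat 2,Int.ofNat 27,Int.ofNat 30,Int.ofNat 159,Int.ofNat 345,Int.ofNat 180,Int.ofNat 535,Int.ofNat 1695,Int.ofNat 1710,Int.ofNat 540,Int.ofNat 1125,Int.ofNat 4635,Int.ofNat 6750,Int.ofNat 4050,Int.ofNat 810,Int.ofNat 1485,Int.ofNat 7605,Int.ofNat 14310,Int.ofNat 12150,Int.ofNat 4455,Int.ofNat 486,Int.ofNat 1047,Int.ofNat 7065,Int.ofNat 17010,Int.ofNat 18630,Int.ofNat 9315,Int.ofNat 1701,Int.ofNat 0,Int.negSucc 143,Int.ofNat 1575,Int.ofNat 8370,Int.ofNat 13770,Int.ofNat 9315,Int.ofNat 2187,Int.ofNat 0,Int.ofNat 0,Int.negSucc 1259,Int.negSucc 5309,Int.negSucc 7289,Int.negSucc 2429,Int.ofNat 2025,Int.ofNat 1215,Int.ofNat 0,Int.ofNat 0,Int.ofNat 0,Int.negSucc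 1519,Int.negSucc 8279,Int.negSucc 17279,Int.negSucc 17009,Int.negSucc 7694,Int.negSucc 1214,Int.ofNat 0,Int.ofNat 0,Int.ofNat 0,Int.ofNat 0,Int.negSucc 1007,Int.negSucc 6239,Int.negSucc 15119,Int.negSucc 17819,Int.negSucc 10124,Int.negSucc 2186,Int.ofNat 0,Int.ofNat 0,Int.ofNat 0,Int.ofNat 0,Int.ofNat 0,Int.negSucc 383,Int.negSucc 2639,Int.negSucc 7199,Int.negSucc 9719,Int.negSucc 6479,Int.negSucc 1700,Int.ofNat 0,Int.ofNat 0,Int.ofNat 0,Int.ofNat 0,Int.ofNat 0,Int.ofNat 0,Int.negSucc 63,Int.negSucc 479,Int.negSucc 1439,Int.negSucc 2159,Int.negSucc 1619,Int.negSucc 485,Int.ofNat 0,Int.ofNat 0,Int.ofNat 0,Int.ofNat 0,Int.ofNat 0,Int.ofNat 0,Int.ofNat 0]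
def TB2_10 : List ℤ := [Int.ofNat 4,Int.ofNat 36,Int.ofNat 24,Int.ofNat 129,Int.ofNat 168,Int.ofNat 36,Int.ofNat 224,Int.ofNat 438,Int.ofNat 180,Int.ofNat 0,Int.ofNat 144,Int.ofNat 468,Int.ofNat 297,Int.ofNat 0,Int.ofNat 0,Int.negSucc 161,Int.negSucc 71,Int.ofNat 108,Int.ofNat 0,Int.ofNat 0,Int.ofNat 0,Int.negSucc 443,Int.negSucc 827,Int.negSucc 323,Int.ofNat 0,Int.ofNat 0,Int.ofNat 0,Int.ofNat 0,Int.negSucc 395,Int.negSucc 1007,Int.negSucc 593,Int.ofNat 0,Int.ofNat 0,Int.ofNat 0,Int.ofNat 0,Int.ofNat 0,Int.negSucc 62,Int.negSucc 359,Int.negSucc 323,Int.ofNat 0,Int.ofNat 0,Int.ofNat 0,Int.ofNat 0,Int.ofNat 0,Int.ofNat 0,Int.ofNat 200,Int.ofNat 342,Int.ofNat 108,Int.ofNat 0,Int.ofNat 0,Int.ofNat 0,Int.ofNat 0,Int.ofNat 0,Int.ofNat 0,Int.ofNat 0,Int.ofNat 216,Int.ofNat 516,Int.ofNat 297,Int.ofNat 0,Int.ofNat 0,Int.ofNat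 0,Int.ofNat 0,Int.ofNat 0,Int.ofNat 0,Int.ofNat 0,Int.ofNat 0,Int.ofNat 96,Int.ofNat 264,Int.ofNat 180,Int.ofNat 0,Int.ofNat 0,Int.ofNat 0,Int.ofNat 0,Int.ofNat 0,Int.ofNat 0,Int.ofNat 0,Int.ofNat 0,Int.ofNat 0,Int.ofNat 16,Int.ofNat 48,Int.ofNat 36,Int.ofNat 0,Int.ofNat 0,Int.ofNat 0,Int.ofNat 0,Int.ofNat 0,Int.ofNat 0,Int.ofNat 0,Int.ofNat 0,Int.ofNat 0,Int.ofNat 0]
def TB2_11 : List ℤ := [Int.ofNat 1,Int.ofNat 15,Int.ofNat 18,Int.ofNat 102,Int.ofNat 234,Int.ofNat 135,Int.ofNat 419,Int.ofNat 1368,Int.ofNat 1485,Int.ofNat 540,Int.ofNat 1170,Int.ofNat 4806,Int.ofNat 7290,Int.ofNat 4860,Int.ofNat 1215,Int.ofNat 2367,Int.ofNat 11448,Int.ofNat 21465,Int.ofNat 19440,Int.ofNat 8505,Int.ofNat 1458,Int.ofNat 3597,Int.ofNat 19710,Int.ofNat 42930,Int.ofNat 46980,Int.ofNat 26730,Int.ofNat 7290,Int.ofNat 729,Int.ofNat 4176,Int.ofNat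 25326,Int.ofNat 61965,Int.ofNat 77760,Int.ofNat 52245,Int.ofNat 17496,Int.ofNat 2187,Int.ofNat 0,Int.ofNat 3708,Int.ofNat 24516,Int.ofNat 66015,Int.ofNat 92340,Int.ofNat 70470,Int.ofNat 27702,Int.ofNat 4374,Int.ofNat 0,Int.ofNat 0,Int.ofNat 2480,Int.ofNat 17712,Int.ofNat 51840,Int.ofNat 79380,Int.ofNat 66825,Int.ofNat 29160,Int.ofNat 5103,Int.ofNat 0,Int.ofNat 0,Int.ofNat 0,Int.ofNat 1200,Int.ofNat 9216,Int.ofNat 29160,Int.ofNat 48600,Int.ofNat 44955,Int.ofNat 21870,Int.ofNat 4374,Int.ofNat 0,Int.ofNat 0,Int.ofNat 0,Int.ofNat 0,Int.ofNat 384,Int.ofNat 3168,Int.ofNat 10800,Int.ofNat 19440,Int.ofNat 19440,Int.ofNat 10206,Int.ofNat 2187,Int.ofNat 0,Int.ofNat 0,Int.ofNat 0,Int.ofNat 0,Int.ofNat 0,Int.ofNat 64,Int.ofNat 576,Int.ofNat 2160,Int.ofNat 4320,Int.ofNat 4860,Int.ofNat 2916,Int.ofNat 729,Int.ofNat 0,Int.ofNat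 0,Int.ofNat 0,Int.ofNat 0,Int.ofNat 0,Int.ofNat 0]
def TB2_12 : List ℤ := [Int.ofNat 2,Int.ofNat 21,Int.ofNat 18,Int.ofNat 96,Int.ofNat 153,Int.ofNat 54,Int.ofNat 253,Int.ofNat 558,Int.ofNat 351,Int.ofNat 54,Int.ofNat 423,Int.ofNat 1161,Int.ofNat 972,Int.ofNat 243,Int.ofNat 0,Int.ofNat 441,Int.ofNat 1485,Int.ofNat 1539,Int.ofNat 486,Int.ofNat 0,Int.ofNat 0,Int.ofNat 201,Int.ofNat 999,Int.ofNat 1377,Int.ofNat 567,Int.ofNat 0,Int.ofNat 0,Int.ofNat 0,Int.negSucc 179,Int.negSucc 188,Int.ofNat 243,Int.ofNat 243,Int.ofNat 0,Int.ofNat 0,Int.ofNat 0,Int.ofNat 0,Int.negSucc 440,Int.negSucc 1241,Int.negSucc 1052,Int.negSucc 242,Int.ofNat 0,Int.ofNat 0,Int.ofNat 0,Int.ofNat 0,Int.ofNat 0,Int.negSucc 439,Int.negSucc 1484,Int.negSucc 1619,Int.negSucc 566,Int.ofNat 0,Int.ofNat 0,Int.ofNat 0,Int.ofNat 0,Int.ofNat 0,Int.ofNat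 0,Int.negSucc 263,Int.negSucc 989,Int.negSucc 1214,Int.negSucc 485,Int.ofNat 0,Int.ofNat 0,Int.ofNat 0,Int.ofNat 0,Int.ofNat 0,Int.ofNat 0,Int.ofNat 0,Int.negSucc 95,Int.negSucc 395,Int.negSucc 539,Int.negSucc 242,Int.ofNat 0,Int.ofNat 0,Int.ofNat 0,Int.ofNat 0,Int.ofNat 0,Int.ofNat 0,Int.ofNat 0,Int.ofNat 0,Int.negSucc 15,Int.negSucc 71,Int.negSucc 107,Int.negSucc 53,Int.ofNat 0,Int.ofNat 0,Int.ofNat 0,Int.ofNat 0,Int.ofNat 0,Int.ofNat 0,Int.ofNat 0,Int.ofNat 0,Int.ofNat 0]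
def TB2_13 : List ℤ := [Int.ofNat 4,Int.ofNat 24,Int.ofNat 0,Int.ofNat 57,Int.ofNat 0,Int.ofNat 0,Int.ofNat 65,Int.ofNat 0,Int.ofNat 0,Int.ofNat 0,Int.ofNat 9,Int.ofNat 0,Int.ofNat 0,Int.ofNat 0,Int.ofNat 0,Int.negSucc 89,Int.ofNat 0,Int.ofNat 0,Int.ofNat 0,Int.ofNat 0,Int.ofNat 0,Int.negSucc 137,Int.ofNat 0,Int.ofNat 0,Int.ofNat 0,Int.ofNat 0,Int.ofNat 0,Int.ofNat 0,Int.negSucc 89,Int.ofNat 0,Int.ofNat 0,Int.ofNat 0,Int.ofNat 0,Int.ofNat 0,Int.ofNat 0,Int.ofNat 0,Int.ofNat 9,Int.ofNat 0,Int.ofNat 0,Int.ofNat 0,Int.ofNat 0,Int.ofNat 0,Int.ofNat 0,Int.ofNat 0,Int.ofNat 0,Int.ofNat 65,Int.ofNat 0,Int.ofNat 0,Int.ofNat 0,Int.ofNat 0,Int.ofNat 0,Int.ofNat 0,Int.ofNat 0,Int.ofNat 0,Int.ofNat 0,Int.ofNat 57,Int.ofNat 0,Int.ofNat 0,Int.ofNat 0,Int.ofNat 0,Int.ofNat 0,Int.ofNat 0,Int.ofNat 0,Int.ofNat 0,Int.ofNat 0,Int.ofNat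 0,Int.ofNat 24,Int.ofNat 0,Int.ofNat 0,Int.ofNat 0,Int.ofNat 0,Int.ofNat 0,Int.ofNat 0,Int.ofNat 0,Int.ofNat 0,Int.ofNat 0,Int.ofNat 0,Int.ofNat 0,Int.ofNat 4,Int.ofNat 0,Int.ofNat 0,Int.ofNat 0,Int.ofNat 0,Int.ofNat 0,Int.ofNat 0,Int.ofNat 0,Int.ofNat 0,Int.ofNat 0,Int.ofNat 0,Int.ofNat 0,Int.ofNat 0]
def TB2_14 : List ℤ := [Int.ofNat 1,Int.ofNat 12,Int.ofNat 12,Int.ofNat 66,Int.ofNat 120,Int.ofNat 54,Int.ofNat 224,Int.ofNat 552,Int.ofNat 432,Int.ofNat 108,Int.ofNat 531,Int.ofNat 1584,Int.ofNat 1620,Int.ofNat 648,Int.ofNat 81,Int.ofNat 936,Int.ofNat 3204,Int.ofNat 3888,Int.ofNat 1944,Int.ofNat 324,Int.ofNat 0,Int.ofNat 1266,Int.ofNat 4824,Int.ofNat 6642,Int.ofNat 3888,Int.ofNat 810,Int.ofNat 0,Int.ofNat 0,Int.ofNat 1332,Int.ofNat 5544,Int.ofNat 8424,Int.ofNat 5508,Int.ofNat 1296,Int.ofNat 0,Int.ofNat 0,Int.ofNat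 0,Int.ofNat 1089,Int.ofNat 4896,Int.ofNat 8100,Int.ofNat 5832,Int.ofNat 1539,Int.ofNat 0,Int.ofNat 0,Int.ofNat 0,Int.ofNat 0,Int.ofNat 680,Int.ofNat 3276,Int.ofNat 5832,Int.ofNat 4536,Int.ofNat 1296,Int.ofNat 0,Int.ofNat 0,Int.ofNat 0,Int.ofNat 0,Int.ofNat 0,Int.ofNat 312,Int.ofNat 1608,Int.ofNat 3078,Int.ofNat 2592,Int.ofNat 810,Int.ofNat 0,Int.ofNat 0,Int.ofNat 0,Int.ofNat 0,Int.ofNat 0,Int.ofNat 0,Int.ofNat 96,Int.ofNat 528,Int.ofNat 1080,Int.ofNat 972,Int.ofNat 324,Int.ofNat 0,Int.ofNat 0,Int.ofNat 0,Int.ofNat 0,Int.ofNat 0,Int.ofNat 0,Int.ofNat 0,Int.ofNat 16,Int.ofNat 96,Int.ofNat 216,Int.ofNat 216,Int.ofNat 81,Int.ofNat 0,Int.ofNat 0,Int.ofNat 0,Int.ofNat 0,Int.ofNat 0,Int.ofNat 0,Int.ofNat 0,Int.ofNat 0]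
def TB2_15 : List ℤ := [Int.ofNat 2,Int.ofNat 15,Int.ofNat 6,Int.ofNat 51,Int.ofNat 33,Int.ofNat 0,Int.ofNat 106,Int.ofNat 87,Int.ofNat 0,Int.ofNat 0,Int.ofNat 144,Int.ofNat 144,Int.ofNat 0,Int.ofNat 0,Int.ofNat 0,Int.ofNat 117,Int.ofNat 144,Int.ofNat 0,Int.ofNat 0,Int.ofNat 0,Int.ofNat 0,Int.ofNat 21,Int.ofNat 63,Int.ofNat 0,Int.ofNat 0,Int.ofNat 0,Int.ofNat 0,Int.ofNat 0,Int.negSucc 89,Int.negSucc 62,Int.ofNat 0,Int.ofNat 0,Int.ofNat 0,Int.ofNat 0,Int.ofNat 0,Int.ofNat 0,Int.negSucc 143,Int.negSucc 143,Int.ofNat 0,Int.ofNat 0,Int.ofNat 0,Int.ofNat 0,Int.ofNat 0,Int.ofNat 0,Int.ofNat 0,Int.negSucc 124,Int.negSucc 143,Int.ofNat 0,Int.ofNat 0,Int.ofNat 0,Int.ofNat 0,Int.ofNat 0,Int.ofNat 0,Int.ofNat 0,Int.ofNat 0,Int.negSucc 68,Int.negSucc 86,Int.ofNat 0,Int.ofNat 0,Int.ofNat 0,Int.ofNat 0,Int.ofNat 0,Int.ofNat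 0,Int.ofNat 0,Int.ofNat 0,Int.ofNat 0,Int.negSucc 23,Int.negSucc 32,Int.ofNat 0,Int.ofNat 0,Int.ofNat 0,Int.ofNat 0,Int.ofNat 0,Int.ofNat 0,Int.ofNat 0,Int.ofNat 0,Int.ofNat 0,Int.ofNat 0,Int.negSucc 3,Int.negSucc 5,Int.ofNat 0,Int.ofNat 0,Int.ofNat 0,Int.ofNat 0,Int.ofNat 0,Int.ofNat 0,Int.ofNat 0,Int.ofNat 0,Int.ofNat 0,Int.ofNat 0,Int.ofNat 0]
def TB2_16 : List ℤ := [Int.ofNat 1,Int.ofNat 9,Int.ofNat 6,Int.ofNat 39,Int.ofNat 42,Int.ofNat 9,Int.ofNat 110,Int.ofNat 150,Int.ofNat 45,Int.ofNat 0,Int.ofNat 225,Int.ofNat 360,Int.ofNat 135,Int.ofNat 0,Int.ofNat 0,Int.ofNat 351,Int.ofNat 630,Int.ofNat 270,Int.ofNat 0,Int.ofNat 0,Int.ofNat 0,Int.ofNat 429,Int.ofNat 846,Int.ofNat 405,Int.ofNat 0,Int.ofNat 0,Int.ofNat 0,Int.ofNat 0,Int.ofNat 414,Int.ofNat 882,Int.ofNat 459,Int.ofNat 0,Int.ofNat 0,Int.ofNat 0,Int.ofNat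 0,Int.ofNat 0,Int.ofNat 315,Int.ofNat 720,Int.ofNat 405,Int.ofNat 0,Int.ofNat 0,Int.ofNat 0,Int.ofNat 0,Int.ofNat 0,Int.ofNat 0,Int.ofNat 185,Int.ofNat 450,Int.ofNat 270,Int.ofNat 0,Int.ofNat 0,Int.ofNat 0,Int.ofNat 0,Int.ofNat 0,Int.ofNat 0,Int.ofNat 0,Int.ofNat 81,Int.ofNat 210,Int.ofNat 135,Int.ofNat 0,Int.ofNat 0,Int.ofNat 0,Int.ofNat 0,Int.ofNat 0,Int.ofNat 0,Int.ofNat 0,Int.ofNat 0,Int.ofNat 24,Int.ofNat 66,Int.ofNat 45,Int.ofNat 0,Int.ofNat 0,Int.ofNat 0,Int.ofNat 0,Int.ofNat 0,Int.ofNat 0,Int.ofNat 0,Int.ofNat 0,Int.ofNat 0,Int.ofNat 4,Int.ofNat 12,Int.ofNat 9,Int.ofNat 0,Int.ofNat 0,Int.ofNat 0,Int.ofNat 0,Int.ofNat 0,Int.ofNat 0,Int.ofNat 0,Int.ofNat 0,Int.ofNat 0,Int.ofNat 0]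
def TB2_17 : List ℤ := [Int.ofNat 1,Int.ofNat 6,Int.ofNat 0,Int.ofNat 21,Int.ofNat 0,Int.ofNat 0,Int.ofNat 50,Int.ofNat 0,Int.ofNat 0,Int.ofNat 0,Int.ofNat 90,Int.ofNat 0,Int.ofNat 0,Int.ofNat 0,Int.ofNat 0,Int.ofNat 126,Int.ofNat 0,Int.ofNat 0,Int.ofNat 0,Int.ofNat 0,Int.ofNat 0,Int.ofNat 141,Int.ofNat 0,Int.ofNat 0,Int.ofNat 0,Int.ofNat 0,Int.ofNat 0,Int.ofNat 0,Int.ofNat 126,Int.ofNat 0,Int.ofNat 0,Int.ofNat 0,Int.ofNat 0,Int.ofNat 0,Int.ofNat 0,Int.ofNat 0,Int.ofNat 90,Int.ofNat 0,Int.ofNat 0,Int.ofNat 0,Int.ofNat 0,Int.ofNat 0,Int.ofNat 0,Int.ofNat 0,Int.ofNat 0,Int.ofNat 50,Int.ofNat 0,Int.ofNat 0,Int.ofNat 0,Int.ofNat 0,Int.ofNat 0,Int.ofNat 0,Int.ofNat 0,Int.ofNat 0,Int.ofNat 0,Int.ofNat 21,Int.ofNat 0,Int.ofNat 0,Int.ofNat 0,Int.ofNat 0,Int.ofNat 0,Int.ofNat 0,Int.ofNat 0,Int.ofNat 0,Int.ofNat 0,Int.ofNat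 0,Int.ofNat 6,Int.ofNat 0,Int.ofNat 0,Int.ofNat 0,Int.ofNat 0,Int.ofNat 0,Int.ofNat 0,Int.ofNat 0,Int.ofNat 0,Int.ofNat 0,Int.ofNat 0,Int.ofNat 0,Int.ofNat 1,Int.ofNat 0,Int.ofNat 0,Int.ofNat 0,Int.ofNat 0,Int.ofNat 0,Int.ofNat 0,Int.ofNat 0,Int.ofNat 0,Int.ofNat 0,Int.ofNat 0,Int.ofNat 0,Int.ofNat 0]
def TB2 : List (List ℤ) := [TB2_0,TB2_1,TB2_2,TB2_3,TB2_4,TB2_5,TB2_6,TB2_7,TB2_8,TB2_9,TB2_10,TB2_11,TB2_12,TB2_13,TB2_14,TB2_15,TB2_16,TB2_17]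
def MB2 : List (List ℤ) := [[Int.negSucc 30678147,Int.negSucc 29211924,Int.ofNat 0,Int.ofNat 0,Int.negSucc 54525951,Int.ofNat 50755679,Int.ofNat 0,Int.ofNat 0,Int.ofNat 217268514,Int.ofNat 65868350,Int.ofNat 0,Int.negSucc 223185039,Int.ofNat 0,Int.ofNat 0,Int.ofNat 0,Int.ofNat 0,Int.ofNat 0,Int.ofNat 0],[Int.negSucc 29211924,Int.negSucc 49981504,Int.ofNat 0,Int.ofNat 0,Int.negSucc 4194303,Int.ofNat 160979562,Int.ofNat 46049054,Int.ofNat 0,Int.negSucc 90620999,Int.negSucc 185448709,Int.negSucc 8226509,Int.ofNat 325984080,Int.ofNat 52025540,Int.ofNat 0,Int.negSucc 194893687,Int.ofNat 0,Int.ofNat 16453020,Int.ofNat 0],[Int.ofNat 0,Int.ofNat 0,Int.ofNat 1571840,Int.ofNat 0,Int.ofNat 0,Int.ofNat 0,Int.negSucc 16453019,Int.negSucc 268859,Int.ofNat 0,Int.ofNat 26012770,Int.ofNat 6287360,Int.ofNat 0,Int.negSucc 21168539,Int.negSucc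 268859,Int.ofNat 32906040,Int.ofNat 2378420,Int.negSucc 12574719,Int.ofNat 537720],[Int.ofNat 0,Int.ofNat 0,Int.ofNat 0,Int.ofNat 0,Int.ofNat 0,Int.ofNat 0,Int.ofNat 0,Int.ofNat 0,Int.ofNat 0,Int.ofNat 0,Int.negSucc 134429,Int.ofNat 0,Int.ofNat 0,Int.ofNat 0,Int.ofNat 0,Int.ofNat 0,Int.ofNat 268860,Int.ofNat 0],[Int.negSucc 54525951,Int.negSucc 4194303,Int.ofNat 0,Int.ofNat 0,Int.ofNat 71971384,Int.ofNat 197800504,Int.ofNat 0,Int.ofNat 0,Int.negSucc 100144227,Int.ofNat 0,Int.ofNat 0,Int.negSucc 223185039,Int.ofNat 0,Int.ofNat 0,Int.ofNat 0,Int.ofNat 0,Int.ofNat 0,Int.ofNat 0],[Int.ofNat 50755679,Int.ofNat 160979562,Int.ofNat 0,Int.ofNat 0,Int.ofNat 197800504,Int.negSucc 229901855,Int.negSucc 102795579,Int.ofNat 0,Int.negSucc 962369655,Int.ofNat 47812800,Int.ofNat 0,Int.ofNat 1196041562,Int.ofNat 130063850,Int.ofNat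 0,Int.negSucc 616773479,Int.ofNat 0,Int.ofNat 0,Int.ofNat 0],[Int.ofNat 0,Int.ofNat 46049054,Int.negSucc 16453019,Int.ofNat 0,Int.ofNat 0,Int.negSucc 102795579,Int.ofNat 15809494,Int.ofNat 3143680,Int.ofNat 0,Int.ofNat 225524284,Int.negSucc 7756599,Int.negSucc 503280427,Int.negSucc 112504659,Int.negSucc 1075439,Int.ofNat 488636412,Int.ofNat 12574720,Int.negSucc 83204919,Int.ofNat 2150880],[Int.ofNat 0,Int.ofNat 0,Int.negSucc 268859,Int.ofNat 0,Int.ofNat 0,Int.ofNat 0,Int.ofNat 3143680,Int.negSucc 537719,Int.ofNat 0,Int.ofNat 0,Int.ofNat 455080,Int.ofNat 0,Int.ofNat 11809460,Int.negSucc 268859,Int.negSucc 6287359,Int.negSucc 537719,Int.negSucc 910159,Int.ofNat 537720],[Int.ofNat 217268514,Int.negSucc 90620999,Int.ofNat 0,Int.ofNat 0,Int.negSucc 100144227,Int.negSucc 962369655,Int.ofNat 0,Int.ofNat 0,Int.ofNat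 432287136,Int.ofNat 879897660,Int.ofNat 0,Int.ofNat 319625304,Int.ofNat 0,Int.ofNat 0,Int.negSucc 616773479,Int.ofNat 0,Int.ofNat 0,Int.ofNat 0],[Int.ofNat 65868350,Int.negSucc 185448709,Int.ofNat 26012770,Int.ofNat 0,Int.ofNat 0,Int.ofNat 47812800,Int.ofNat 225524284,Int.ofNat 0,Int.ofNat 879897660,Int.negSucc 707781555,Int.negSucc 98718119,Int.negSucc 1582541999,Int.ofNat 356831370,Int.ofNat 0,Int.ofNat 1148569212,Int.ofNat 33008640,Int.negSucc 296154359,Int.ofNat 0],[Int.ofNat 0,Int.negSucc 8226509,Int.ofNat 6287360,Int.negSucc 134429,Int.ofNat 0,Int.ofNat 0,Int.negSucc 7756599,Int.ofNat 455080,Int.ofNat 0,Int.negSucc 98718119,Int.ofNat 33872140,Int.ofNat 16453020,Int.negSucc 7551399,Int.negSucc 3764039,Int.negSucc 231282099,Int.ofNat 3433480,Int.ofNat 64290280,Int.ofNat 806580],[Int.negSucc 223185039,Int.ofNat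 325984080,Int.ofNat 0,Int.ofNat 0,Int.negSucc 223185039,Int.ofNat 1196041562,Int.negSucc 503280427,Int.ofNat 0,Int.ofNat 319625304,Int.negSucc 1582541999,Int.ofNat 16453020,Int.negSucc 242110215,Int.ofNat 936459720,Int.ofNat 0,Int.ofNat 587020256,Int.ofNat 0,Int.negSucc 361966439,Int.ofNat 0],[Int.ofNat 0,Int.ofNat 52025540,Int.negSucc 21168539,Int.ofNat 0,Int.ofNat 0,Int.ofNat 130063850,Int.negSucc 112504659,Int.ofNat 11809460,Int.ofNat 0,Int.ofNat 356831370,Int.negSucc 7551399,Int.ofNat 936459720,Int.negSucc 579106869,Int.negSucc 6721499,Int.negSucc 379781879,Int.ofNat 124320820,Int.ofNat 93661960,Int.negSucc 16669319],[Int.ofNat 0,Int.ofNat 0,Int.negSucc 268859,Int.ofNat 0,Int.ofNat 0,Int.ofNat 0,Int.negSucc 1075439,Int.negSucc 268859,Int.ofNat 0,Int.ofNat 0,Int.negSucc 3764039,Int.ofNat 0,Int.negSucc 6721499,Int.negSucc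 1075439,Int.ofNat 2150880,Int.negSucc 6721499,Int.negSucc 7528079,Int.ofNat 2150880],[Int.ofNat 0,Int.negSucc 194893687,Int.ofNat 32906040,Int.ofNat 0,Int.ofNat 0,Int.negSucc 616773479,Int.ofNat 488636412,Int.negSucc 6287359,Int.negSucc 616773479,Int.ofNat 1148569212,Int.negSucc 231282099,Int.ofNat 587020256,Int.negSucc 379781879,Int.ofNat 2150880,Int.negSucc 521405543,Int.ofNat 194908160,Int.negSucc 216125959,Int.negSucc 23121959],[Int.ofNat 0,Int.ofNat 0,Int.ofNat 2378420,Int.ofNat 0,Int.ofNat 0,Int.ofNat 0,Int.ofNat 12574720,Int.negSucc 537719,Int.ofNat 0,Int.ofNat 33008640,Int.ofNat 3433480,Int.ofNat 0,Int.ofNat 124320820,Int.negSucc 6721499,Int.ofNat 194908160,Int.negSucc 22914239,Int.ofNat 115325600,Int.negSucc 16669319],[Int.ofNat 0,Int.ofNat 16453020,Int.negSucc 12574719,Int.ofNat 268860,Int.ofNat 0,Int.ofNat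 0,Int.negSucc 83204919,Int.negSucc 910159,Int.ofNat 0,Int.negSucc 296154359,Int.ofNat 64290280,Int.negSucc 361966439,Int.ofNat 93661960,Int.negSucc 7528079,Int.negSucc 216125959,Int.ofNat 115325600,Int.ofNat 53127200,Int.negSucc 46781639],[Int.ofNat 0,Int.ofNat 0,Int.ofNat 537720,Int.ofNat 0,Int.ofNat 0,Int.ofNat 0,Int.ofNat 2150880,Int.ofNat 537720,Int.ofNat 0,Int.ofNat 0,Int.ofNat 806580,Int.ofNat 0,Int.negSucc 16669319,Int.ofNat 2150880,Int.negSucc 23121959,Int.negSucc 16669319,Int.negSucc 46781639,Int.negSucc 23121959]]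

theorem checkB2 : checkBil MB2 TB2 91 = true := by decide +kernel

end Crest.Agent.PottsTree.CertQ3

end
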