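import Crest.Agent.Lib.PottsTree.Target

/-!
# Potts tree, `q = 3`: definitions for the pointwise certificates
-/

set_option linter.unusedVariables false

noncomputable section

namespace Crest.Agent.PottsTree.CertQ3

/-- skew coordinates of the simplex: `u = p0 - p1`, `v = p1 - p2` -/
def xa (u v : ℝ) : ℝ := (1 + v + 2 * u) / 3
def xb (u v : ℝ) : ℝ := (1 + v - u) / 3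
def xc (u v : ℝ) : ℝ := (1 - 2 * v - u) / 3
/-- invariants in skew coordinates -/
def rU (u v : ℝ) : ℝ := u ^ 2 + u * v + v ^ 2
def tU (u v : ℝ) : ℝ := u ^ 3 + 3 / 2 * u ^ 2 * v - 3 / 2 * u * v ^ 2 - v ^ 3
/-- `Z = 3 ∑ a_i b_i` -/
def Zf (a0 a1 a2 b0 b1 b2 : ℝ) : ℝ := 3 * (a0 * b0 + a1 * b1 + a2 * b2)
/-- `N = Z² - 27 e₂(a_i b_i)` -/
def Nf (a0 a1 a2 b0 b1 b2 : ℝ) : ℝ :=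
  Zf a0 a1 a2 b0 b1 b2 ^ 2 - 27 * (a0 * b0 * (a1 * b1) + a1 * b1 * (a2 * b2) + a2 * b2 * (a0 * b0))
/-- sum over the six orderings of the last three arguments -/
def perm6 (h : ℝ → ℝ → ℝ → ℝ) (b0 b1 b2 : ℝ) : ℝ :=
  h b0 b1 b2 + h b1 b2 b0 + h b2 b0 b1 + h b0 b2 b1 + h b2 b1 b0 + h b1 b0 b2

def mP0 (r t r' t' : ℝ) : ℝ :=
  1
def mP1 (r t r' t' : ℝ) : ℝ :=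
  0
def mP2 (r t r' t' : ℝ) : ℝ :=
  2*r*r'
def mP3 (r t r' t' : ℝ) : ℝ :=
  2*t*t'
def mP4 (r t r' t' : ℝ) : ℝ :=
  6*r^2*r'^2
def mP5 (r t r' t' : ℝ) : ℝ :=
  10*r*t*r'*t'
def mN0 (r t r' t' : ℝ) : ℝ :=
  1*r' + 1*r + 1*r*r'
def mN1 (r t r' t' : ℝ) : ℝ :=
  2*t*r' + 2*r*t' + 2*r*r'
def mN2 (r t r' t' : ℝ) : ℝ :=
  2*t*t' + 2*t*r'^2 + 2*r*r'^2 + 2*r^2*t' + 2*r^2*r' + 2*r^2*r'^2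
def mN3 (r t r' t' : ℝ) : ℝ :=
  2*t*r'*t' + 2*r*t*t' + 2*r*t*r'*t' + 6*r*t*r'^2 + 6*r^2*r'*t' + 6*r^2*r'^2
def mN4 (r t r' t' : ℝ) : ℝ :=
  4*t^2*r'*t' + 4*r*t*t'^2 + 10*r*t*r'*t' + 6*r*t*r'^3 + 6*r^2*r'^3 + 6*r^3*r'*t' + 6*r^3*r'^2 + 6*r^3*r'^3
def mN5 (r t r' t' : ℝ) : ℝ :=
  8*t^2*t'^2 + 4*t^2*r'^2*t' + (-4)*t^2*r'^3 + 10*r*t*r'^2*t' + 4*r^2*t*t'^2 + 10*r^2*t*r'*t' + 10*r^2*t*r'^2*t' + 18*r^2*t*r'^3 + (-4)*r^3*t'^2 + 18*r^3*r'^2*t' + 22*r^3*r'^3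
def mNN0 (r t r' t' : ℝ) : ℝ :=
  1*r'^2 + 4*t*t' + 4*t*r' + 4*r*t' + 4*r*r' + 4*r*r'^2 + 1*r^2 + 4*r^2*r' + 1*r^2*r'^2
def mNN1 (r t r' t' : ℝ) : ℝ :=
  2*t*t' + 2*t*r'*t' + 8*t*r'^2 + 4*r*r'*t' + 4*r*r'^2 + 2*r*t*t' + 4*r*t*r' + 4*r*t*r'^2 + 8*r^2*t' + 4*r^2*r' + 4*r^2*r'*t' + 8*r^2*r'^2
def mNN2 (r t r' t' : ℝ) : ℝ :=
  4*t*r'*t' + 4*t*r'^3 + 4*t^2*r'^2 + 2*r*r'^3 + 4*r*t*t' + 16*r*t*r'*t' + 16*r*t*r'^2 + 4*r*t*r'^3 + 4*r^2*t'^2 + 16*r^2*r'*t' + 10*r^2*r'^2 + 6*r^2*r'^3 + 4*r^3*t' + 2*r^3*r' + 4*r^3*r'*t' + 6*r^3*r'^2 + 2*r^3*r'^3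
def mNN3 (r t r' t' : ℝ) : ℝ :=
  2*t*r'^2*t' + 8*t^2*r'*t' + 8*t^2*r'^3 + 8*r*t*t'^2 + 14*r*t*r'*t' + 14*r*t*r'^2*t' + 24*r*t*r'^3 + 12*r^2*r'^2*t' + 12*r^2*r'^3 + 2*r^2*t*t' + 14*r^2*t*r'*t' + 12*r^2*t*r'^2 + 2*r^2*t*r'^2*t' + 12*r^2*t*r'^3 + 8*r^3*t'^2 + 24*r^3*r'*t' + 12*r^3*r'^2 + 12*r^3*r'^2*t' + 16*r^3*r'^3
def mNN4 (r t r' t' : ℝ) : ℝ :=
  8*t^2*t'^2 + 16*t^2*r'^2*t' + (-4)*t^2*r'^3 + 4*t^2*r'^4 + 8*r*t*r'*t'^2 + 20*r*t*r'^2*t' + 12*r*t*r'^4 + 8*r*t^2*r'*t' + 8*r*t^2*r'^2*t' + 16*r*t^2*r'^3 + 6*r^2*r'^4 + 16*r^2*t*t'^2 + 20*r^2*t*r'*t' + 8*r^2*t*r'*t'^2 + 64*r^2*t*r'^2*t' + 48*r^2*t*r'^3 + 12*r^2*t*r'^4 + (-4)*r^3*t'^2 + 16*r^3*r'*t'^2 + 48*r^3*r'^2*t' + 34*r^3*r'^3 + 14*r^3*r'^4 + 4*r^4*t'^2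 + 12*r^4*r'*t' + 6*r^4*r'^2 + 12*r^4*r'^2*t' + 14*r^4*r'^3 + 6*r^4*r'^4
def mNN5 (r t r' t' : ℝ) : ℝ :=
  16*t^2*r'*t'^2 + 8*t^2*r'^3*t' + (-8)*t^2*r'^4 + 8*t^3*r'^2*t' + 10*r*t*r'^3*t' + 16*r*t^2*t'^2 + 32*r*t^2*r'*t'^2 + 56*r*t^2*r'^2*t' + (-8)*r*t^2*r'^3 + 8*r*t^2*r'^3*t' + 24*r*t^2*r'^4 + 8*r^2*t*t'^3 + 56*r^2*t*r'*t'^2 + 62*r^2*t*r'^2*t' + 54*r^2*t*r'^3*t' + 72*r^2*t*r'^4 + (-8)*r^3*r'*t'^2 + 36*r^3*r'^3*t' + 44*r^3*r'^4 + 8*r^3*t*t'^2 + 10*r^3*t*r'*t' + 8*r^3*t*r'*t'^2 + 54*r^3*t*r'^2*t' + 36*r^3*t*r'^3 + 10*r^3*t*r'^3*t' + 36*r^3*t*r'^4 + (-8)*r^4*t'^2 + 24*r^4*r'*t'^2 + 72*r^4*r'^2*t' + 44*r^4*r'^3 + 36*r^4*r'^3*t' + 48*r^4*r'^4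

end Crest.Agent.PottsTree.CertQ3

end
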