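import Crest.Agent.Lib.PottsTree.CertQ3PairCore

/-! pair bounds for r -/

set_option linter.unusedSimpArgs false
set_option linter.unusedVariables false
set_option maxRecDepth 100000

noncomputable section

namespace Crest.Agent.PottsTree.CertQ3

open Crest.Agent.PottsTree

def r_ge_l (P : ℝ) : ℝ := 1 + (-1)*P + (1995/2048)*P^2 + (-451/512)*P^3 + (2659/4096)*P^4 + (-177/512)*P^5 + (165/2048)*P^6
theorem r_ge_V (P : ℝ) (h0 : -1 ≤ P) (h1 : P ≤ 2) : 0 ≤ 1 - (1+P)*r_ge_l P := by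
  have key : ∀ a b : ℝ, 0 ≤ a → 0 ≤ b → 0 ≤ (1/14348907)*a^0*b^15 + (8477/19591041024)*a^1*b^14 + (1175/1224440064)*a^2*b^13 + (21355/29386561536)*a^3*b^12 + (65/4897760256)*a^4*b^11 + (27929/19591041024)*a^5*b^10 + (17347/3673320192)*a^6*b^9 + (16115/3265173504)*a^7*b^8 + (1265/816293376)*a^8*b^7 + (44605/58773123072)*a^9*b^6 + (2431/612220032)*a^10*b^5 + (55591/9795520512)*a^11*b^4 + (54755/14693280768)*a^12*b^3 + (23915/19591041024)*a^13*b^2 + (25/153055008)*a^14*b^1 + (5/29386561536)*a^15*b^0 := by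
    intro a b ha hb
    positivity
  have e : 1 - (1+P)*r_ge_l P = P^2 * ((1/14348907)*(P+1)^0*(2-P)^15 + (8477/19591041024)*(P+1)^1*(2-P)^14 + (1175/1224440064)*(P+1)^2*(2-P)^13 + (21355/29386561536)*(P+1)^3*(2-P)^12 + (65/4897760256)*(P+1)^4*(2-P)^11 + (27929/19591041024)*(P+1)^5*(2-P)^10 + (17347/3673320192)*(P+1)^6*(2-P)^9 + (16115/3265173504)*(P+1)^7*(2-P)^8 + (1265/816293376)*(P+1)^8*(2-P)^7 + (44605/58773123072)*(P+1)^9*(2-P)^6 + (2431/612220032)*(P+1)^10*(2-P)^5 + (55591/9795520512)*(P+1)^11*(2-P)^4 + (54755/14693280768)*(P+1)^12*(2-P)^3 + (23915/19591041024)*(P+1)^13*(2-P)^2 + (25/153055008)*(P+1)^14*(2-P)^1 + (5/29386561536)*(P+1)^15*(2-P)^0) := by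
    unfold r_ge_l
    ring
  rw [e]
  exact mul_nonneg (sq_nonneg P) (key _ _ (by linarith) (by linarith))

def r_ge_W (a0 a1 a2 b0 b1 b2 : ℝ) : ℝ := Nf a0 a1 a2 b0 b1 b2 * r_ge_l (Zf a0 a1 a2 b0 b1 b2 - 1)

theorem r_ge_split (u v u' v' : ℝ) :
    perm6 (r_ge_W (xa u v) (xb u v) (xc u v)) (xa u' v') (xb u' v') (xc u' v') =
      1 * (perm6 (fun b0 b1 b2 => Nf (xa u v) (xb u v) (xc u v) b0 b1 b2 * (Zf (xa u v) (xb u v) (xc u v) b0 b1 b2 - 1) ^ 0) (xa u' v') (xb u' v') (xc u' v')) + (-1) * (perm6 (fun b0 b1 b2 => Nf (xa u v) (xb u v) (xc u v) b0 b1 b2 * (Zf (xa u v) (xb u v) (xc u v) b0 b1 b2 - 1) ^ 1) (xa u' v') (xb u' v') (xc u' v')) + (1995/2048) * (perm6 (fun b0 b1 b2 => Nf (xa u v) (xb u v) (xc u v) b0 b1 b2 * (Zf (xa u v) (xb u v) (xc u v) b0 b1 b2 - 1) ^ 2) (xa u' v') (xb u' v') (xc u' v')) + (-451/512) * (perm6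 (fun b0 b1 b2 => Nf (xa u v) (xb u v) (xc u v) b0 b1 b2 * (Zf (xa u v) (xb u v) (xc u v) b0 b1 b2 - 1) ^ 3) (xa u' v') (xb u' v') (xc u' v')) + (2659/4096) * (perm6 (fun b0 b1 b2 => Nf (xa u v) (xb u v) (xc u v) b0 b1 b2 * (Zf (xa u v) (xb u v) (xc u v) b0 b1 b2 - 1) ^ 4) (xa u' v') (xb u' v') (xc u' v')) + (-177/512) * (perm6 (fun b0 b1 b2 => Nf (xa u v) (xb u v) (xc u v) b0 b1 b2 * (Zf (xa u v) (xb u v) (xc u v) b0 b1 b2 - 1) ^ 5) (xa u' v') (xb u' v') (xc u' v')) + (165/2048) * (perm6 (fun b0 b1 b2 => Nf (xa u v) (xb u v) (xc u v) b0 b1 b2 * (Zf (xa u v) (xb u v) (xc u v) b0 b1 b2 - 1) ^ 6) (xa u' v') (xb u' v') (xc u' v')) := by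
  simp only [perm6, r_ge_W, r_ge_l]
  ring

def r_ge_psi (r t r' t' : ℝ) : ℝ := 1 * mN0 r t r' t' + (-1) * mN1 r t r' t' + (1995/2048) * mN2 r t r' t' + (-451/512) * mN3 r t r' t' + (2659/4096) * mN4 r t r' t' + (-177/512) * mN5 r t r' t' + (165/2048) * mN6 r t r' t'

theorem r_ge_perm (u v u' v' : ℝ) :
    perm6 (r_ge_W (xa u v) (xb u v) (xc u v)) (xa u' v') (xb u' v') (xc u' v') = 6 * r_ge_psi (rU u v) (tU u v) (rU u' v') (tU u' v') := by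
  rw [r_ge_split, mom_mN0, mom_mN1, mom_mN2, mom_mN3, mom_mN4, mom_mN5, mom_mN6]
  simp only [r_ge_psi]
  ring

def r_ge_T (r t r' t' : ℝ) : ℝ := (7/4)*r*r'

def r_ge_F (r t r' t' : ℝ) : ℝ := r_ge_psi r t r' t' - (r) - (r') + r_ge_T r t r' t'

def r_ge_M : List (List ℤ) := [[Int.ofNat 3990,Int.ofNat 0,Int.ofNat 0,Int.ofNat 0,Int.negSucc 8191,Int.negSucc 3607,Int.ofNat 0,Int.ofNat 0,Int.ofNat 7980,Int.ofNat 0,Int.ofNat 0,Int.ofNat 0,Int.ofNat 0,Int.ofNat 0,Int.ofNat 0,Int.ofNat 0,Int.ofNat 0,Int.ofNat 0],[Int.ofNat 0,Int.negSucc 1415,Int.ofNat 0,Int.ofNat 0,Int.ofNat 0,Int.ofNat 2659,Int.ofNat 330,Int.ofNat 0,Int.ofNat 0,Int.negSucc 1415,Int.ofNat 0,Int.ofNat 2832,Int.ofNat 0,Int.ofNat 0,Int.negSucc 659,Int.ofNat 0,Int.ofNat 0,Int.ofNat 0],[Int.ofNat 0,Int.ofNat 0,Int.ofNat 0,Int.ofNat 0,Int.ofNat 0,Int.ofNat 0,Int.ofNat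 0,Int.ofNat 0,Int.ofNat 0,Int.ofNat 0,Int.ofNat 0,Int.ofNat 0,Int.ofNat 0,Int.ofNat 0,Int.ofNat 0,Int.ofNat 0,Int.ofNat 0,Int.ofNat 0],[Int.ofNat 0,Int.ofNat 0,Int.ofNat 0,Int.ofNat 0,Int.ofNat 0,Int.ofNat 0,Int.ofNat 0,Int.ofNat 0,Int.ofNat 0,Int.ofNat 0,Int.ofNat 0,Int.ofNat 0,Int.ofNat 0,Int.ofNat 0,Int.ofNat 0,Int.ofNat 0,Int.ofNat 0,Int.ofNat 0],[Int.negSucc 8191,Int.ofNat 0,Int.ofNat 0,Int.ofNat 0,Int.ofNat 6144,Int.ofNat 0,Int.ofNat 0,Int.ofNat 0,Int.ofNat 15960,Int.ofNat 0,Int.ofNat 0,Int.ofNat 0,Int.ofNat 0,Int.ofNat 0,Int.ofNat 0,Int.ofNat 0,Int.ofNat 0,Int.ofNat 0],[Int.negSucc 3607,Int.ofNat 2659,Int.ofNat 0,Int.ofNat 0,Int.ofNat 0,Int.ofNat 9687,Int.ofNat 0,Int.ofNat 0,Int.negSucc 21647,Int.negSucc 7079,Int.ofNat 0,Int.ofNat 15954,Int.ofNat 0,Int.ofNat 0,Int.ofNat 0,Int.ofNat 0,Int.ofNat 0,Int.ofNat 0],[Int.ofNat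 0,Int.ofNat 330,Int.ofNat 0,Int.ofNat 0,Int.ofNat 0,Int.ofNat 0,Int.ofNat 330,Int.ofNat 0,Int.ofNat 0,Int.ofNat 1980,Int.ofNat 0,Int.negSucc 659,Int.ofNat 0,Int.ofNat 0,Int.negSucc 659,Int.ofNat 0,Int.ofNat 0,Int.ofNat 0],[Int.ofNat 0,Int.ofNat 0,Int.ofNat 0,Int.ofNat 0,Int.ofNat 0,Int.ofNat 0,Int.ofNat 0,Int.ofNat 0,Int.ofNat 0,Int.ofNat 0,Int.ofNat 0,Int.ofNat 0,Int.ofNat 0,Int.ofNat 0,Int.ofNat 0,Int.ofNat 0,Int.ofNat 0,Int.ofNat 0],[Int.ofNat 7980,Int.ofNat 0,Int.ofNat 0,Int.ofNat 0,Int.ofNat 15960,Int.negSucc 21647,Int.ofNat 0,Int.ofNat 0,Int.negSucc 27335,Int.ofNat 0,Int.ofNat 0,Int.ofNat 31908,Int.ofNat 0,Int.ofNat 0,Int.ofNat 0,Int.ofNat 0,Int.ofNat 0,Int.ofNat 0],[Int.ofNat 0,Int.negSucc 1415,Int.ofNat 0,Int.ofNat 0,Int.ofNat 0,Int.negSucc 7079,Int.ofNat 1980,Int.ofNat 0,Int.ofNat 0,Int.negSucc 149,Int.ofNat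 0,Int.negSucc 25487,Int.ofNat 0,Int.ofNat 0,Int.ofNat 5940,Int.ofNat 0,Int.ofNat 0,Int.ofNat 0],[Int.ofNat 0,Int.ofNat 0,Int.ofNat 0,Int.ofNat 0,Int.ofNat 0,Int.ofNat 0,Int.ofNat 0,Int.ofNat 0,Int.ofNat 0,Int.ofNat 0,Int.ofNat 0,Int.ofNat 0,Int.ofNat 0,Int.ofNat 0,Int.ofNat 0,Int.ofNat 0,Int.ofNat 0,Int.ofNat 0],[Int.ofNat 0,Int.ofNat 2832,Int.ofNat 0,Int.ofNat 0,Int.ofNat 0,Int.ofNat 15954,Int.negSucc 659,Int.ofNat 0,Int.ofNat 31908,Int.negSucc 25487,Int.ofNat 0,Int.negSucc 30395,Int.ofNat 0,Int.ofNat 0,Int.ofNat 14520,Int.ofNat 0,Int.ofNat 0,Int.ofNat 0],[Int.ofNat 0,Int.ofNat 0,Int.ofNat 0,Int.ofNat 0,Int.ofNat 0,Int.ofNat 0,Int.ofNat 0,Int.ofNat 0,Int.ofNat 0,Int.ofNat 0,Int.ofNat 0,Int.ofNat 0,Int.ofNat 0,Int.ofNat 0,Int.ofNat 0,Int.ofNat 0,Int.ofNat 0,Int.ofNat 0],[Int.ofNat 0,Int.ofNat 0,Int.ofNat 0,Int.ofNat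 0,Int.ofNat 0,Int.ofNat 0,Int.ofNat 0,Int.ofNat 0,Int.ofNat 0,Int.ofNat 0,Int.ofNat 0,Int.ofNat 0,Int.ofNat 0,Int.ofNat 0,Int.ofNat 0,Int.ofNat 0,Int.ofNat 0,Int.ofNat 0],[Int.ofNat 0,Int.negSucc 659,Int.ofNat 0,Int.ofNat 0,Int.ofNat 0,Int.ofNat 0,Int.negSucc 659,Int.ofNat 0,Int.ofNat 0,Int.ofNat 5940,Int.ofNat 0,Int.ofNat 14520,Int.ofNat 0,Int.ofNat 0,Int.ofNat 14520,Int.ofNat 0,Int.ofNat 0,Int.ofNat 0],[Int.ofNat 0,Int.ofNat 0,Int.ofNat 0,Int.ofNat 0,Int.ofNat 0,Int.ofNat 0,Int.ofNat 0,Int.ofNat 0,Int.ofNat 0,Int.ofNat 0,Int.ofNat 0,Int.ofNat 0,Int.ofNat 0,Int.ofNat 0,Int.ofNat 0,Int.ofNat 0,Int.ofNat 0,Int.ofNat 0],[Int.ofNat 0,Int.ofNat 0,Int.ofNat 0,Int.ofNat 0,Int.ofNat 0,Int.ofNat 0,Int.ofNat 0,Int.ofNat 0,Int.ofNat 0,Int.ofNat 0,Int.ofNat 0,Int.ofNat 0,Int.ofNat 0,Int.ofNat 0,Int.ofNat 0,Int.ofNat 0,Int.ofNat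 0,Int.ofNat 0],[Int.ofNat 0,Int.ofNat 0,Int.ofNat 0,Int.ofNat 0,Int.ofNat 0,Int.ofNat 0,Int.ofNat 0,Int.ofNat 0,Int.ofNat 0,Int.ofNat 0,Int.ofNat 0,Int.ofNat 0,Int.ofNat 0,Int.ofNat 0,Int.ofNat 0,Int.ofNat 0,Int.ofNat 0,Int.ofNat 0]]

theorem r_ge_check : checkBil r_ge_M TB2 91 = true := by decide +kernel

theorem r_ge_bil (r t r' t' : ℝ) :
    bilR r_ge_M (invB2 r t) (invB2 r' t') = 8192 * r_ge_F r t r' t' := by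
  simp only [bilR, r_ge_M, invB2, List.map_cons, List.map_nil, rdot, rrdot, Int.cast_ofNat_Int,
    Int.cast_negSucc]
  push_cast
  simp only [r_ge_F, r_ge_psi, r_ge_T, rec6poly, mP0, mP1, mP2, mP3, mP4, mP5, mP6, mP7, mP8,
    mP9, mP10, mP11, mP12, mN0, mN1, mN2, mN3, mN4, mN5, mN6, mN7, mN8, mN9, mN10, mNN9, mNN10, mNN0, mNN1, mNN2, mNN3, mNN4, mNN5, mNN6, mNN7, mNN8]
  ring

/-- pair bound -/
theorem pair_r_ge {p r : Fin 3 → ℝ} (hp : p ∈ Sx 3) (hr : r ∈ Sx 3) :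
    rr p + rr r - r_ge_T (rr p) (tt p) (rr r) (tt r) ≤ B rr p r := by
  obtain ⟨u, v, h0, h1, h2, h3, h4⟩ := exists_skew hp
  obtain ⟨u', v', h0', h1', h2', h3', h4'⟩ := exists_skew hr
  have hB := B_ge_perm (r_ge_W (p 0) (p 1) (p 2)) hr (fun y hy => rr_ge r_ge_l r_ge_V hp hy)
  rw [h0, h1, h2, h0', h1', h2', r_ge_perm, ← h3, ← h4, ← h3', ← h4'] at hB
  have hΦ := B2_chamber r_ge_M r_ge_check hp hr
  rw [r_ge_bil] at hΦ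
  simp only [r_ge_F] at hΦ
  linarith

def r_le_l (P : ℝ) : ℝ := 1 + (-1)*P + (3937/4096)*P^2 + (-1659/2048)*P^3 + (33/64)*P^4 + (-433/2048)*P^5 + (159/4096)*P^6
theorem r_le_V (P : ℝ) (h0 : -1 ≤ P) (h1 : P ≤ 2) : 0 ≤ 1 - (1+P)*r_le_l P := by
  have key : ∀ a b : ℝ, 0 ≤ a → 0 ≤ b → 0 ≤ (1/4782969)*a^0*b^14 + (3271/2448880128)*a^1*b^13 + (4027/1224440064)*a^2*b^12 + (4381/1224440064)*a^3*b^11 + (12079/9795520512)*a^4*b^10 + (12775/19591041024)*a^5*b^9 + (25931/6530347008)*a^6*b^8 + (9421/1632586752)*a^7*b^7 + (2761/816293376)*a^8*b^6 + (12917/9795520512)*a^9*b^5 + (15427/9795520512)*a^10*b^4 + (7975/4897760256)*a^11*b^3 + (7385/9795520512)*a^12*b^2 + (2543/19591041024)*a^13*b^1 + (1/19591041024)*a^14*b^0 := by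
    intro a b ha hb
    positivity
  have e : 1 - (1+P)*r_le_l P = P^2 * ((1/4782969)*(P+1)^0*(2-P)^14 + (3271/2448880128)*(P+1)^1*(2-P)^13 + (4027/1224440064)*(P+1)^2*(2-P)^12 + (4381/1224440064)*(P+1)^3*(2-P)^11 + (12079/9795520512)*(P+1)^4*(2-P)^10 + (12775/19591041024)*(P+1)^5*(2-P)^9 + (25931/6530347008)*(P+1)^6*(2-P)^8 + (9421/1632586752)*(P+1)^7*(2-P)^7 + (2761/816293376)*(P+1)^8*(2-P)^6 + (12917/9795520512)*(P+1)^9*(2-P)^5 + (15427/9795520512)*(P+1)^10*(2-P)^4 + (7975/4897760256)*(P+1)^11*(2-P)^3 + (7385/9795520512)*(P+1)^12*(2-P)^2 + (2543/19591041024)*(P+1)^13*(2-P)^1 + (1/19591041024)*(P+1)^14*(2-P)^0) := by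
    unfold r_le_l
    ring
  rw [e]
  exact mul_nonneg (sq_nonneg P) (key _ _ (by linarith) (by linarith))

def r_le_W (a0 a1 a2 b0 b1 b2 : ℝ) : ℝ := Zf a0 a1 a2 b0 b1 b2 - (Zf a0 a1 a2 b0 b1 b2 ^ 2 - Nf a0 a1 a2 b0 b1 b2) * r_le_l (Zf a0 a1 a2 b0 b1 b2 - 1)

theorem r_le_split (u v u' v' : ℝ) :
    perm6 (r_le_W (xa u v) (xb u v) (xc u v)) (xa u' v') (xb u' v') (xc u' v') =
      perm6 (fun b0 b1 b2 => (Zf (xa u v) (xb u v) (xc u v) b0 b1 b2 - 1) ^ 0) (xa u' v') (xb u' v') (xc u' v') + perm6 (fun b0 b1 b2 => (Zf (xa u v) (xb u v) (xc u v) b0 b1 b2 - 1) ^ 1) (xa u' v') (xb u' v') (xc u' v') - (1 * (perm6 (fun b0 b1 b2 => (Zf (xa u v) (xb u v) (xc u v) b0 b1 b2 - 1) ^ 0) (xa u' v') (xb u' v') (xc u' v') + 2 * (perm6 (fun b0 b1 b2 => (Zf (xa u v) (xb u v) (xc u v) b0 b1 b2 - 1) ^ 1) (xa u' v') (xb u' v') (xc u' v'))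 + perm6 (fun b0 b1 b2 => (Zf (xa u v) (xb u v) (xc u v) b0 b1 b2 - 1) ^ 2) (xa u' v') (xb u' v') (xc u' v') - perm6 (fun b0 b1 b2 => Nf (xa u v) (xb u v) (xc u v) b0 b1 b2 * (Zf (xa u v) (xb u v) (xc u v) b0 b1 b2 - 1) ^ 0) (xa u' v') (xb u' v') (xc u' v')) + (-1) * (perm6 (fun b0 b1 b2 => (Zf (xa u v) (xb u v) (xc u v) b0 b1 b2 - 1) ^ 1) (xa u' v') (xb u' v') (xc u' v') + 2 * (perm6 (fun b0 b1 b2 => (Zf (xa u v) (xb u v) (xc u v) b0 b1 b2 - 1) ^ 2) (xa u' v') (xb u' v') (xc u' v')) + perm6 (fun b0 b1 b2 => (Zf (xa u v) (xb u v) (xc u v) b0 b1 b2 - 1) ^ 3) (xa u' v') (xb u' v') (xc u' v') - perm6 (fun b0 b1 b2 => Nf (xa u v) (xb u v) (xc u v) b0 b1 b2 * (Zf (xa u v) (xb u v) (xc u v) b0 b1 b2 - 1) ^ 1) (xa u' v') (xb u' v') (xc u' v')) + (3937/4096) * (perm6 (fun b0 b1 b2 => (Zf (xa u v) (xb u v) (xc u v) b0 b1 b2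 - 1) ^ 2) (xa u' v') (xb u' v') (xc u' v') + 2 * (perm6 (fun b0 b1 b2 => (Zf (xa u v) (xb u v) (xc u v) b0 b1 b2 - 1) ^ 3) (xa u' v') (xb u' v') (xc u' v')) + perm6 (fun b0 b1 b2 => (Zf (xa u v) (xb u v) (xc u v) b0 b1 b2 - 1) ^ 4) (xa u' v') (xb u' v') (xc u' v') - perm6 (fun b0 b1 b2 => Nf (xa u v) (xb u v) (xc u v) b0 b1 b2 * (Zf (xa u v) (xb u v) (xc u v) b0 b1 b2 - 1) ^ 2) (xa u' v') (xb u' v') (xc u' v')) + (-1659/2048) * (perm6 (fun b0 b1 b2 => (Zf (xa u v) (xb u v) (xc u v) b0 b1 b2 - 1) ^ 3) (xa u' v') (xb u' v') (xc u' v') + 2 * (perm6 (fun b0 b1 b2 => (Zf (xa u v) (xb u v) (xc u v) b0 b1 b2 - 1) ^ 4) (xa u' v') (xb u' v') (xc u' v')) + perm6 (fun b0 b1 b2 => (Zf (xa u v) (xb u v) (xc u v) b0 b1 b2 - 1) ^ 5) (xa u' v') (xb u' v') (xc u' v') - perm6 (fun b0 b1 b2 => Nf (xa u v) (xb u v) (xc u v) b0 b1 b2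 * (Zf (xa u v) (xb u v) (xc u v) b0 b1 b2 - 1) ^ 3) (xa u' v') (xb u' v') (xc u' v')) + (33/64) * (perm6 (fun b0 b1 b2 => (Zf (xa u v) (xb u v) (xc u v) b0 b1 b2 - 1) ^ 4) (xa u' v') (xb u' v') (xc u' v') + 2 * (perm6 (fun b0 b1 b2 => (Zf (xa u v) (xb u v) (xc u v) b0 b1 b2 - 1) ^ 5) (xa u' v') (xb u' v') (xc u' v')) + perm6 (fun b0 b1 b2 => (Zf (xa u v) (xb u v) (xc u v) b0 b1 b2 - 1) ^ 6) (xa u' v') (xb u' v') (xc u' v') - perm6 (fun b0 b1 b2 => Nf (xa u v) (xb u v) (xc u v) b0 b1 b2 * (Zf (xa u v) (xb u v) (xc u v) b0 b1 b2 - 1) ^ 4) (xa u' v') (xb u' v') (xc u' v')) + (-433/2048) * (perm6 (fun b0 b1 b2 => (Zf (xa u v) (xb u v) (xc u v) b0 b1 b2 - 1) ^ 5) (xa u' v') (xb u' v') (xc u' v') + 2 * (perm6 (fun b0 b1 b2 => (Zf (xa u v) (xb u v) (xc u v) b0 b1 b2 - 1) ^ 6) (xa u' v') (xb u' v') (xc u' v')) + perm6 (fun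 b0 b1 b2 => (Zf (xa u v) (xb u v) (xc u v) b0 b1 b2 - 1) ^ 7) (xa u' v') (xb u' v') (xc u' v') - perm6 (fun b0 b1 b2 => Nf (xa u v) (xb u v) (xc u v) b0 b1 b2 * (Zf (xa u v) (xb u v) (xc u v) b0 b1 b2 - 1) ^ 5) (xa u' v') (xb u' v') (xc u' v')) + (159/4096) * (perm6 (fun b0 b1 b2 => (Zf (xa u v) (xb u v) (xc u v) b0 b1 b2 - 1) ^ 6) (xa u' v') (xb u' v') (xc u' v') + 2 * (perm6 (fun b0 b1 b2 => (Zf (xa u v) (xb u v) (xc u v) b0 b1 b2 - 1) ^ 7) (xa u' v') (xb u' v') (xc u' v')) + perm6 (fun b0 b1 b2 => (Zf (xa u v) (xb u v) (xc u v) b0 b1 b2 - 1) ^ 8) (xa u' v') (xb u' v') (xc u' v') - perm6 (fun b0 b1 b2 => Nf (xa u v) (xb u v) (xc u v) b0 b1 b2 * (Zf (xa u v) (xb u v) (xc u v) b0 b1 b2 - 1) ^ 6) (xa u' v') (xb u' v') (xc u' v'))) := by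
  simp only [perm6, r_le_W, r_le_l]
  ring

def r_le_psi (r t r' t' : ℝ) : ℝ := mP0 r t r' t' + mP1 r t r' t' - (1 * (mP0 r t r' t' + 2 * mP1 r t r' t' + mP2 r t r' t' - mN0 r t r' t')+ (-1) * (mP1 r t r' t' + 2 * mP2 r t r' t' + mP3 r t r' t' - mN1 r t r' t')+ (3937/4096) * (mP2 r t r' t' + 2 * mP3 r t r' t' + mP4 r t r' t' - mN2 r t r' t')+ (-1659/2048) * (mP3 r t r' t' + 2 * mP4 r t r' t' + mP5 r t r' t' - mN3 r t r' t')+ (33/64) * (mP4 r t r' t' + 2 * mP5 r t r' t' + mP6 r t r' t' - mN4 r t r' t')+ (-433/2048) * (mP5 r t r' t' + 2 * mP6 r t r' t' + mP7 r t r' t' - mN5 r t r' t')+ (159/4096) * (mP6 r t r' t' + 2 * mP7 r t r' t' + mP8 r t r' t' - mN6 r t r' t'))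

theorem r_le_perm (u v u' v' : ℝ) :
    perm6 (r_le_W (xa u v) (xb u v) (xc u v)) (xa u' v') (xb u' v') (xc u' v') = 6 * r_le_psi (rU u v) (tU u v) (rU u' v') (tU u' v') := by
  rw [r_le_split, mom_mN0, mom_mN1, mom_mN2, mom_mN3, mom_mN4, mom_mN5, mom_mN6, mom_mP0, mom_mP1, mom_mP2, mom_mP3, mom_mP4, mom_mP5, mom_mP6, mom_mP7, mom_mP8]
  simp only [r_le_psi]
  ring

def r_le_T (r t r' t' : ℝ) : ℝ := (101/50)*r*r'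

def r_le_F (r t r' t' : ℝ) : ℝ := (r) + (r') + r_le_T r t r' t' - r_le_psi r t r' t'

def r_le_M : List (List ℤ) := [[Int.negSucc 86924,Int.ofNat 0,Int.ofNat 204800,Int.ofNat 82950,Int.ofNat 0,Int.negSucc 196849,Int.ofNat 0,Int.ofNat 0,Int.ofNat 0],[Int.ofNat 0,Int.ofNat 35125,Int.ofNat 0,Int.negSucc 52799,Int.negSucc 3974,Int.ofNat 0,Int.ofNat 21650,Int.negSucc 70249,Int.ofNat 7950],[Int.ofNat 204800,Int.ofNat 0,Int.ofNat 602596,Int.ofNat 0,Int.ofNat 0,Int.negSucc 393699,Int.ofNat 0,Int.ofNat 0,Int.ofNat 0],[Int.ofNat 82950,Int.negSucc 52799,Int.ofNat 0,Int.negSucc 176049,Int.ofNat 0,Int.ofNat 497700,Int.ofNat 108250,Int.negSucc 316799,Int.ofNat 0],[Int.ofNat 0,Int.negSucc 3974,Int.ofNat 0,Int.ofNat 0,Int.ofNat 27825,Int.ofNat 0,Int.negSucc 23849,Int.ofNat 7950,Int.negSucc 55649],[Int.negSucc 196849,Int.ofNat 0,Int.negSucc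 393699,Int.ofNat 497700,Int.ofNat 0,Int.ofNat 425600,Int.ofNat 0,Int.negSucc 633599,Int.ofNat 0],[Int.ofNat 0,Int.ofNat 21650,Int.ofNat 0,Int.ofNat 108250,Int.negSucc 23849,Int.ofNat 0,Int.negSucc 262924,Int.ofNat 389700,Int.negSucc 71549],[Int.ofNat 0,Int.negSucc 70249,Int.ofNat 0,Int.negSucc 316799,Int.ofNat 7950,Int.negSucc 633599,Int.ofNat 389700,Int.ofNat 911900,Int.negSucc 174899],[Int.ofNat 0,Int.ofNat 7950,Int.ofNat 0,Int.ofNat 0,Int.negSucc 55649,Int.ofNat 0,Int.negSucc 71549,Int.negSucc 174899,Int.ofNat 508800]]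

theorem r_le_check : checkBil r_le_M TB1 45 = true := by decide +kernel

theorem r_le_bil (r t r' t' : ℝ) :
    bilR r_le_M (invB1 r t) (invB1 r' t') = 204800 * r_le_F r t r' t' := by
  simp only [bilR, r_le_M, invB1, List.map_cons, List.map_nil, rdot, rrdot, Int.cast_ofNat_Int,
    Int.cast_negSucc]
  push_cast
  simp only [r_le_F, r_le_psi, r_le_T, rec6poly, mP0, mP1, mP2, mP3, mP4, mP5, mP6, mP7, mP8,
    mP9, mP10, mP11, mP12, mN0, mN1, mN2, mN3, mN4, mN5, mN6, mN7, mN8, mN9, mN10, mNN9, mNN10, mNN0, mNN1, mNN2, mNN3, mNN4, mNN5, mNN6, mNN7, mNN8]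
  ring

/-- pair bound -/
theorem pair_r_le {p r : Fin 3 → ℝ} (hp : p ∈ Sx 3) (hr : r ∈ Sx 3) :
    B rr p r ≤ rr p + rr r + r_le_T (rr p) (tt p) (rr r) (tt r) := by
  obtain ⟨u, v, h0, h1, h2, h3, h4⟩ := exists_skew hp
  obtain ⟨u', v', h0', h1', h2', h3', h4'⟩ := exists_skew hr
  have hB := B_le_perm (r_le_W (p 0) (p 1) (p 2)) hr (fun y hy => rr_le r_le_l r_le_V hp hy)
  rw [h0, h1, h2, h0', h1', h2', r_le_perm, ← h3, ← h4, ← h3', ← h4'] at hB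
  have hΦ := B1_chamber r_le_M r_le_check hp hr
  rw [r_le_bil] at hΦ
  simp only [r_le_F] at hΦ
  linarith

end Crest.Agent.PottsTree.CertQ3

end
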