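import Crest.Agent.Lib.PottsTree.CertQ3PairCore

/-! pair bounds for t -/

set_option linter.unusedSimpArgs false
set_option linter.unusedVariables false
set_option maxRecDepth 100000

noncomputable section

namespace Crest.Agent.PottsTree.CertQ3

open Crest.Agent.PottsTree

def t_ge_l (P : ℝ) : ℝ := 1 + (-1)*P + (15621/16384)*P^2 + (-26911/32768)*P^3 + (33021/65536)*P^4 + (-5613/32768)*P^5 + (1539/65536)*P^6
theorem t_ge_V (P : ℝ) (h0 : -1 ≤ P) (h1 : P ≤ 2) : 0 ≤ 1 - (1+P)*t_ge_l P := by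
  have key : ∀ a b : ℝ, 0 ≤ a → 0 ≤ b → 0 ≤ (1/4782969)*a^0*b^14 + (107807/78364164096)*a^1*b^13 + (539735/156728328192)*a^2*b^12 + (1122769/313456656384)*a^3*b^11 + (243053/313456656384)*a^4*b^10 + (331355/156728328192)*a^5*b^9 + (344339/26121388032)*a^6*b^8 + (1287353/52242776064)*a^7*b^7 + (1244845/52242776064)*a^8*b^6 + (1046311/78364164096)*a^9*b^5 + (676237/156728328192)*a^10*b^4 + (239665/313456656384)*a^11*b^3 + (28573/313456656384)*a^12*b^2 + (2413/156728328192)*a^13*b^1 + (79/78364164096)*a^14*b^0 := by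
    intro a b ha hb
    positivity
  have e : 1 - (1+P)*t_ge_l P = P^2 * ((1/4782969)*(P+1)^0*(2-P)^14 + (107807/78364164096)*(P+1)^1*(2-P)^13 + (539735/156728328192)*(P+1)^2*(2-P)^12 + (1122769/313456656384)*(P+1)^3*(2-P)^11 + (243053/313456656384)*(P+1)^4*(2-P)^10 + (331355/156728328192)*(P+1)^5*(2-P)^9 + (344339/26121388032)*(P+1)^6*(2-P)^8 + (1287353/52242776064)*(P+1)^7*(2-P)^7 + (1244845/52242776064)*(P+1)^8*(2-P)^6 + (1046311/78364164096)*(P+1)^9*(2-P)^5 + (676237/156728328192)*(P+1)^10*(2-P)^4 + (239665/313456656384)*(P+1)^11*(2-P)^3 + (28573/313456656384)*(P+1)^12*(2-P)^2 + (2413/156728328192)*(P+1)^13*(2-P)^1 + (79/78364164096)*(P+1)^14*(2-P)^0) := by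
    unfold t_ge_l
    ring
  rw [e]
  exact mul_nonneg (sq_nonneg P) (key _ _ (by linarith) (by linarith))

def t_ge_l2 (P : ℝ) : ℝ := 1 + (-2)*P + (2031/32768)*P^2 + (-131453/16384)*P^3 + (121681/32768)*P^4
theorem t_ge_V2 (P : ℝ) (h0 : -1 ≤ P) (h1 : P ≤ 2) : 0 ≤ 1 - (1+P)^2*t_ge_l2 P := by
  have key : ∀ a b : ℝ, 0 ≤ a → 0 ≤ b → 0 ≤ (1/43046721)*a^0*b^16 + (22/43046721)*a^1*b^15 + (566953/235092492288)*a^2*b^14 + (493661/176319369216)*a^3*b^13 + (298165/1410554953728)*a^4*b^12 + (7738871/117546246144)*a^5*b^11 + (157168319/352638738432)*a^6*b^10 + (499488539/352638738432)*a^7*b^9 + (439030999/156728328192)*a^8*b^8 + (668563885/176319369216)*a^9*b^7 + (2573310355/705277476864)*a^10*b^6 + (37017589/14693280768)*a^11*b^5 + (1739670163/1410554953728)*a^12*b^4 + (145573057/352638738432)*a^13*b^3 + (5151235/58773123072)*a^14*b^2 + (3546419/352638738432)*a^15*b^1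 + (562889/1410554953728)*a^16*b^0 := by
    intro a b ha hb
    positivity
  have e : 1 - (1+P)^2*t_ge_l2 P = P^2 * ((1/43046721)*(P+1)^0*(2-P)^16 + (22/43046721)*(P+1)^1*(2-P)^15 + (566953/235092492288)*(P+1)^2*(2-P)^14 + (493661/176319369216)*(P+1)^3*(2-P)^13 + (298165/1410554953728)*(P+1)^4*(2-P)^12 + (7738871/117546246144)*(P+1)^5*(2-P)^11 + (157168319/352638738432)*(P+1)^6*(2-P)^10 + (499488539/352638738432)*(P+1)^7*(2-P)^9 + (439030999/156728328192)*(P+1)^8*(2-P)^8 + (668563885/176319369216)*(P+1)^9*(2-P)^7 + (2573310355/705277476864)*(P+1)^10*(2-P)^6 + (37017589/14693280768)*(P+1)^11*(2-P)^5 + (1739670163/1410554953728)*(P+1)^12*(2-P)^4 + (145573057/352638738432)*(P+1)^13*(2-P)^3 + (5151235/58773123072)*(P+1)^14*(2-P)^2 + (3546419/352638738432)*(P+1)^15*(2-P)^1 + (562889/1410554953728)*(P+1)^16*(2-P)^0) := by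
    unfold t_ge_l2
    ring
  rw [e]
  exact mul_nonneg (sq_nonneg P) (key _ _ (by linarith) (by linarith))

def t_ge_W (a0 a1 a2 b0 b1 b2 : ℝ) : ℝ := (Gf a0 a1 a2 b0 b1 b2 * t_ge_l2 (Zf a0 a1 a2 b0 b1 b2 - 1) - Zf a0 a1 a2 b0 b1 b2 + 3 * (Nf a0 a1 a2 b0 b1 b2 * t_ge_l (Zf a0 a1 a2 b0 b1 b2 - 1))) / 2

theorem t_ge_split (u v u' v' : ℝ) :
    perm6 (t_ge_W (xa u v) (xb u v) (xc u v)) (xa u' v') (xb u' v') (xc u' v') =
      ((729 * (xa u v * xb u v * xc u v * (xa u' v' * xb u' v' * xc u' v'))) * (1 * (perm6 (fun b0 b1 b2 => (Zf (xa u v) (xb u v) (xc u v) b0 b1 b2 - 1) ^ 0) (xa u' v') (xb u' v') (xc u' v')) + (-2) * (perm6 (fun b0 b1 b2 => (Zf (xa u v) (xb u v) (xc u v) b0 b1 b2 - 1) ^ 1) (xa u' v') (xb u' v') (xc u' v')) + (2031/32768) * (perm6 (fun b0 b1 b2 => (Zf (xa u v) (xb u v) (xc u v) b0 b1 b2 - 1) ^ 2) (xa u' v') (xb u' v') (xc u' v')) + (-131453/16384)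 * (perm6 (fun b0 b1 b2 => (Zf (xa u v) (xb u v) (xc u v) b0 b1 b2 - 1) ^ 3) (xa u' v') (xb u' v') (xc u' v')) + (121681/32768) * (perm6 (fun b0 b1 b2 => (Zf (xa u v) (xb u v) (xc u v) b0 b1 b2 - 1) ^ 4) (xa u' v') (xb u' v') (xc u' v'))) - (perm6 (fun b0 b1 b2 => (Zf (xa u v) (xb u v) (xc u v) b0 b1 b2 - 1) ^ 1) (xa u' v') (xb u' v') (xc u' v') + perm6 (fun b0 b1 b2 => (Zf (xa u v) (xb u v) (xc u v) b0 b1 b2 - 1) ^ 0) (xa u' v') (xb u' v') (xc u' v')) + 3 * (1 * (perm6 (fun b0 b1 b2 => Nf (xa u v) (xb u v) (xc u v) b0 b1 b2 * (Zf (xa u v) (xb u v) (xc u v) b0 b1 b2 - 1) ^ 0) (xa u' v') (xb u' v') (xc u' v')) + (-1) * (perm6 (fun b0 b1 b2 => Nf (xa u v) (xb u v) (xc u v) b0 b1 b2 * (Zf (xa u v) (xb u v) (xc u v) b0 b1 b2 - 1) ^ 1) (xa u' v') (xb u' v') (xc u' v')) + (15621/16384) * (perm6 (fun b0 b1 b2 => Nf (xa u v) (xb u v) (xc u v) b0 b1 b2 * (Zf (xa u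 v) (xb u v) (xc u v) b0 b1 b2 - 1) ^ 2) (xa u' v') (xb u' v') (xc u' v')) + (-26911/32768) * (perm6 (fun b0 b1 b2 => Nf (xa u v) (xb u v) (xc u v) b0 b1 b2 * (Zf (xa u v) (xb u v) (xc u v) b0 b1 b2 - 1) ^ 3) (xa u' v') (xb u' v') (xc u' v')) + (33021/65536) * (perm6 (fun b0 b1 b2 => Nf (xa u v) (xb u v) (xc u v) b0 b1 b2 * (Zf (xa u v) (xb u v) (xc u v) b0 b1 b2 - 1) ^ 4) (xa u' v') (xb u' v') (xc u' v')) + (-5613/32768) * (perm6 (fun b0 b1 b2 => Nf (xa u v) (xb u v) (xc u v) b0 b1 b2 * (Zf (xa u v) (xb u v) (xc u v) b0 b1 b2 - 1) ^ 5) (xa u' v') (xb u' v') (xc u' v')) + (1539/65536) * (perm6 (fun b0 b1 b2 => Nf (xa u v) (xb u v) (xc u v) b0 b1 b2 * (Zf (xa u v) (xb u v) (xc u v) b0 b1 b2 - 1) ^ 6) (xa u' v') (xb u' v') (xc u' v')))) / 2 := by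
  simp only [perm6, t_ge_W, t_ge_l, t_ge_l2, Gf]
  ring

def t_ge_psi (r t r' t' : ℝ) : ℝ := ((1 - 3 * r + 2 * t) * (1 - 3 * r' + 2 * t') * (1 * mP0 r t r' t' + (-2) * mP1 r t r' t' + (2031/32768) * mP2 r t r' t' + (-131453/16384) * mP3 r t r' t' + (121681/32768) * mP4 r t r' t') - (mP1 r t r' t' + mP0 r t r' t') + 3 * (1 * mN0 r t r' t' + (-1) * mN1 r t r' t' + (15621/16384) * mN2 r t r' t' + (-26911/32768) * mN3 r t r' t' + (33021/65536) * mN4 r t r' t' + (-5613/32768) * mN5 r t r' t' + (1539/65536) * mN6 r t r' t')) / 2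

theorem t_ge_perm (u v u' v' : ℝ) :
    perm6 (t_ge_W (xa u v) (xb u v) (xc u v)) (xa u' v') (xb u' v') (xc u' v') = 6 * t_ge_psi (rU u v) (tU u v) (rU u' v') (tU u' v') := by
  rw [t_ge_split, mom_mN0, mom_mN1, mom_mN2, mom_mN3, mom_mN4, mom_mN5, mom_mN6, mom_mP0, mom_mP1, mom_mP2, mom_mP3, mom_mP4, gg_eq]
  simp only [t_ge_psi]
  ring

def t_ge_T (r t r' t' : ℝ) : ℝ := (21/20)*r*r'

def t_ge_F (r t r' t' : ℝ) : ℝ := t_ge_psi r t r' t' - (t) - (t') + t_ge_T r t r' t'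

def t_ge_M : List (List ℤ) := [[Int.negSucc 1036439,Int.negSucc 2629059,Int.negSucc 3932159,Int.ofNat 7079850,Int.ofNat 0,Int.ofNat 1874520,Int.ofNat 0,Int.ofNat 0,Int.ofNat 0],[Int.negSucc 2629059,Int.negSucc 2797449,Int.ofNat 0,Int.ofNat 8382495,Int.ofNat 23085,Int.ofNat 0,Int.negSucc 168389,Int.ofNat 336780,Int.negSucc 46169],[Int.negSucc 3932159,Int.ofNat 0,Int.ofNat 5389656,Int.ofNat 81240,Int.ofNat 0,Int.ofNat 3505320,Int.ofNat 0,Int.ofNat 0,Int.ofNat 0],[Int.ofNat 7079850,Int.ofNat 8382495,Int.ofNat 81240,Int.negSucc 21911054,Int.ofNat 0,Int.negSucc 5087699,Int.negSucc 841949,Int.ofNat 2971890,Int.ofNat 0],[Int.ofNat 0,Int.ofNat 23085,Int.ofNat 0,Int.ofNat 0,Int.ofNat 23085,Int.ofNat 0,Int.ofNat 138510,Int.negSucc 46169,Int.negSucc 46169],[Int.ofNat 1874520,Int.ofNat 0,Int.ofNat 3505320,Int.negSucc 5087699,Int.ofNat 0,Int.ofNat 9393960,Int.ofNat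 14601720,Int.negSucc 37861379,Int.ofNat 0],[Int.ofNat 0,Int.negSucc 168389,Int.ofNat 0,Int.negSucc 841949,Int.ofNat 138510,Int.ofNat 14601720,Int.ofNat 14244555,Int.negSucc 46836179,Int.ofNat 415530],[Int.ofNat 0,Int.ofNat 336780,Int.ofNat 0,Int.ofNat 2971890,Int.negSucc 46169,Int.negSucc 37861379,Int.negSucc 46836179,Int.ofNat 129950100,Int.ofNat 1015740],[Int.ofNat 0,Int.negSucc 46169,Int.ofNat 0,Int.ofNat 0,Int.negSucc 46169,Int.ofNat 0,Int.ofNat 415530,Int.ofNat 1015740,Int.ofNat 1015740]]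

theorem t_ge_check : checkBil t_ge_M TB1 45 = true := by decide +kernel

theorem t_ge_bil (r t r' t' : ℝ) :
    bilR t_ge_M (invB1 r t) (invB1 r' t') = 1310720 * t_ge_F r t r' t' := by
  simp only [bilR, t_ge_M, invB1, List.map_cons, List.map_nil, rdot, rrdot, Int.cast_ofNat_Int,
    Int.cast_negSucc]
  push_cast
  simp only [t_ge_F, t_ge_psi, t_ge_T, rec6poly, mP0, mP1, mP2, mP3, mP4, mP5, mP6, mP7, mP8,
    mP9, mP10, mP11, mP12, mN0, mN1, mN2, mN3, mN4, mN5, mN6, mN7, mN8, mN9, mN10, mNN9, mNN10, mNN0, mNN1, mNN2, mNN3, mNN4, mNN5, mNN6, mNN7, mNN8]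
  ring

/-- pair bound -/
theorem pair_t_ge {p r : Fin 3 → ℝ} (hp : p ∈ Sx 3) (hr : r ∈ Sx 3) :
    tt p + tt r - t_ge_T (rr p) (tt p) (rr r) (tt r) ≤ B tt p r := by
  obtain ⟨u, v, h0, h1, h2, h3, h4⟩ := exists_skew hp
  obtain ⟨u', v', h0', h1', h2', h3', h4'⟩ := exists_skew hr
  have hB := B_ge_perm (t_ge_W (p 0) (p 1) (p 2)) hr (fun y hy => tt_ge t_ge_l t_ge_l2 t_ge_V t_ge_V2 hp hy)
  rw [h0, h1, h2, h0', h1', h2', t_ge_perm, ← h3, ← h4, ← h3', ← h4'] at hB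
  have hΦ := B1_chamber t_ge_M t_ge_check hp hr
  rw [t_ge_bil] at hΦ
  simp only [t_ge_F] at hΦ
  linarith

def t_le_l (P : ℝ) : ℝ := 1 + (-1)*P + (3937/4096)*P^2 + (-1659/2048)*P^3 + (33/64)*P^4 + (-433/2048)*P^5 + (159/4096)*P^6
theorem t_le_V (P : ℝ) (h0 : -1 ≤ P) (h1 : P ≤ 2) : 0 ≤ 1 - (1+P)*t_le_l P := by
  have key : ∀ a b : ℝ, 0 ≤ a → 0 ≤ b → 0 ≤ (1/4782969)*a^0*b^14 + (3271/2448880128)*a^1*b^13 + (4027/1224440064)*a^2*b^12 + (4381/1224440064)*a^3*b^11 + (12079/9795520512)*a^4*b^10 + (12775/19591041024)*a^5*b^9 + (25931/6530347008)*a^6*b^8 + (9421/1632586752)*a^7*b^7 + (2761/816293376)*a^8*b^6 + (12917/9795520512)*a^9*b^5 + (15427/9795520512)*a^10*b^4 + (7975/4897760256)*a^11*b^3 + (7385/9795520512)*a^12*b^2 + (2543/19591041024)*a^13*b^1 + (1/19591041024)*a^14*b^0 := by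
    intro a b ha hb
    positivity
  have e : 1 - (1+P)*t_le_l P = P^2 * ((1/4782969)*(P+1)^0*(2-P)^14 + (3271/2448880128)*(P+1)^1*(2-P)^13 + (4027/1224440064)*(P+1)^2*(2-P)^12 + (4381/1224440064)*(P+1)^3*(2-P)^11 + (12079/9795520512)*(P+1)^4*(2-P)^10 + (12775/19591041024)*(P+1)^5*(2-P)^9 + (25931/6530347008)*(P+1)^6*(2-P)^8 + (9421/1632586752)*(P+1)^7*(2-P)^7 + (2761/816293376)*(P+1)^8*(2-P)^6 + (12917/9795520512)*(P+1)^9*(2-P)^5 + (15427/9795520512)*(P+1)^10*(2-P)^4 + (7975/4897760256)*(P+1)^11*(2-P)^3 + (7385/9795520512)*(P+1)^12*(2-P)^2 + (2543/19591041024)*(P+1)^13*(2-P)^1 + (1/19591041024)*(P+1)^14*(2-P)^0) := by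
    unfold t_le_l
    ring
  rw [e]
  exact mul_nonneg (sq_nonneg P) (key _ _ (by linarith) (by linarith))

def t_le_mu (P : ℝ) : ℝ := 1 + (-2)*P + (23017/4096)*P^2 + (19337/4096)*P^3 + (34919/2048)*P^4
def t_le_nu (P : ℝ) : ℝ := (273/4096)*P^2 + (-65/256)*P^3 + (535/1024)*P^4 + (-2201/4096)*P^5 + (275/1024)*P^6
theorem t_le_Vn (P : ℝ) (h0 : -1 ≤ P) (h1 : P ≤ 2) : 0 ≤ t_le_nu P := by
  have key : ∀ a b : ℝ, 0 ≤ a → 0 ≤ b → 0 ≤ (3377/88159684608)*a^0*b^16 + (59095/176319369216)*a^1*b^15 + (4459/3673320192)*a^2*b^14 + (197743/88159684608)*a^3*b^13 + (349451/176319369216)*a^4*b^12 + (29983/58773123072)*a^5*b^11 + (82445/88159684608)*a^6*b^10 + (99473/22039921152)*a^7*b^9 + (134453/19591041024)*a^8*b^8 + (794497/176319369216)*a^9*b^7 + (40579/44079842304)*a^10*b^6 + (14465/29386561536)*a^11*b^5 + (346877/176319369216)*a^12*b^4 + (394091/176319369216)*a^13*b^3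 + (35591/29386561536)*a^14*b^2 + (14749/44079842304)*a^15*b^1 + (6745/176319369216)*a^16*b^0 := by
    intro a b ha hb
    positivity
  have e : t_le_nu P = P^2 * ((3377/88159684608)*(P+1)^0*(2-P)^16 + (59095/176319369216)*(P+1)^1*(2-P)^15 + (4459/3673320192)*(P+1)^2*(2-P)^14 + (197743/88159684608)*(P+1)^3*(2-P)^13 + (349451/176319369216)*(P+1)^4*(2-P)^12 + (29983/58773123072)*(P+1)^5*(2-P)^11 + (82445/88159684608)*(P+1)^6*(2-P)^10 + (99473/22039921152)*(P+1)^7*(2-P)^9 + (134453/19591041024)*(P+1)^8*(2-P)^8 + (794497/176319369216)*(P+1)^9*(2-P)^7 + (40579/44079842304)*(P+1)^10*(2-P)^6 + (14465/29386561536)*(P+1)^11*(2-P)^5 + (346877/176319369216)*(P+1)^12*(2-P)^4 + (394091/176319369216)*(P+1)^13*(2-P)^3 + (35591/29386561536)*(P+1)^14*(2-P)^2 + (14749/44079842304)*(P+1)^15*(2-P)^1 + (6745/176319369216)*(P+1)^16*(2-P)^0) := by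
    unfold t_le_nu
    ring
  rw [e]
  exact mul_nonneg (sq_nonneg P) (key _ _ (by linarith) (by linarith))

theorem t_le_Vm (P : ℝ) (h0 : -1 ≤ P) (h1 : P ≤ 2) : 0 ≤ t_le_nu P - ((1+P) - t_le_mu P*(1+P)^3) := by
  have key : ∀ a b : ℝ, 0 ≤ a → 0 ≤ b → 0 ≤ (3377/264479053824)*a^0*b^17 + (53561/528958107648)*a^1*b^16 + (2791/528958107648)*a^2*b^15 + (1753/66119763456)*a^3*b^14 + (2082281/264479053824)*a^4*b^13 + (15416393/528958107648)*a^5*b^12 + (11822845/528958107648)*a^6*b^11 + (206371/264479053824)*a^7*b^10 + (14404423/33059881728)*a^8*b^9 + (1185815389/528958107648)*a^9*b^8 + (2912516849/528958107648)*a^10*b^7 + (1111994323/132239526912)*a^11*b^6 + (2297529433/264479053824)*a^12*b^5 + (3295739719/528958107648)*a^13*b^4 + (1628481227/528958107648)*a^14*b^3 + (265725155/264479053824)*a^15*b^2 + (51741829/264479053824)*a^16*b^1 + (4564445/264479053824)*a^17*b^0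 := by
    intro a b ha hb
    positivity
  have e : t_le_nu P - ((1+P) - t_le_mu P*(1+P)^3) = P^2 * ((3377/264479053824)*(P+1)^0*(2-P)^17 + (53561/528958107648)*(P+1)^1*(2-P)^16 + (2791/528958107648)*(P+1)^2*(2-P)^15 + (1753/66119763456)*(P+1)^3*(2-P)^14 + (2082281/264479053824)*(P+1)^4*(2-P)^13 + (15416393/528958107648)*(P+1)^5*(2-P)^12 + (11822845/528958107648)*(P+1)^6*(2-P)^11 + (206371/264479053824)*(P+1)^7*(2-P)^10 + (14404423/33059881728)*(P+1)^8*(2-P)^9 + (1185815389/528958107648)*(P+1)^9*(2-P)^8 + (2912516849/528958107648)*(P+1)^10*(2-P)^7 + (1111994323/132239526912)*(P+1)^11*(2-P)^6 + (2297529433/264479053824)*(P+1)^12*(2-P)^5 + (3295739719/528958107648)*(P+1)^13*(2-P)^4 + (1628481227/528958107648)*(P+1)^14*(2-P)^3 + (265725155/264479053824)*(P+1)^15*(2-P)^2 + (51741829/264479053824)*(P+1)^16*(2-P)^1 + (4564445/264479053824)*(P+1)^17*(2-P)^0) :=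 by
    unfold t_le_nu t_le_mu
    ring
  rw [e]
  exact mul_nonneg (sq_nonneg P) (key _ _ (by linarith) (by linarith))

def t_le_W (a0 a1 a2 b0 b1 b2 : ℝ) : ℝ := (Gf a0 a1 a2 b0 b1 b2 * t_le_mu (Zf a0 a1 a2 b0 b1 b2 - 1) + t_le_nu (Zf a0 a1 a2 b0 b1 b2 - 1) - Zf a0 a1 a2 b0 b1 b2 + 3 * (Zf a0 a1 a2 b0 b1 b2 - (Zf a0 a1 a2 b0 b1 b2 ^ 2 - Nf a0 a1 a2 b0 b1 b2) * t_le_l (Zf a0 a1 a2 b0 b1 b2 - 1))) / 2

theorem t_le_split (u v u' v' : ℝ) :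
    perm6 (t_le_W (xa u v) (xb u v) (xc u v)) (xa u' v') (xb u' v') (xc u' v') =
      ((729 * (xa u v * xb u v * xc u v * (xa u' v' * xb u' v' * xc u' v'))) * (1 * (perm6 (fun b0 b1 b2 => (Zf (xa u v) (xb u v) (xc u v) b0 b1 b2 - 1) ^ 0) (xa u' v') (xb u' v') (xc u' v')) + (-2) * (perm6 (fun b0 b1 b2 => (Zf (xa u v) (xb u v) (xc u v) b0 b1 b2 - 1) ^ 1) (xa u' v') (xb u' v') (xc u' v')) + (23017/4096) * (perm6 (fun b0 b1 b2 => (Zf (xa u v) (xb u v) (xc u v) b0 b1 b2 - 1) ^ 2) (xa u' v') (xb u' v') (xc u' v')) + (19337/4096) * (perm6 (fun b0 b1 b2 => (Zf (xa u v) (xb u v) (xc u v) b0 b1 b2 - 1) ^ 3) (xa u' v') (xb u' v') (xc u' v')) + (34919/2048) * (perm6 (fun b0 b1 b2 => (Zf (xa u v) (xb u v) (xc u v) b0 b1 b2 - 1) ^ 4) (xa u' v') (xb u' v') (xc u' v'))) + ((273/4096) * (perm6 (fun b0 b1 b2 => (Zf (xa u v) (xb u v) (xc u v) b0 b1 b2 - 1) ^ 2) (xa u' v')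 (xb u' v') (xc u' v')) + (-65/256) * (perm6 (fun b0 b1 b2 => (Zf (xa u v) (xb u v) (xc u v) b0 b1 b2 - 1) ^ 3) (xa u' v') (xb u' v') (xc u' v')) + (535/1024) * (perm6 (fun b0 b1 b2 => (Zf (xa u v) (xb u v) (xc u v) b0 b1 b2 - 1) ^ 4) (xa u' v') (xb u' v') (xc u' v')) + (-2201/4096) * (perm6 (fun b0 b1 b2 => (Zf (xa u v) (xb u v) (xc u v) b0 b1 b2 - 1) ^ 5) (xa u' v') (xb u' v') (xc u' v')) + (275/1024) * (perm6 (fun b0 b1 b2 => (Zf (xa u v) (xb u v) (xc u v) b0 b1 b2 - 1) ^ 6) (xa u' v') (xb u' v') (xc u' v'))) - (perm6 (fun b0 b1 b2 => (Zf (xa u v) (xb u v) (xc u v) b0 b1 b2 - 1) ^ 1) (xa u' v') (xb u' v') (xc u' v') + perm6 (fun b0 b1 b2 => (Zf (xa u v) (xb u v) (xc u v) b0 b1 b2 - 1) ^ 0) (xa u' v') (xb u' v') (xc u' v')) + 3 * (perm6 (fun b0 b1 b2 => (Zf (xa u v) (xb u v) (xc u v) b0 b1 b2 - 1) ^ 0) (xa u' v') (xb u' v') (xc u' v') + perm6 (fun b0 b1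 b2 => (Zf (xa u v) (xb u v) (xc u v) b0 b1 b2 - 1) ^ 1) (xa u' v') (xb u' v') (xc u' v') - (1 * (perm6 (fun b0 b1 b2 => (Zf (xa u v) (xb u v) (xc u v) b0 b1 b2 - 1) ^ 0) (xa u' v') (xb u' v') (xc u' v') + 2 * (perm6 (fun b0 b1 b2 => (Zf (xa u v) (xb u v) (xc u v) b0 b1 b2 - 1) ^ 1) (xa u' v') (xb u' v') (xc u' v')) + perm6 (fun b0 b1 b2 => (Zf (xa u v) (xb u v) (xc u v) b0 b1 b2 - 1) ^ 2) (xa u' v') (xb u' v') (xc u' v') - perm6 (fun b0 b1 b2 => Nf (xa u v) (xb u v) (xc u v) b0 b1 b2 * (Zf (xa u v) (xb u v) (xc u v) b0 b1 b2 - 1) ^ 0) (xa u' v') (xb u' v') (xc u' v')) + (-1) * (perm6 (fun b0 b1 b2 => (Zf (xa u v) (xb u v) (xc u v) b0 b1 b2 - 1) ^ 1) (xa u' v') (xb u' v') (xc u' v') + 2 * (perm6 (fun b0 b1 b2 => (Zf (xa u v) (xb u v) (xc u v) b0 b1 b2 - 1) ^ 2) (xa u' v') (xb u' v') (xc u' v')) + perm6 (fun b0 b1 b2 => (Zf (xa u v) (xb u v) (xc u v) b0 b1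 b2 - 1) ^ 3) (xa u' v') (xb u' v') (xc u' v') - perm6 (fun b0 b1 b2 => Nf (xa u v) (xb u v) (xc u v) b0 b1 b2 * (Zf (xa u v) (xb u v) (xc u v) b0 b1 b2 - 1) ^ 1) (xa u' v') (xb u' v') (xc u' v')) + (3937/4096) * (perm6 (fun b0 b1 b2 => (Zf (xa u v) (xb u v) (xc u v) b0 b1 b2 - 1) ^ 2) (xa u' v') (xb u' v') (xc u' v') + 2 * (perm6 (fun b0 b1 b2 => (Zf (xa u v) (xb u v) (xc u v) b0 b1 b2 - 1) ^ 3) (xa u' v') (xb u' v') (xc u' v')) + perm6 (fun b0 b1 b2 => (Zf (xa u v) (xb u v) (xc u v) b0 b1 b2 - 1) ^ 4) (xa u' v') (xb u' v') (xc u' v') - perm6 (fun b0 b1 b2 => Nf (xa u v) (xb u v) (xc u v) b0 b1 b2 * (Zf (xa u v) (xb u v) (xc u v) b0 b1 b2 - 1) ^ 2) (xa u' v') (xb u' v') (xc u' v')) + (-1659/2048) * (perm6 (fun b0 b1 b2 => (Zf (xa u v) (xb u v) (xc u v) b0 b1 b2 - 1) ^ 3) (xa u' v') (xb u' v') (xc u' v') + 2 * (perm6 (fun b0 b1 b2 => (Zf (xa u v) (xb u v)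 (xc u v) b0 b1 b2 - 1) ^ 4) (xa u' v') (xb u' v') (xc u' v')) + perm6 (fun b0 b1 b2 => (Zf (xa u v) (xb u v) (xc u v) b0 b1 b2 - 1) ^ 5) (xa u' v') (xb u' v') (xc u' v') - perm6 (fun b0 b1 b2 => Nf (xa u v) (xb u v) (xc u v) b0 b1 b2 * (Zf (xa u v) (xb u v) (xc u v) b0 b1 b2 - 1) ^ 3) (xa u' v') (xb u' v') (xc u' v')) + (33/64) * (perm6 (fun b0 b1 b2 => (Zf (xa u v) (xb u v) (xc u v) b0 b1 b2 - 1) ^ 4) (xa u' v') (xb u' v') (xc u' v') + 2 * (perm6 (fun b0 b1 b2 => (Zf (xa u v) (xb u v) (xc u v) b0 b1 b2 - 1) ^ 5) (xa u' v') (xb u' v') (xc u' v')) + perm6 (fun b0 b1 b2 => (Zf (xa u v) (xb u v) (xc u v) b0 b1 b2 - 1) ^ 6) (xa u' v') (xb u' v') (xc u' v') - perm6 (fun b0 b1 b2 => Nf (xa u v) (xb u v) (xc u v) b0 b1 b2 * (Zf (xa u v) (xb u v) (xc u v) b0 b1 b2 - 1) ^ 4) (xa u' v') (xb u' v') (xc u' v')) + (-433/2048) * (perm6 (fun b0 b1 b2 => (Zf (xa u v) (xb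 u v) (xc u v) b0 b1 b2 - 1) ^ 5) (xa u' v') (xb u' v') (xc u' v') + 2 * (perm6 (fun b0 b1 b2 => (Zf (xa u v) (xb u v) (xc u v) b0 b1 b2 - 1) ^ 6) (xa u' v') (xb u' v') (xc u' v')) + perm6 (fun b0 b1 b2 => (Zf (xa u v) (xb u v) (xc u v) b0 b1 b2 - 1) ^ 7) (xa u' v') (xb u' v') (xc u' v') - perm6 (fun b0 b1 b2 => Nf (xa u v) (xb u v) (xc u v) b0 b1 b2 * (Zf (xa u v) (xb u v) (xc u v) b0 b1 b2 - 1) ^ 5) (xa u' v') (xb u' v') (xc u' v')) + (159/4096) * (perm6 (fun b0 b1 b2 => (Zf (xa u v) (xb u v) (xc u v) b0 b1 b2 - 1) ^ 6) (xa u' v') (xb u' v') (xc u' v') + 2 * (perm6 (fun b0 b1 b2 => (Zf (xa u v) (xb u v) (xc u v) b0 b1 b2 - 1) ^ 7) (xa u' v') (xb u' v') (xc u' v')) + perm6 (fun b0 b1 b2 => (Zf (xa u v) (xb u v) (xc u v) b0 b1 b2 - 1) ^ 8) (xa u' v') (xb u' v') (xc u' v') - perm6 (fun b0 b1 b2 => Nf (xa u v) (xb u v) (xc u v) b0 b1 b2 * (Zf (xa u v) (xb u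 v) (xc u v) b0 b1 b2 - 1) ^ 6) (xa u' v') (xb u' v') (xc u' v'))))) / 2 := by
  simp only [perm6, t_le_W, t_le_l, t_le_mu, t_le_nu, Gf]
  ring

def t_le_psi (r t r' t' : ℝ) : ℝ := ((1 - 3 * r + 2 * t) * (1 - 3 * r' + 2 * t') * (1 * mP0 r t r' t' + (-2) * mP1 r t r' t' + (23017/4096) * mP2 r t r' t' + (19337/4096) * mP3 r t r' t' + (34919/2048) * mP4 r t r' t') + ((273/4096) * mP2 r t r' t' + (-65/256) * mP3 r t r' t' + (535/1024) * mP4 r t r' t' + (-2201/4096) * mP5 r t r' t' + (275/1024) * mP6 r t r' t') - (mP1 r t r' t' + mP0 r t r' t') + 3 * (mP0 r t r' t' + mP1 r t r' t' - (1 * (mP0 r t r' t' + 2 * mP1 r t r' t' + mP2 r t r' t' - mN0 r t r' t')+ (-1) * (mP1 r t r' t' + 2 * mP2 r t r' t' + mP3 r t r' t' - mN1 r t r' t')+ (3937/4096) * (mP2 r t r' t' + 2 * mP3 r t r' t' + mP4 r t r' t' - mN2 r t r' t')+ (-1659/2048) * (mP3 r t r' t' + 2 * mP4 r t r' t'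 + mP5 r t r' t' - mN3 r t r' t')+ (33/64) * (mP4 r t r' t' + 2 * mP5 r t r' t' + mP6 r t r' t' - mN4 r t r' t')+ (-433/2048) * (mP5 r t r' t' + 2 * mP6 r t r' t' + mP7 r t r' t' - mN5 r t r' t')+ (159/4096) * (mP6 r t r' t' + 2 * mP7 r t r' t' + mP8 r t r' t' - mN6 r t r' t')))) / 2

theorem t_le_perm (u v u' v' : ℝ) :
    perm6 (t_le_W (xa u v) (xb u v) (xc u v)) (xa u' v') (xb u' v') (xc u' v') = 6 * t_le_psi (rU u v) (tU u v) (rU u' v') (tU u' v') := by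
  rw [t_le_split, mom_mN0, mom_mN1, mom_mN2, mom_mN3, mom_mN4, mom_mN5, mom_mN6, mom_mP0, mom_mP1, mom_mP2, mom_mP3, mom_mP4, mom_mP5, mom_mP6, mom_mP7, mom_mP8, gg_eq]
  simp only [t_le_psi]
  ring

def t_le_T (r t r' t' : ℝ) : ℝ := (56/5)*r*r'

def t_le_F (r t r' t' : ℝ) : ℝ := (t) + (t') + t_le_T r t r' t' - t_le_psi r t r' t'

def t_le_M : List (List ℤ) := [[Int.negSucc 184599,Int.negSucc 96684,Int.ofNat 245760,Int.ofNat 339825,Int.ofNat 0,Int.negSucc 118109,Int.ofNat 0,Int.ofNat 0,Int.ofNat 0],[Int.negSucc 96684,Int.negSucc 81109,Int.ofNat 0,Int.ofNat 258375,Int.negSucc 2384,Int.ofNat 0,Int.ofNat 12990,Int.negSucc 31149,Int.ofNat 4770],[Int.ofNat 245760,Int.ofNat 0,Int.ofNat 196404,Int.negSucc 460339,Int.ofNat 0,Int.ofNat 1144800,Int.ofNat 0,Int.ofNat 0,Int.ofNat 0],[Int.ofNat 339825,Int.ofNat 258375,Int.negSucc 460339,Int.negSucc 1381109,Int.ofNat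 0,Int.ofNat 1679640,Int.ofNat 64950,Int.negSucc 190079,Int.ofNat 0],[Int.ofNat 0,Int.negSucc 2384,Int.ofNat 0,Int.ofNat 0,Int.ofNat 16695,Int.ofNat 0,Int.negSucc 14309,Int.ofNat 4770,Int.negSucc 33389],[Int.negSucc 118109,Int.ofNat 0,Int.ofNat 1144800,Int.ofNat 1679640,Int.ofNat 0,Int.negSucc 8206379,Int.negSucc 4190279,Int.ofNat 12190680,Int.ofNat 0],[Int.ofNat 0,Int.ofNat 12990,Int.ofNat 0,Int.ofNat 64950,Int.negSucc 14309,Int.negSucc 4190279,Int.negSucc 4348034,Int.ofNat 12804660,Int.negSucc 42929],[Int.ofNat 0,Int.negSucc 31149,Int.ofNat 0,Int.negSucc 190079,Int.ofNat 4770,Int.ofNat 12190680,Int.ofNat 12804660,Int.negSucc 37407379,Int.negSucc 104939],[Int.ofNat 0,Int.ofNat 4770,Int.ofNat 0,Int.ofNat 0,Int.negSucc 33389,Int.ofNat 0,Int.negSucc 42929,Int.negSucc 104939,Int.ofNat 305280]]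

theorem t_le_check : checkBil t_le_M TB1 45 = true := by decide +kernel

theorem t_le_bil (r t r' t' : ℝ) :
    bilR t_le_M (invB1 r t) (invB1 r' t') = 81920 * t_le_F r t r' t' := by
  simp only [bilR, t_le_M, invB1, List.map_cons, List.map_nil, rdot, rrdot, Int.cast_ofNat_Int,
    Int.cast_negSucc]
  push_cast
  simp only [t_le_F, t_le_psi, t_le_T, rec6poly, mP0, mP1, mP2, mP3, mP4, mP5, mP6, mP7, mP8,
    mP9, mP10, mP11, mP12, mN0, mN1, mN2, mN3, mN4, mN5, mN6, mN7, mN8, mN9, mN10, mNN9, mNN10, mNN0, mNN1, mNN2, mNN3, mNN4, mNN5, mNN6, mNN7, mNN8]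
  ring

/-- pair bound -/
theorem pair_t_le {p r : Fin 3 → ℝ} (hp : p ∈ Sx 3) (hr : r ∈ Sx 3) :
    B tt p r ≤ tt p + tt r + t_le_T (rr p) (tt p) (rr r) (tt r) := by
  obtain ⟨u, v, h0, h1, h2, h3, h4⟩ := exists_skew hp
  obtain ⟨u', v', h0', h1', h2', h3', h4'⟩ := exists_skew hr
  have hB := B_le_perm (t_le_W (p 0) (p 1) (p 2)) hr (fun y hy => tt_le t_le_l t_le_mu t_le_nu t_le_V t_le_Vn (fun P a b => by have := t_le_Vm P a b; linarith) hp hy)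
  rw [h0, h1, h2, h0', h1', h2', t_le_perm, ← h3, ← h4, ← h3', ← h4'] at hB
  have hΦ := B1_chamber t_le_M t_le_check hp hr
  rw [t_le_bil] at hΦ
  simp only [t_le_F] at hΦ
  linarith

end Crest.Agent.PottsTree.CertQ3

end
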