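import Crest.Agent.Lib.PottsTree.CertQ3PairCore

/-! pair bounds for r^2 -/

set_option linter.unusedSimpArgs false
set_option linter.unusedVariables false
set_option maxRecDepth 100000

noncomputable section

namespace Crest.Agent.PottsTree.CertQ3

open Crest.Agent.PottsTree

def r2_le_c (P : ℝ) : ℝ := 1 + (-3)*P + (3003/512)*P^2 + (-16261/2048)*P^3 + (14099/2048)*P^4 + (-6501/2048)*P^5 + (589/1024)*P^6
def r2_le_nu (P : ℝ) : ℝ := (9/16)*P^2 + (-2039/2048)*P^3 + (489/4096)*P^4 + (4731/4096)*P^5 + (-2121/4096)*P^6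
theorem r2_le_Vn (P : ℝ) (h0 : -1 ≤ P) (h1 : P ≤ 2) : 0 ≤ r2_le_nu P := by
  have key : ∀ a b : ℝ, 0 ≤ a → 0 ≤ b → 0 ≤ (19/176319369216)*a^0*b^16 + (53167/176319369216)*a^1*b^15 + (185785/58773123072)*a^2*b^14 + (323485/22039921152)*a^3*b^13 + (6907739/176319369216)*a^4*b^12 + (3808495/58773123072)*a^5*b^11 + (11499235/176319369216)*a^6*b^10 + (2950145/88159684608)*a^7*b^9 + (28985/19591041024)*a^8*b^8 + (231913/176319369216)*a^9*b^7 + (3941113/176319369216)*a^10*b^6 + (479707/14693280768)*a^11*b^5 + (4158785/176319369216)*a^12*b^4 + (1728635/176319369216)*a^13*b^3 + (132883/58773123072)*a^14*b^2 + (19961/88159684608)*a^15*b^1 + (1/11019960576)*a^16*b^0 := by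
    intro a b ha hb
    positivity
  have e : r2_le_nu P = P^2 * ((19/176319369216)*(P+1)^0*(2-P)^16 + (53167/176319369216)*(P+1)^1*(2-P)^15 + (185785/58773123072)*(P+1)^2*(2-P)^14 + (323485/22039921152)*(P+1)^3*(2-P)^13 + (6907739/176319369216)*(P+1)^4*(2-P)^12 + (3808495/58773123072)*(P+1)^5*(2-P)^11 + (11499235/176319369216)*(P+1)^6*(2-P)^10 + (2950145/88159684608)*(P+1)^7*(2-P)^9 + (28985/19591041024)*(P+1)^8*(2-P)^8 + (231913/176319369216)*(P+1)^9*(2-P)^7 + (3941113/176319369216)*(P+1)^10*(2-P)^6 + (479707/14693280768)*(P+1)^11*(2-P)^5 + (4158785/176319369216)*(P+1)^12*(2-P)^4 + (1728635/176319369216)*(P+1)^13*(2-P)^3 + (132883/58773123072)*(P+1)^14*(2-P)^2 + (19961/88159684608)*(P+1)^15*(2-P)^1 + (1/11019960576)*(P+1)^16*(2-P)^0) := by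
    unfold r2_le_nu
    ring
  rw [e]
  exact mul_nonneg (sq_nonneg P) (key _ _ (by linarith) (by linarith))

theorem r2_le_Vm (P : ℝ) (h0 : -1 ≤ P) (h1 : P ≤ 2) : 0 ≤ r2_le_nu P - ((1+P) - r2_le_c P*(1+P)^4) := by
  have key : ∀ a b : ℝ, 0 ≤ a → 0 ≤ b → 0 ≤ (19/42845606719488)*a^0*b^21 + (6829/7140934453248)*a^1*b^20 + (13997/1190155742208)*a^2*b^19 + (1839187/42845606719488)*a^3*b^18 + (40915/1190155742208)*a^4*b^17 + (839/88159684608)*a^5*b^16 + (3951847/3570467226624)*a^6*b^15 + (14464253/2380311484416)*a^7*b^14 + (12275221/793437161472)*a^8*b^13 + (482908153/21422803359744)*a^9*b^12 + (66456169/3570467226624)*a^10*b^11 + (989729/148769467776)*a^11*b^10 + (29731/83682825624)*a^12*b^9 + (13123769/2380311484416)*a^13*b^8 + (1701143/132239526912)*a^14*b^7 + (92717705/7140934453248)*a^15*b^6 + (35571247/4760622968832)*a^16*b^5 + (502585/198359290368)*a^17*b^4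 + (1225045/2677850419968)*a^18*b^3 + (422447/14281868906496)*a^19*b^2 + (467/1190155742208)*a^20*b^1 + (5959/10711401679872)*a^21*b^0 := by
    intro a b ha hb
    positivity
  have e : r2_le_nu P - ((1+P) - r2_le_c P*(1+P)^4) = P^2 * ((19/42845606719488)*(P+1)^0*(2-P)^21 + (6829/7140934453248)*(P+1)^1*(2-P)^20 + (13997/1190155742208)*(P+1)^2*(2-P)^19 + (1839187/42845606719488)*(P+1)^3*(2-P)^18 + (40915/1190155742208)*(P+1)^4*(2-P)^17 + (839/88159684608)*(P+1)^5*(2-P)^16 + (3951847/3570467226624)*(P+1)^6*(2-P)^15 + (14464253/2380311484416)*(P+1)^7*(2-P)^14 + (12275221/793437161472)*(P+1)^8*(2-P)^13 + (482908153/21422803359744)*(P+1)^9*(2-P)^12 + (66456169/3570467226624)*(P+1)^10*(2-P)^11 + (989729/148769467776)*(P+1)^11*(2-P)^10 + (29731/83682825624)*(P+1)^12*(2-P)^9 + (13123769/2380311484416)*(P+1)^13*(2-P)^8 + (1701143/132239526912)*(P+1)^14*(2-P)^7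 + (92717705/7140934453248)*(P+1)^15*(2-P)^6 + (35571247/4760622968832)*(P+1)^16*(2-P)^5 + (502585/198359290368)*(P+1)^17*(2-P)^4 + (1225045/2677850419968)*(P+1)^18*(2-P)^3 + (422447/14281868906496)*(P+1)^19*(2-P)^2 + (467/1190155742208)*(P+1)^20*(2-P)^1 + (5959/10711401679872)*(P+1)^21*(2-P)^0) := by
    unfold r2_le_nu r2_le_c
    ring
  rw [e]
  exact mul_nonneg (sq_nonneg P) (key _ _ (by linarith) (by linarith))

def r2_le_W (a0 a1 a2 b0 b1 b2 : ℝ) : ℝ := Nf a0 a1 a2 b0 b1 b2 ^ 2 * r2_le_c (Zf a0 a1 a2 b0 b1 b2 - 1) + r2_le_nu (Zf a0 a1 a2 b0 b1 b2 - 1)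

theorem r2_le_split (u v u' v' : ℝ) :
    perm6 (r2_le_W (xa u v) (xb u v) (xc u v)) (xa u' v') (xb u' v') (xc u' v') =
      1 * (perm6 (fun b0 b1 b2 => Nf (xa u v) (xb u v) (xc u v) b0 b1 b2 ^ 2 * (Zf (xa u v) (xb u v) (xc u v) b0 b1 b2 - 1) ^ 0) (xa u' v') (xb u' v') (xc u' v')) + (-3) * (perm6 (fun b0 b1 b2 => Nf (xa u v) (xb u v) (xc u v) b0 b1 b2 ^ 2 * (Zf (xa u v) (xb u v) (xc u v) b0 b1 b2 - 1) ^ 1) (xa u' v') (xb u' v') (xc u' v')) + (3003/512) * (perm6 (fun b0 b1 b2 => Nf (xa u v) (xb u v) (xc u v) b0 b1 b2 ^ 2 * (Zf (xa u v) (xb u v) (xc u v) b0 b1 b2 - 1) ^ 2) (xa u' v') (xb u' v') (xc u' v')) + (-16261/2048) * (perm6 (fun b0 b1 b2 => Nf (xa u v) (xb u v) (xc u v) b0 b1 b2 ^ 2 * (Zf (xa u v) (xb u v) (xc u v) b0 b1 b2 - 1) ^ 3) (xa u' v') (xb u' v') (xc u' v')) + (14099/2048) * (perm6 (fun b0 b1 b2 => Nf (xa u v) (xb u v)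 (xc u v) b0 b1 b2 ^ 2 * (Zf (xa u v) (xb u v) (xc u v) b0 b1 b2 - 1) ^ 4) (xa u' v') (xb u' v') (xc u' v')) + (-6501/2048) * (perm6 (fun b0 b1 b2 => Nf (xa u v) (xb u v) (xc u v) b0 b1 b2 ^ 2 * (Zf (xa u v) (xb u v) (xc u v) b0 b1 b2 - 1) ^ 5) (xa u' v') (xb u' v') (xc u' v')) + (589/1024) * (perm6 (fun b0 b1 b2 => Nf (xa u v) (xb u v) (xc u v) b0 b1 b2 ^ 2 * (Zf (xa u v) (xb u v) (xc u v) b0 b1 b2 - 1) ^ 6) (xa u' v') (xb u' v') (xc u' v')) + ((9/16) * (perm6 (fun b0 b1 b2 => (Zf (xa u v) (xb u v) (xc u v) b0 b1 b2 - 1) ^ 2) (xa u' v') (xb u' v') (xc u' v')) + (-2039/2048) * (perm6 (fun b0 b1 b2 => (Zf (xa u v) (xb u v) (xc u v) b0 b1 b2 - 1) ^ 3) (xa u' v') (xb u' v') (xc u' v')) + (489/4096) * (perm6 (fun b0 b1 b2 => (Zf (xa u v) (xb u v) (xc u v) b0 b1 b2 - 1) ^ 4) (xa u' v') (xb u' v') (xc u' v')) + (4731/4096) * (perm6 (fun b0 b1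 b2 => (Zf (xa u v) (xb u v) (xc u v) b0 b1 b2 - 1) ^ 5) (xa u' v') (xb u' v') (xc u' v')) + (-2121/4096) * (perm6 (fun b0 b1 b2 => (Zf (xa u v) (xb u v) (xc u v) b0 b1 b2 - 1) ^ 6) (xa u' v') (xb u' v') (xc u' v'))) := by
  simp only [perm6, r2_le_W, r2_le_c, r2_le_nu]
  ring

def r2_le_psi (r t r' t' : ℝ) : ℝ := 1 * mNN0 r t r' t' + (-3) * mNN1 r t r' t' + (3003/512) * mNN2 r t r' t' + (-16261/2048) * mNN3 r t r' t' + (14099/2048) * mNN4 r t r' t' + (-6501/2048) * mNN5 r t r' t' + (589/1024) * mNN6 r t r' t' + ((9/16) * mP2 r t r' t' + (-2039/2048) * mP3 r t r' t' + (489/4096) * mP4 r t r' t' + (4731/4096) * mP5 r t r' t' + (-2121/4096) * mP6 r t r' t')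

theorem r2_le_perm (u v u' v' : ℝ) :
    perm6 (r2_le_W (xa u v) (xb u v) (xc u v)) (xa u' v') (xb u' v') (xc u' v') = 6 * r2_le_psi (rU u v) (tU u v) (rU u' v') (tU u' v') := by
  rw [r2_le_split, mom_mNN0, mom_mNN1, mom_mNN2, mom_mNN3, mom_mNN4, mom_mNN5, mom_mNN6, mom_mP2, mom_mP3, mom_mP4, mom_mP5, mom_mP6]
  simp only [r2_le_psi]
  ring

def r2_le_T (r t r' t' : ℝ) : ℝ := (71/10)*r*r'

def r2_le_F (r t r' t' : ℝ) : ℝ := (r ^ 2) + (r' ^ 2) + r2_le_T r t r' t' - r2_le_psi r t r' t'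

def r2_le_M : List (List ℤ) := [[Int.ofNat 40870,Int.ofNat 0,Int.ofNat 0,Int.ofNat 0,Int.negSucc 81919,Int.negSucc 178799,Int.ofNat 0,Int.ofNat 0,Int.ofNat 491520,Int.ofNat 162610,Int.ofNat 0,Int.negSucc 480479,Int.ofNat 0,Int.ofNat 0,Int.ofNat 0,Int.ofNat 0,Int.ofNat 0,Int.ofNat 0],[Int.ofNat 0,Int.negSucc 130384,Int.ofNat 0,Int.ofNat 0,Int.ofNat 0,Int.ofNat 325220,Int.ofNat 130020,Int.ofNat 0,Int.negSucc 240239,Int.negSucc 563959,Int.negSucc 11779,Int.ofNat 911210,Int.ofNat 130020,Int.ofNat 0,Int.negSucc 542019,Int.ofNat 0,Int.ofNat 23560,Int.ofNat 0],[Int.ofNat 0,Int.ofNat 0,Int.ofNat 0,Int.ofNat 0,Int.ofNat 0,Int.ofNat 0,Int.negSucc 23559,Int.ofNat 0,Int.ofNat 0,Int.ofNat 65010,Int.ofNat 0,Int.ofNat 0,Int.negSucc 23559,Int.ofNat 0,Int.ofNat 47120,Int.ofNat 0,Int.ofNat 0,Int.ofNat 0],[Int.ofNat 0,Int.ofNat 0,Int.ofNat 0,Int.ofNat 0,Int.ofNat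 0,Int.ofNat 0,Int.ofNat 0,Int.ofNat 0,Int.ofNat 0,Int.ofNat 0,Int.ofNat 0,Int.ofNat 0,Int.ofNat 0,Int.ofNat 0,Int.ofNat 0,Int.ofNat 0,Int.ofNat 0,Int.ofNat 0],[Int.negSucc 81919,Int.ofNat 0,Int.ofNat 0,Int.ofNat 0,Int.ofNat 80896,Int.ofNat 245760,Int.ofNat 0,Int.ofNat 0,Int.ofNat 327680,Int.ofNat 0,Int.ofNat 0,Int.negSucc 480479,Int.ofNat 0,Int.ofNat 0,Int.ofNat 0,Int.ofNat 0,Int.ofNat 0,Int.ofNat 0],[Int.negSucc 178799,Int.ofNat 325220,Int.ofNat 0,Int.ofNat 0,Int.ofNat 245760,Int.ofNat 59035,Int.negSucc 281979,Int.ofNat 0,Int.negSucc 1676159,Int.negSucc 271629,Int.ofNat 0,Int.ofNat 3422160,Int.ofNat 325050,Int.ofNat 0,Int.negSucc 1691879,Int.ofNat 0,Int.ofNat 0,Int.ofNat 0],[Int.ofNat 0,Int.ofNat 130020,Int.negSucc 23559,Int.ofNat 0,Int.ofNat 0,Int.negSucc 281979,Int.ofNat 142240,Int.ofNat 0,Int.ofNat 0,Int.ofNat 628160,Int.negSucc 47119,Int.negSucc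 1387959,Int.negSucc 105579,Int.ofNat 0,Int.ofNat 1015720,Int.ofNat 0,Int.negSucc 47119,Int.ofNat 0],[Int.ofNat 0,Int.ofNat 0,Int.ofNat 0,Int.ofNat 0,Int.ofNat 0,Int.ofNat 0,Int.ofNat 0,Int.ofNat 0,Int.ofNat 0,Int.ofNat 0,Int.ofNat 0,Int.ofNat 0,Int.ofNat 0,Int.ofNat 0,Int.ofNat 0,Int.ofNat 0,Int.ofNat 0,Int.ofNat 0],[Int.ofNat 491520,Int.negSucc 240239,Int.ofNat 0,Int.ofNat 0,Int.ofNat 327680,Int.negSucc 1676159,Int.ofNat 0,Int.ofNat 0,Int.negSucc 1489659,Int.ofNat 1951320,Int.ofNat 0,Int.ofNat 2461200,Int.ofNat 0,Int.ofNat 0,Int.negSucc 1691879,Int.ofNat 0,Int.ofNat 0,Int.ofNat 0],[Int.ofNat 162610,Int.negSucc 563959,Int.ofNat 65010,Int.ofNat 0,Int.ofNat 0,Int.negSucc 271629,Int.ofNat 628160,Int.ofNat 0,Int.ofNat 1951320,Int.negSucc 2333759,Int.negSucc 141359,Int.negSucc 4816199,Int.ofNat 1260510,Int.ofNat 0,Int.ofNat 2988840,Int.ofNat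 0,Int.negSucc 424079,Int.ofNat 0],[Int.ofNat 0,Int.negSucc 11779,Int.ofNat 0,Int.ofNat 0,Int.ofNat 0,Int.ofNat 0,Int.negSucc 47119,Int.ofNat 0,Int.ofNat 0,Int.negSucc 141359,Int.negSucc 11779,Int.ofNat 23560,Int.negSucc 141359,Int.ofNat 0,Int.negSucc 259159,Int.ofNat 0,Int.ofNat 23560,Int.ofNat 0],[Int.negSucc 480479,Int.ofNat 911210,Int.ofNat 0,Int.ofNat 0,Int.negSucc 480479,Int.ofNat 3422160,Int.negSucc 1387959,Int.ofNat 0,Int.ofNat 2461200,Int.negSucc 4816199,Int.ofNat 23560,Int.negSucc 4397659,Int.ofNat 2340360,Int.ofNat 0,Int.ofNat 1773160,Int.ofNat 0,Int.negSucc 518319,Int.ofNat 0],[Int.ofNat 0,Int.ofNat 130020,Int.negSucc 23559,Int.ofNat 0,Int.ofNat 0,Int.ofNat 325050,Int.negSucc 105579,Int.ofNat 0,Int.ofNat 0,Int.ofNat 1260510,Int.negSucc 141359,Int.ofNat 2340360,Int.negSucc 994309,Int.ofNat 0,Int.ofNat 455560,Int.ofNat 0,Int.negSucc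 424079,Int.ofNat 0],[Int.ofNat 0,Int.ofNat 0,Int.ofNat 0,Int.ofNat 0,Int.ofNat 0,Int.ofNat 0,Int.ofNat 0,Int.ofNat 0,Int.ofNat 0,Int.ofNat 0,Int.ofNat 0,Int.ofNat 0,Int.ofNat 0,Int.ofNat 0,Int.ofNat 0,Int.ofNat 0,Int.ofNat 0,Int.ofNat 0],[Int.ofNat 0,Int.negSucc 542019,Int.ofNat 47120,Int.ofNat 0,Int.ofNat 0,Int.negSucc 1691879,Int.ofNat 1015720,Int.ofNat 0,Int.negSucc 1691879,Int.ofNat 2988840,Int.negSucc 259159,Int.ofNat 1773160,Int.ofNat 455560,Int.ofNat 0,Int.ofNat 1486280,Int.ofNat 0,Int.negSucc 1083759,Int.ofNat 0],[Int.ofNat 0,Int.ofNat 0,Int.ofNat 0,Int.ofNat 0,Int.ofNat 0,Int.ofNat 0,Int.ofNat 0,Int.ofNat 0,Int.ofNat 0,Int.ofNat 0,Int.ofNat 0,Int.ofNat 0,Int.ofNat 0,Int.ofNat 0,Int.ofNat 0,Int.ofNat 0,Int.ofNat 0,Int.ofNat 0],[Int.ofNat 0,Int.ofNat 23560,Int.ofNat 0,Int.ofNat 0,Int.ofNat 0,Int.ofNat 0,Int.negSucc 47119,Int.ofNat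 0,Int.ofNat 0,Int.negSucc 424079,Int.ofNat 23560,Int.negSucc 518319,Int.negSucc 424079,Int.ofNat 0,Int.negSucc 1083759,Int.ofNat 0,Int.negSucc 518319,Int.ofNat 0],[Int.ofNat 0,Int.ofNat 0,Int.ofNat 0,Int.ofNat 0,Int.ofNat 0,Int.ofNat 0,Int.ofNat 0,Int.ofNat 0,Int.ofNat 0,Int.ofNat 0,Int.ofNat 0,Int.ofNat 0,Int.ofNat 0,Int.ofNat 0,Int.ofNat 0,Int.ofNat 0,Int.ofNat 0,Int.ofNat 0]]

theorem r2_le_check : checkBil r2_le_M TB2 91 = true := by decide +kernel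

theorem r2_le_bil (r t r' t' : ℝ) :
    bilR r2_le_M (invB2 r t) (invB2 r' t') = 40960 * r2_le_F r t r' t' := by
  simp only [bilR, r2_le_M, invB2, List.map_cons, List.map_nil, rdot, rrdot, Int.cast_ofNat_Int,
    Int.cast_negSucc]
  push_cast
  simp only [r2_le_F, r2_le_psi, r2_le_T, rec6poly, mP0, mP1, mP2, mP3, mP4, mP5, mP6, mP7, mP8,
    mP9, mP10, mP11, mP12, mN0, mN1, mN2, mN3, mN4, mN5, mN6, mN7, mN8, mN9, mN10, mNN9, mNN10, mNN0, mNN1, mNN2, mNN3, mNN4, mNN5, mNN6, mNN7, mNN8]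
  ring

/-- pair bound -/
theorem pair_r2_le {p r : Fin 3 → ℝ} (hp : p ∈ Sx 3) (hr : r ∈ Sx 3) :
    B rr2 p r ≤ rr p ^ 2 + rr r ^ 2 + r2_le_T (rr p) (tt p) (rr r) (tt r) := by
  obtain ⟨u, v, h0, h1, h2, h3, h4⟩ := exists_skew hp
  obtain ⟨u', v', h0', h1', h2', h3', h4'⟩ := exists_skew hr
  have hB := B_le_perm (r2_le_W (p 0) (p 1) (p 2)) hr (fun y hy => rr2_le r2_le_c r2_le_nu r2_le_Vn (fun P a b => by have := r2_le_Vm P a b; linarith) hp hy)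
  rw [h0, h1, h2, h0', h1', h2', r2_le_perm, ← h3, ← h4, ← h3', ← h4'] at hB
  have hΦ := B2_chamber r2_le_M r2_le_check hp hr
  rw [r2_le_bil] at hΦ
  simp only [r2_le_F] at hΦ
  linarith

def r2_ge_c (P : ℝ) : ℝ := 1 + (-3)*P + (5355/1024)*P^2 + (-12003/2048)*P^3 + (16085/4096)*P^4 + (-2861/2048)*P^5 + (103/512)*P^6
theorem r2_ge_V (P : ℝ) (h0 : -1 ≤ P) (h1 : P ≤ 2) : 0 ≤ 1 - r2_ge_c P*(1+P)^3 := by
  have key : ∀ a b : ℝ, 0 ≤ a → 0 ≤ b → 0 ≤ (1/1162261467)*a^0*b^19 + (25/1162261467)*a^1*b^18 + (34/129140163)*a^2*b^17 + (2590559/1586874322944)*a^3*b^16 + (4629613/793437161472)*a^4*b^15 + (6818057/528958107648)*a^5*b^14 + (14054647/793437161472)*a^6*b^13 + (22063127/1586874322944)*a^7*b^12 + (1123307/264479053824)*a^8*b^11 + (1809533/4760622968832)*a^9*b^10 + (16222129/2380311484416)*a^10*b^9 + (7512811/528958107648)*a^11*b^8 + (10746199/793437161472)*a^12*b^7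 + (11509697/1586874322944)*a^13*b^6 + (562999/264479053824)*a^14*b^5 + (414797/1586874322944)*a^15*b^4 + (2107/793437161472)*a^16*b^3 + (4471/528958107648)*a^17*b^2 + (6971/2380311484416)*a^18*b^1 + (13/1190155742208)*a^19*b^0 := by
    intro a b ha hb
    positivity
  have e : 1 - r2_ge_c P*(1+P)^3 = P^2 * ((1/1162261467)*(P+1)^0*(2-P)^19 + (25/1162261467)*(P+1)^1*(2-P)^18 + (34/129140163)*(P+1)^2*(2-P)^17 + (2590559/1586874322944)*(P+1)^3*(2-P)^16 + (4629613/793437161472)*(P+1)^4*(2-P)^15 + (6818057/528958107648)*(P+1)^5*(2-P)^14 + (14054647/793437161472)*(P+1)^6*(2-P)^13 + (22063127/1586874322944)*(P+1)^7*(2-P)^12 + (1123307/264479053824)*(P+1)^8*(2-P)^11 + (1809533/4760622968832)*(P+1)^9*(2-P)^10 + (16222129/2380311484416)*(P+1)^10*(2-P)^9 + (7512811/528958107648)*(P+1)^11*(2-P)^8 + (10746199/793437161472)*(P+1)^12*(2-P)^7 + (11509697/1586874322944)*(P+1)^13*(2-P)^6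 + (562999/264479053824)*(P+1)^14*(2-P)^5 + (414797/1586874322944)*(P+1)^15*(2-P)^4 + (2107/793437161472)*(P+1)^16*(2-P)^3 + (4471/528958107648)*(P+1)^17*(2-P)^2 + (6971/2380311484416)*(P+1)^18*(2-P)^1 + (13/1190155742208)*(P+1)^19*(2-P)^0) := by
    unfold r2_ge_c
    ring
  rw [e]
  exact mul_nonneg (sq_nonneg P) (key _ _ (by linarith) (by linarith))

def r2_ge_W (a0 a1 a2 b0 b1 b2 : ℝ) : ℝ := Nf a0 a1 a2 b0 b1 b2 ^ 2 * r2_ge_c (Zf a0 a1 a2 b0 b1 b2 - 1)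

theorem r2_ge_split (u v u' v' : ℝ) :
    perm6 (r2_ge_W (xa u v) (xb u v) (xc u v)) (xa u' v') (xb u' v') (xc u' v') =
      1 * (perm6 (fun b0 b1 b2 => Nf (xa u v) (xb u v) (xc u v) b0 b1 b2 ^ 2 * (Zf (xa u v) (xb u v) (xc u v) b0 b1 b2 - 1) ^ 0) (xa u' v') (xb u' v') (xc u' v')) + (-3) * (perm6 (fun b0 b1 b2 => Nf (xa u v) (xb u v) (xc u v) b0 b1 b2 ^ 2 * (Zf (xa u v) (xb u v) (xc u v) b0 b1 b2 - 1) ^ 1) (xa u' v') (xb u' v') (xc u' v')) + (5355/1024) * (perm6 (fun b0 b1 b2 => Nf (xa u v) (xb u v) (xc u v) b0 b1 b2 ^ 2 * (Zf (xa u v) (xb u v) (xc u v) b0 b1 b2 - 1) ^ 2) (xa u' v') (xb u' v') (xc u' v')) + (-12003/2048) * (perm6 (fun b0 b1 b2 => Nf (xa u v) (xb u v) (xc u v) b0 b1 b2 ^ 2 * (Zf (xa u v) (xb u v) (xc u v) b0 b1 b2 - 1) ^ 3) (xa u' v') (xb u' v') (xc u' v')) + (16085/4096) * (perm6 (fun b0 b1 b2 => Nf (xa u v) (xb u v)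 (xc u v) b0 b1 b2 ^ 2 * (Zf (xa u v) (xb u v) (xc u v) b0 b1 b2 - 1) ^ 4) (xa u' v') (xb u' v') (xc u' v')) + (-2861/2048) * (perm6 (fun b0 b1 b2 => Nf (xa u v) (xb u v) (xc u v) b0 b1 b2 ^ 2 * (Zf (xa u v) (xb u v) (xc u v) b0 b1 b2 - 1) ^ 5) (xa u' v') (xb u' v') (xc u' v')) + (103/512) * (perm6 (fun b0 b1 b2 => Nf (xa u v) (xb u v) (xc u v) b0 b1 b2 ^ 2 * (Zf (xa u v) (xb u v) (xc u v) b0 b1 b2 - 1) ^ 6) (xa u' v') (xb u' v') (xc u' v')) := by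
  simp only [perm6, r2_ge_W, r2_ge_c]
  ring

def r2_ge_psi (r t r' t' : ℝ) : ℝ := 1 * mNN0 r t r' t' + (-3) * mNN1 r t r' t' + (5355/1024) * mNN2 r t r' t' + (-12003/2048) * mNN3 r t r' t' + (16085/4096) * mNN4 r t r' t' + (-2861/2048) * mNN5 r t r' t' + (103/512) * mNN6 r t r' t'

theorem r2_ge_perm (u v u' v' : ℝ) :
    perm6 (r2_ge_W (xa u v) (xb u v) (xc u v)) (xa u' v') (xb u' v') (xc u' v') = 6 * r2_ge_psi (rU u v) (tU u v) (rU u' v') (tU u' v') := by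
  rw [r2_ge_split, mom_mNN0, mom_mNN1, mom_mNN2, mom_mNN3, mom_mNN4, mom_mNN5, mom_mNN6]
  simp only [r2_ge_psi]
  ring

def r2_ge_T (r t r' t' : ℝ) : ℝ := (9/5)*r*r'

def r2_ge_F (r t r' t' : ℝ) : ℝ := r2_ge_psi r t r' t' - (r ^ 2) - (r' ^ 2) + r2_ge_T r t r' t'

def r2_ge_M : List (List ℤ) := [[Int.negSucc 20479,Int.ofNat 0,Int.ofNat 0,Int.ofNat 0,Int.ofNat 81920,Int.ofNat 152760,Int.ofNat 0,Int.ofNat 0,Int.negSucc 491519,Int.negSucc 120029,Int.ofNat 0,Int.ofNat 428400,Int.ofNat 0,Int.ofNat 0,Int.ofNat 0,Int.ofNat 0,Int.ofNat 0,Int.ofNat 0],[Int.ofNat 0,Int.ofNat 80425,Int.ofNat 0,Int.ofNat 0,Int.ofNat 0,Int.negSucc 240059,Int.negSucc 57219,Int.ofNat 0,Int.ofNat 214200,Int.ofNat 321700,Int.ofNat 4120,Int.negSucc 640969,Int.negSucc 57219,Int.ofNat 0,Int.ofNat 275290,Int.ofNat 0,Int.negSucc 8239,Int.ofNat 0],[Int.ofNat 0,Int.ofNat 0,Int.ofNat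 0,Int.ofNat 0,Int.ofNat 0,Int.ofNat 0,Int.ofNat 8240,Int.ofNat 0,Int.ofNat 0,Int.negSucc 28609,Int.ofNat 0,Int.ofNat 0,Int.ofNat 8240,Int.ofNat 0,Int.negSucc 16479,Int.ofNat 0,Int.ofNat 0,Int.ofNat 0],[Int.ofNat 0,Int.ofNat 0,Int.ofNat 0,Int.ofNat 0,Int.ofNat 0,Int.ofNat 0,Int.ofNat 0,Int.ofNat 0,Int.ofNat 0,Int.ofNat 0,Int.ofNat 0,Int.ofNat 0,Int.ofNat 0,Int.ofNat 0,Int.ofNat 0,Int.ofNat 0,Int.ofNat 0,Int.ofNat 0],[Int.ofNat 81920,Int.ofNat 0,Int.ofNat 0,Int.ofNat 0,Int.ofNat 237568,Int.negSucc 245759,Int.ofNat 0,Int.ofNat 0,Int.negSucc 327679,Int.ofNat 0,Int.ofNat 0,Int.ofNat 428400,Int.ofNat 0,Int.ofNat 0,Int.ofNat 0,Int.ofNat 0,Int.ofNat 0,Int.ofNat 0],[Int.ofNat 152760,Int.negSucc 240059,Int.ofNat 0,Int.ofNat 0,Int.negSucc 245759,Int.ofNat 16590,Int.ofNat 160850,Int.ofNat 0,Int.ofNat 1467840,Int.negSucc 35959,Int.ofNat 0,Int.negSucc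 2452319,Int.negSucc 143049,Int.ofNat 0,Int.ofNat 965100,Int.ofNat 0,Int.ofNat 0,Int.ofNat 0],[Int.ofNat 0,Int.negSucc 57219,Int.ofNat 8240,Int.ofNat 0,Int.ofNat 0,Int.ofNat 160850,Int.negSucc 73239,Int.ofNat 0,Int.ofNat 0,Int.negSucc 239689,Int.ofNat 16480,Int.ofNat 757840,Int.ofNat 25180,Int.ofNat 0,Int.negSucc 425719,Int.ofNat 0,Int.ofNat 16480,Int.ofNat 0],[Int.ofNat 0,Int.ofNat 0,Int.ofNat 0,Int.ofNat 0,Int.ofNat 0,Int.ofNat 0,Int.ofNat 0,Int.ofNat 0,Int.ofNat 0,Int.ofNat 0,Int.ofNat 0,Int.ofNat 0,Int.ofNat 0,Int.ofNat 0,Int.ofNat 0,Int.ofNat 0,Int.ofNat 0,Int.ofNat 0],[Int.negSucc 491519,Int.ofNat 214200,Int.ofNat 0,Int.ofNat 0,Int.negSucc 327679,Int.ofNat 1467840,Int.ofNat 0,Int.ofNat 0,Int.ofNat 1199920,Int.negSucc 1440359,Int.ofNat 0,Int.negSucc 1595519,Int.ofNat 0,Int.ofNat 0,Int.ofNat 965100,Int.ofNat 0,Int.ofNat 0,Int.ofNat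 0],[Int.negSucc 120029,Int.ofNat 321700,Int.negSucc 28609,Int.ofNat 0,Int.ofNat 0,Int.negSucc 35959,Int.negSucc 239689,Int.ofNat 0,Int.negSucc 1440359,Int.ofNat 1566660,Int.ofNat 49440,Int.ofNat 2420040,Int.negSucc 599429,Int.ofNat 0,Int.negSucc 1094819,Int.ofNat 0,Int.ofNat 148320,Int.ofNat 0],[Int.ofNat 0,Int.ofNat 4120,Int.ofNat 0,Int.ofNat 0,Int.ofNat 0,Int.ofNat 0,Int.ofNat 16480,Int.ofNat 0,Int.ofNat 0,Int.ofNat 49440,Int.ofNat 4120,Int.negSucc 8239,Int.ofNat 49440,Int.ofNat 0,Int.ofNat 90640,Int.ofNat 0,Int.negSucc 8239,Int.ofNat 0],[Int.ofNat 428400,Int.negSucc 640969,Int.ofNat 0,Int.ofNat 0,Int.ofNat 428400,Int.negSucc 2452319,Int.ofNat 757840,Int.ofNat 0,Int.negSucc 1595519,Int.ofNat 2420040,Int.negSucc 8239,Int.ofNat 2056340,Int.negSucc 1029959,Int.ofNat 0,Int.negSucc 265779,Int.ofNat 0,Int.ofNat 181280,Int.ofNat 0],[Int.ofNat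 0,Int.negSucc 57219,Int.ofNat 8240,Int.ofNat 0,Int.ofNat 0,Int.negSucc 143049,Int.ofNat 25180,Int.ofNat 0,Int.ofNat 0,Int.negSucc 599429,Int.ofNat 49440,Int.negSucc 1029959,Int.ofNat 318390,Int.ofNat 0,Int.negSucc 370759,Int.ofNat 0,Int.ofNat 148320,Int.ofNat 0],[Int.ofNat 0,Int.ofNat 0,Int.ofNat 0,Int.ofNat 0,Int.ofNat 0,Int.ofNat 0,Int.ofNat 0,Int.ofNat 0,Int.ofNat 0,Int.ofNat 0,Int.ofNat 0,Int.ofNat 0,Int.ofNat 0,Int.ofNat 0,Int.ofNat 0,Int.ofNat 0,Int.ofNat 0,Int.ofNat 0],[Int.ofNat 0,Int.ofNat 275290,Int.negSucc 16479,Int.ofNat 0,Int.ofNat 0,Int.ofNat 965100,Int.negSucc 425719,Int.ofNat 0,Int.ofNat 965100,Int.negSucc 1094819,Int.ofNat 90640,Int.negSucc 265779,Int.negSucc 370759,Int.ofNat 0,Int.negSucc 710259,Int.ofNat 0,Int.ofNat 379040,Int.ofNat 0],[Int.ofNat 0,Int.ofNat 0,Int.ofNat 0,Int.ofNat 0,Int.ofNat 0,Int.ofNat 0,Int.ofNat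 0,Int.ofNat 0,Int.ofNat 0,Int.ofNat 0,Int.ofNat 0,Int.ofNat 0,Int.ofNat 0,Int.ofNat 0,Int.ofNat 0,Int.ofNat 0,Int.ofNat 0,Int.ofNat 0],[Int.ofNat 0,Int.negSucc 8239,Int.ofNat 0,Int.ofNat 0,Int.ofNat 0,Int.ofNat 0,Int.ofNat 16480,Int.ofNat 0,Int.ofNat 0,Int.ofNat 148320,Int.negSucc 8239,Int.ofNat 181280,Int.ofNat 148320,Int.ofNat 0,Int.ofNat 379040,Int.ofNat 0,Int.ofNat 181280,Int.ofNat 0],[Int.ofNat 0,Int.ofNat 0,Int.ofNat 0,Int.ofNat 0,Int.ofNat 0,Int.ofNat 0,Int.ofNat 0,Int.ofNat 0,Int.ofNat 0,Int.ofNat 0,Int.ofNat 0,Int.ofNat 0,Int.ofNat 0,Int.ofNat 0,Int.ofNat 0,Int.ofNat 0,Int.ofNat 0,Int.ofNat 0]]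

theorem r2_ge_check : checkBil r2_ge_M TB2 91 = true := by decide +kernel

theorem r2_ge_bil (r t r' t' : ℝ) :
    bilR r2_ge_M (invB2 r t) (invB2 r' t') = 40960 * r2_ge_F r t r' t' := by
  simp only [bilR, r2_ge_M, invB2, List.map_cons, List.map_nil, rdot, rrdot, Int.cast_ofNat_Int,
    Int.cast_negSucc]
  push_cast
  simp only [r2_ge_F, r2_ge_psi, r2_ge_T, rec6poly, mP0, mP1, mP2, mP3, mP4, mP5, mP6, mP7, mP8,
    mP9, mP10, mP11, mP12, mN0, mN1, mN2, mN3, mN4, mN5, mN6, mN7, mN8, mN9, mN10, mNN9, mNN10, mNN0, mNN1, mNN2, mNN3, mNN4, mNN5, mNN6, mNN7, mNN8]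
  ring

/-- pair bound -/
theorem pair_r2_ge {p r : Fin 3 → ℝ} (hp : p ∈ Sx 3) (hr : r ∈ Sx 3) :
    rr p ^ 2 + rr r ^ 2 - r2_ge_T (rr p) (tt p) (rr r) (tt r) ≤ B rr2 p r := by
  obtain ⟨u, v, h0, h1, h2, h3, h4⟩ := exists_skew hp
  obtain ⟨u', v', h0', h1', h2', h3', h4'⟩ := exists_skew hr
  have hB := B_ge_perm (r2_ge_W (p 0) (p 1) (p 2)) hr (fun y hy => rr2_ge r2_ge_c r2_ge_V hp hy)
  rw [h0, h1, h2, h0', h1', h2', r2_ge_perm, ← h3, ← h4, ← h3', ← h4'] at hB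
  have hΦ := B2_chamber r2_ge_M r2_ge_check hp hr
  rw [r2_ge_bil] at hΦ
  simp only [r2_ge_F] at hΦ
  linarith

end Crest.Agent.PottsTree.CertQ3

end
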