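import Crest.Agent.Lib.PottsTree.CertQ3PairCore

/-! helper48 P2 -/

set_option linter.unusedSimpArgs false
set_option linter.unusedVariables false
set_option maxRecDepth 100000

noncomputable section

namespace Crest.Agent.PottsTree.CertQ3

open Crest.Agent.PottsTree

def P2_l2 (P : ℝ) : ℝ := 1 + (-2)*P + (96299/32768)*P^2 + (-238529/65536)*P^3 + (115555/32768)*P^4 + (-45337/16384)*P^5 + (1585/1024)*P^6 + (-6855/16384)*P^7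
theorem P2_V2 (P : ℝ) (h0 : -1 ≤ P) (h1 : P ≤ 2) : 0 ≤ 1 - (1+P)^2*P2_l2 P := by
  have key : ∀ a b : ℝ, 0 ≤ a → 0 ≤ b → 0 ≤ (1/1162261467)*a^0*b^19 + (25/1162261467)*a^1*b^18 + (353057/2821109907456)*a^2*b^17 + (3858163/12694994583552)*a^3*b^16 + (3762949/12694994583552)*a^4*b^15 + (14093/1410554953728)*a^5*b^14 + (295681/12694994583552)*a^6*b^13 + (4968361/12694994583552)*a^7*b^12 + (91405/1410554953728)*a^8*b^11 + (3012163/38084983750656)*a^9*b^10 + (73487909/19042491875328)*a^10*b^9 + (14576443/1410554953728)*a^11*b^8 + (162039415/12694994583552)*a^12*b^7 + (108262351/12694994583552)*a^13*b^6 + (3922055/1410554953728)*a^14*b^5 + (2054275/12694994583552)*a^15*b^4 + (10831/12694994583552)*a^16*b^3 + (221347/1410554953728)*a^17*b^2 + (6479089/76169967501312)*a^18*b^1 + (261397/19042491875328)*a^19*b^0 := by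
    intro a b ha hb
    positivity
  have e : 1 - (1+P)^2*P2_l2 P = P^2 * ((1/1162261467)*(P+1)^0*(2-P)^19 + (25/1162261467)*(P+1)^1*(2-P)^18 + (353057/2821109907456)*(P+1)^2*(2-P)^17 + (3858163/12694994583552)*(P+1)^3*(2-P)^16 + (3762949/12694994583552)*(P+1)^4*(2-P)^15 + (14093/1410554953728)*(P+1)^5*(2-P)^14 + (295681/12694994583552)*(P+1)^6*(2-P)^13 + (4968361/12694994583552)*(P+1)^7*(2-P)^12 + (91405/1410554953728)*(P+1)^8*(2-P)^11 + (3012163/38084983750656)*(P+1)^9*(2-P)^10 + (73487909/19042491875328)*(P+1)^10*(2-P)^9 + (14576443/1410554953728)*(P+1)^11*(2-P)^8 + (162039415/12694994583552)*(P+1)^12*(2-P)^7 + (108262351/12694994583552)*(P+1)^13*(2-P)^6 + (3922055/1410554953728)*(P+1)^14*(2-P)^5 + (2054275/12694994583552)*(P+1)^15*(2-P)^4 + (10831/12694994583552)*(P+1)^16*(2-P)^3 + (221347/1410554953728)*(P+1)^17*(2-P)^2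 + (6479089/76169967501312)*(P+1)^18*(2-P)^1 + (261397/19042491875328)*(P+1)^19*(2-P)^0) := by
    unfold P2_l2
    ring
  rw [e]
  exact mul_nonneg (sq_nonneg P) (key _ _ (by linarith) (by linarith))

def P2_W (a0 a1 a2 b0 b1 b2 : ℝ) : ℝ := Zf a0 a1 a2 b0 b1 b2 - (3 / 2 * Zf a0 a1 a2 b0 b1 b2 * (Zf a0 a1 a2 b0 b1 b2 ^ 2 - Nf a0 a1 a2 b0 b1 b2) - Gf a0 a1 a2 b0 b1 b2 / 2) * P2_l2 (Zf a0 a1 a2 b0 b1 b2 - 1)

theorem P2_split (u v u' v' : ℝ) :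
    perm6 (P2_W (xa u v) (xb u v) (xc u v)) (xa u' v') (xb u' v') (xc u' v') =
      perm6 (fun b0 b1 b2 => (Zf (xa u v) (xb u v) (xc u v) b0 b1 b2 - 1) ^ 0) (xa u' v') (xb u' v') (xc u' v') + perm6 (fun b0 b1 b2 => (Zf (xa u v) (xb u v) (xc u v) b0 b1 b2 - 1) ^ 1) (xa u' v') (xb u' v') (xc u' v') - (1 * (3 / 2 * (perm6 (fun b0 b1 b2 => (Zf (xa u v) (xb u v) (xc u v) b0 b1 b2 - 1) ^ 0) (xa u' v') (xb u' v') (xc u' v') + 3 * (perm6 (fun b0 b1 b2 => (Zf (xa u v) (xb u v) (xc u v) b0 b1 b2 - 1) ^ 1) (xa u' v') (xb u' v') (xc u' v')) + 3 * (perm6 (fun b0 b1 b2 => (Zf (xa u v) (xb u v) (xc u v) b0 b1 b2 - 1) ^ 2) (xa u' v') (xb u' v') (xc u' v')) + perm6 (fun b0 b1 b2 => (Zf (xa u v) (xb u v) (xc u v) b0 b1 b2 - 1) ^ 3) (xa u' v') (xb u' v') (xc u' v') - perm6 (fun b0 b1 b2 => Nf (xa u v) (xb u v) (xc u v) b0 b1 b2 * (Zf (xa u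 v) (xb u v) (xc u v) b0 b1 b2 - 1) ^ 0) (xa u' v') (xb u' v') (xc u' v') - perm6 (fun b0 b1 b2 => Nf (xa u v) (xb u v) (xc u v) b0 b1 b2 * (Zf (xa u v) (xb u v) (xc u v) b0 b1 b2 - 1) ^ 1) (xa u' v') (xb u' v') (xc u' v')) - 1 / 2 * (729 * (xa u v * xb u v * xc u v * (xa u' v' * xb u' v' * xc u' v'))) * (perm6 (fun b0 b1 b2 => (Zf (xa u v) (xb u v) (xc u v) b0 b1 b2 - 1) ^ 0) (xa u' v') (xb u' v') (xc u' v'))) + (-2) * (3 / 2 * (perm6 (fun b0 b1 b2 => (Zf (xa u v) (xb u v) (xc u v) b0 b1 b2 - 1) ^ 1) (xa u' v') (xb u' v') (xc u' v') + 3 * (perm6 (fun b0 b1 b2 => (Zf (xa u v) (xb u v) (xc u v) b0 b1 b2 - 1) ^ 2) (xa u' v') (xb u' v') (xc u' v')) + 3 * (perm6 (fun b0 b1 b2 => (Zf (xa u v) (xb u v) (xc u v) b0 b1 b2 - 1) ^ 3) (xa u' v') (xb u' v') (xc u' v')) + perm6 (fun b0 b1 b2 => (Zf (xa u v) (xb u v) (xc u v) b0 b1 b2 -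 1) ^ 4) (xa u' v') (xb u' v') (xc u' v') - perm6 (fun b0 b1 b2 => Nf (xa u v) (xb u v) (xc u v) b0 b1 b2 * (Zf (xa u v) (xb u v) (xc u v) b0 b1 b2 - 1) ^ 1) (xa u' v') (xb u' v') (xc u' v') - perm6 (fun b0 b1 b2 => Nf (xa u v) (xb u v) (xc u v) b0 b1 b2 * (Zf (xa u v) (xb u v) (xc u v) b0 b1 b2 - 1) ^ 2) (xa u' v') (xb u' v') (xc u' v')) - 1 / 2 * (729 * (xa u v * xb u v * xc u v * (xa u' v' * xb u' v' * xc u' v'))) * (perm6 (fun b0 b1 b2 => (Zf (xa u v) (xb u v) (xc u v) b0 b1 b2 - 1) ^ 1) (xa u' v') (xb u' v') (xc u' v'))) + (96299/32768) * (3 / 2 * (perm6 (fun b0 b1 b2 => (Zf (xa u v) (xb u v) (xc u v) b0 b1 b2 - 1) ^ 2) (xa u' v') (xb u' v') (xc u' v') + 3 * (perm6 (fun b0 b1 b2 => (Zf (xa u v) (xb u v) (xc u v) b0 b1 b2 - 1) ^ 3) (xa u' v') (xb u' v') (xc u' v')) + 3 * (perm6 (fun b0 b1 b2 => (Zf (xa u v) (xb u v) (xc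 u v) b0 b1 b2 - 1) ^ 4) (xa u' v') (xb u' v') (xc u' v')) + perm6 (fun b0 b1 b2 => (Zf (xa u v) (xb u v) (xc u v) b0 b1 b2 - 1) ^ 5) (xa u' v') (xb u' v') (xc u' v') - perm6 (fun b0 b1 b2 => Nf (xa u v) (xb u v) (xc u v) b0 b1 b2 * (Zf (xa u v) (xb u v) (xc u v) b0 b1 b2 - 1) ^ 2) (xa u' v') (xb u' v') (xc u' v') - perm6 (fun b0 b1 b2 => Nf (xa u v) (xb u v) (xc u v) b0 b1 b2 * (Zf (xa u v) (xb u v) (xc u v) b0 b1 b2 - 1) ^ 3) (xa u' v') (xb u' v') (xc u' v')) - 1 / 2 * (729 * (xa u v * xb u v * xc u v * (xa u' v' * xb u' v' * xc u' v'))) * (perm6 (fun b0 b1 b2 => (Zf (xa u v) (xb u v) (xc u v) b0 b1 b2 - 1) ^ 2) (xa u' v') (xb u' v') (xc u' v'))) + (-238529/65536) * (3 / 2 * (perm6 (fun b0 b1 b2 => (Zf (xa u v) (xb u v) (xc u v) b0 b1 b2 - 1) ^ 3) (xa u' v') (xb u' v') (xc u' v') + 3 * (perm6 (fun b0 b1 b2 => (Zf (xa u v)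 (xb u v) (xc u v) b0 b1 b2 - 1) ^ 4) (xa u' v') (xb u' v') (xc u' v')) + 3 * (perm6 (fun b0 b1 b2 => (Zf (xa u v) (xb u v) (xc u v) b0 b1 b2 - 1) ^ 5) (xa u' v') (xb u' v') (xc u' v')) + perm6 (fun b0 b1 b2 => (Zf (xa u v) (xb u v) (xc u v) b0 b1 b2 - 1) ^ 6) (xa u' v') (xb u' v') (xc u' v') - perm6 (fun b0 b1 b2 => Nf (xa u v) (xb u v) (xc u v) b0 b1 b2 * (Zf (xa u v) (xb u v) (xc u v) b0 b1 b2 - 1) ^ 3) (xa u' v') (xb u' v') (xc u' v') - perm6 (fun b0 b1 b2 => Nf (xa u v) (xb u v) (xc u v) b0 b1 b2 * (Zf (xa u v) (xb u v) (xc u v) b0 b1 b2 - 1) ^ 4) (xa u' v') (xb u' v') (xc u' v')) - 1 / 2 * (729 * (xa u v * xb u v * xc u v * (xa u' v' * xb u' v' * xc u' v'))) * (perm6 (fun b0 b1 b2 => (Zf (xa u v) (xb u v) (xc u v) b0 b1 b2 - 1) ^ 3) (xa u' v') (xb u' v') (xc u' v'))) + (115555/32768) * (3 / 2 * (perm6 (fun b0 b1 b2 =>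 (Zf (xa u v) (xb u v) (xc u v) b0 b1 b2 - 1) ^ 4) (xa u' v') (xb u' v') (xc u' v') + 3 * (perm6 (fun b0 b1 b2 => (Zf (xa u v) (xb u v) (xc u v) b0 b1 b2 - 1) ^ 5) (xa u' v') (xb u' v') (xc u' v')) + 3 * (perm6 (fun b0 b1 b2 => (Zf (xa u v) (xb u v) (xc u v) b0 b1 b2 - 1) ^ 6) (xa u' v') (xb u' v') (xc u' v')) + perm6 (fun b0 b1 b2 => (Zf (xa u v) (xb u v) (xc u v) b0 b1 b2 - 1) ^ 7) (xa u' v') (xb u' v') (xc u' v') - perm6 (fun b0 b1 b2 => Nf (xa u v) (xb u v) (xc u v) b0 b1 b2 * (Zf (xa u v) (xb u v) (xc u v) b0 b1 b2 - 1) ^ 4) (xa u' v') (xb u' v') (xc u' v') - perm6 (fun b0 b1 b2 => Nf (xa u v) (xb u v) (xc u v) b0 b1 b2 * (Zf (xa u v) (xb u v) (xc u v) b0 b1 b2 - 1) ^ 5) (xa u' v') (xb u' v') (xc u' v')) - 1 / 2 * (729 * (xa u v * xb u v * xc u v * (xa u' v' * xb u' v' * xc u' v'))) * (perm6 (fun b0 b1 b2 => (Zf (xa u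 v) (xb u v) (xc u v) b0 b1 b2 - 1) ^ 4) (xa u' v') (xb u' v') (xc u' v'))) + (-45337/16384) * (3 / 2 * (perm6 (fun b0 b1 b2 => (Zf (xa u v) (xb u v) (xc u v) b0 b1 b2 - 1) ^ 5) (xa u' v') (xb u' v') (xc u' v') + 3 * (perm6 (fun b0 b1 b2 => (Zf (xa u v) (xb u v) (xc u v) b0 b1 b2 - 1) ^ 6) (xa u' v') (xb u' v') (xc u' v')) + 3 * (perm6 (fun b0 b1 b2 => (Zf (xa u v) (xb u v) (xc u v) b0 b1 b2 - 1) ^ 7) (xa u' v') (xb u' v') (xc u' v')) + perm6 (fun b0 b1 b2 => (Zf (xa u v) (xb u v) (xc u v) b0 b1 b2 - 1) ^ 8) (xa u' v') (xb u' v') (xc u' v') - perm6 (fun b0 b1 b2 => Nf (xa u v) (xb u v) (xc u v) b0 b1 b2 * (Zf (xa u v) (xb u v) (xc u v) b0 b1 b2 - 1) ^ 5) (xa u' v') (xb u' v') (xc u' v') - perm6 (fun b0 b1 b2 => Nf (xa u v) (xb u v) (xc u v) b0 b1 b2 * (Zf (xa u v) (xb u v) (xc u v) b0 b1 b2 - 1) ^ 6) (xa u' v') (xb u' v')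 (xc u' v')) - 1 / 2 * (729 * (xa u v * xb u v * xc u v * (xa u' v' * xb u' v' * xc u' v'))) * (perm6 (fun b0 b1 b2 => (Zf (xa u v) (xb u v) (xc u v) b0 b1 b2 - 1) ^ 5) (xa u' v') (xb u' v') (xc u' v'))) + (1585/1024) * (3 / 2 * (perm6 (fun b0 b1 b2 => (Zf (xa u v) (xb u v) (xc u v) b0 b1 b2 - 1) ^ 6) (xa u' v') (xb u' v') (xc u' v') + 3 * (perm6 (fun b0 b1 b2 => (Zf (xa u v) (xb u v) (xc u v) b0 b1 b2 - 1) ^ 7) (xa u' v') (xb u' v') (xc u' v')) + 3 * (perm6 (fun b0 b1 b2 => (Zf (xa u v) (xb u v) (xc u v) b0 b1 b2 - 1) ^ 8) (xa u' v') (xb u' v') (xc u' v')) + perm6 (fun b0 b1 b2 => (Zf (xa u v) (xb u v) (xc u v) b0 b1 b2 - 1) ^ 9) (xa u' v') (xb u' v') (xc u' v') - perm6 (fun b0 b1 b2 => Nf (xa u v) (xb u v) (xc u v) b0 b1 b2 * (Zf (xa u v) (xb u v) (xc u v) b0 b1 b2 - 1) ^ 6) (xa u' v') (xb u' v') (xc u' v') - perm6 (fun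 b0 b1 b2 => Nf (xa u v) (xb u v) (xc u v) b0 b1 b2 * (Zf (xa u v) (xb u v) (xc u v) b0 b1 b2 - 1) ^ 7) (xa u' v') (xb u' v') (xc u' v')) - 1 / 2 * (729 * (xa u v * xb u v * xc u v * (xa u' v' * xb u' v' * xc u' v'))) * (perm6 (fun b0 b1 b2 => (Zf (xa u v) (xb u v) (xc u v) b0 b1 b2 - 1) ^ 6) (xa u' v') (xb u' v') (xc u' v'))) + (-6855/16384) * (3 / 2 * (perm6 (fun b0 b1 b2 => (Zf (xa u v) (xb u v) (xc u v) b0 b1 b2 - 1) ^ 7) (xa u' v') (xb u' v') (xc u' v') + 3 * (perm6 (fun b0 b1 b2 => (Zf (xa u v) (xb u v) (xc u v) b0 b1 b2 - 1) ^ 8) (xa u' v') (xb u' v') (xc u' v')) + 3 * (perm6 (fun b0 b1 b2 => (Zf (xa u v) (xb u v) (xc u v) b0 b1 b2 - 1) ^ 9) (xa u' v') (xb u' v') (xc u' v')) + perm6 (fun b0 b1 b2 => (Zf (xa u v) (xb u v) (xc u v) b0 b1 b2 - 1) ^ 10) (xa u' v') (xb u' v') (xc u' v') - perm6 (fun b0 b1 b2 => Nf (xa u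 v) (xb u v) (xc u v) b0 b1 b2 * (Zf (xa u v) (xb u v) (xc u v) b0 b1 b2 - 1) ^ 7) (xa u' v') (xb u' v') (xc u' v') - perm6 (fun b0 b1 b2 => Nf (xa u v) (xb u v) (xc u v) b0 b1 b2 * (Zf (xa u v) (xb u v) (xc u v) b0 b1 b2 - 1) ^ 8) (xa u' v') (xb u' v') (xc u' v')) - 1 / 2 * (729 * (xa u v * xb u v * xc u v * (xa u' v' * xb u' v' * xc u' v'))) * (perm6 (fun b0 b1 b2 => (Zf (xa u v) (xb u v) (xc u v) b0 b1 b2 - 1) ^ 7) (xa u' v') (xb u' v') (xc u' v')))) := by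
  simp only [perm6, P2_W, P2_l2, Gf]
  ring

def P2_psi (r t r' t' : ℝ) : ℝ := mP0 r t r' t' + mP1 r t r' t' - (1 * (3 / 2 * (mP0 r t r' t' + 3 * mP1 r t r' t' + 3 * mP2 r t r' t' + mP3 r t r' t' - mN0 r t r' t' - mN1 r t r' t') - 1 / 2 * ((1 - 3 * r + 2 * t) * (1 - 3 * r' + 2 * t')) * mP0 r t r' t') + (-2) * (3 / 2 * (mP1 r t r' t' + 3 * mP2 r t r' t' + 3 * mP3 r t r' t' + mP4 r t r' t' - mN1 r t r' t' - mN2 r t r' t') - 1 / 2 * ((1 - 3 * r + 2 * t) * (1 - 3 * r' + 2 * t')) * mP1 r t r' t') + (96299/32768) * (3 / 2 * (mP2 r t r' t' + 3 * mP3 r t r' t' + 3 * mP4 r t r' t' + mP5 r t r' t' - mN2 r t r' t' - mN3 r t r' t') - 1 / 2 * ((1 - 3 * r + 2 * t) * (1 - 3 * r' + 2 * t')) * mP2 r t r' t') + (-238529/65536) * (3 / 2 * (mP3 r t r' t' + 3 * mP4 r t r' t' + 3 * mP5 r t r' t' + mP6 r t r' t' - mN3 r t r' t' - mN4 r t r' t')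 - 1 / 2 * ((1 - 3 * r + 2 * t) * (1 - 3 * r' + 2 * t')) * mP3 r t r' t') + (115555/32768) * (3 / 2 * (mP4 r t r' t' + 3 * mP5 r t r' t' + 3 * mP6 r t r' t' + mP7 r t r' t' - mN4 r t r' t' - mN5 r t r' t') - 1 / 2 * ((1 - 3 * r + 2 * t) * (1 - 3 * r' + 2 * t')) * mP4 r t r' t') + (-45337/16384) * (3 / 2 * (mP5 r t r' t' + 3 * mP6 r t r' t' + 3 * mP7 r t r' t' + mP8 r t r' t' - mN5 r t r' t' - mN6 r t r' t') - 1 / 2 * ((1 - 3 * r + 2 * t) * (1 - 3 * r' + 2 * t')) * mP5 r t r' t') + (1585/1024) * (3 / 2 * (mP6 r t r' t' + 3 * mP7 r t r' t' + 3 * mP8 r t r' t' + mP9 r t r' t' - mN6 r t r' t' - mN7 r t r' t') - 1 / 2 * ((1 - 3 * r + 2 * t) * (1 - 3 * r' + 2 * t')) * mP6 r t r' t') + (-6855/16384) * (3 / 2 * (mP7 r t r' t' + 3 * mP8 r t r' t' + 3 * mP9 r t r' t' + mP10 r t r' t' - mN7 r t r' t' - mN8 r t r' t') - 1 / 2 * ((1 -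 3 * r + 2 * t) * (1 - 3 * r' + 2 * t')) * mP7 r t r' t'))

theorem P2_perm (u v u' v' : ℝ) :
    perm6 (P2_W (xa u v) (xb u v) (xc u v)) (xa u' v') (xb u' v') (xc u' v') = 6 * P2_psi (rU u v) (tU u v) (rU u' v') (tU u' v') := by
  rw [P2_split, mom_mN0, mom_mN1, mom_mN2, mom_mN3, mom_mN4, mom_mN5, mom_mN6, mom_mN7, mom_mN8, mom_mP0, mom_mP1, mom_mP2, mom_mP3, mom_mP4, mom_mP5, mom_mP6, mom_mP7, mom_mP8, mom_mP9, mom_mP10, gg_eq]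
  simp only [P2_psi]
  ring

def P2_T (r t r' t' : ℝ) : ℝ := (26/5)*t*t' + (-29/5)*t*r' + (-29/5)*r*t' + (31/5)*r*r'

def P2_F (r t r' t' : ℝ) : ℝ := (t) + (t') + P2_T r t r' t' - P2_psi r t r' t'

def P2_M : List (List ℤ) := [[Int.ofNat 1492106,Int.ofNat 1192645,Int.ofNat 0,Int.ofNat 0,Int.ofNat 131072,Int.negSucc 2888969,Int.ofNat 0,Int.ofNat 0,Int.negSucc 1845779,Int.ofNat 0,Int.ofNat 0,Int.ofNat 0,Int.ofNat 0,Int.ofNat 0,Int.ofNat 0,Int.ofNat 0,Int.ofNat 0,Int.ofNat 0],[Int.ofNat 1192645,Int.ofNat 121970,Int.negSucc 507199,Int.ofNat 0,Int.ofNat 0,Int.negSucc 3466649,Int.ofNat 2720220,Int.ofNat 0,Int.ofNat 0,Int.negSucc 746429,Int.ofNat 0,Int.ofNat 2141350,Int.ofNat 1014400,Int.ofNat 0,Int.negSucc 5440439,Int.ofNat 0,Int.ofNat 0,Int.ofNat 0],[Int.ofNat 0,Int.negSucc 507199,Int.ofNat 191800,Int.ofNat 0,Int.ofNat 0,Int.ofNat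 0,Int.ofNat 411300,Int.ofNat 0,Int.ofNat 0,Int.ofNat 0,Int.ofNat 411300,Int.ofNat 1014400,Int.negSucc 1082599,Int.ofNat 0,Int.negSucc 822599,Int.ofNat 0,Int.negSucc 822599,Int.ofNat 0],[Int.ofNat 0,Int.ofNat 0,Int.ofNat 0,Int.ofNat 0,Int.ofNat 0,Int.ofNat 0,Int.ofNat 0,Int.ofNat 0,Int.ofNat 0,Int.ofNat 0,Int.ofNat 0,Int.ofNat 0,Int.ofNat 0,Int.ofNat 0,Int.ofNat 0,Int.ofNat 0,Int.ofNat 0,Int.ofNat 0],[Int.ofNat 131072,Int.ofNat 0,Int.ofNat 0,Int.ofNat 0,Int.ofNat 101744,Int.negSucc 3851959,Int.ofNat 0,Int.ofNat 0,Int.ofNat 7864320,Int.ofNat 0,Int.ofNat 0,Int.ofNat 0,Int.ofNat 0,Int.ofNat 0,Int.ofNat 0,Int.ofNat 0,Int.ofNat 0,Int.ofNat 0],[Int.negSucc 2888969,Int.negSucc 3466649,Int.ofNat 0,Int.ofNat 0,Int.negSucc 3851959,Int.ofNat 11835410,Int.ofNat 4533700,Int.ofNat 0,Int.ofNat 15689670,Int.negSucc 17333249,Int.ofNat 0,Int.ofNat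 667710,Int.ofNat 0,Int.ofNat 0,Int.ofNat 0,Int.ofNat 0,Int.ofNat 0,Int.ofNat 0],[Int.ofNat 0,Int.ofNat 2720220,Int.ofNat 411300,Int.ofNat 0,Int.ofNat 0,Int.ofNat 4533700,Int.negSucc 2829439,Int.ofNat 0,Int.ofNat 0,Int.negSucc 6409379,Int.ofNat 3290400,Int.negSucc 5440439,Int.negSucc 7484399,Int.ofNat 0,Int.ofNat 14726280,Int.ofNat 0,Int.negSucc 6580799,Int.ofNat 0],[Int.ofNat 0,Int.ofNat 0,Int.ofNat 0,Int.ofNat 0,Int.ofNat 0,Int.ofNat 0,Int.ofNat 0,Int.ofNat 0,Int.ofNat 0,Int.ofNat 0,Int.ofNat 0,Int.ofNat 0,Int.ofNat 0,Int.ofNat 0,Int.ofNat 0,Int.ofNat 0,Int.ofNat 0,Int.ofNat 0],[Int.negSucc 1845779,Int.ofNat 0,Int.ofNat 0,Int.ofNat 0,Int.ofNat 7864320,Int.ofNat 15689670,Int.ofNat 0,Int.ofNat 0,Int.negSucc 50754119,Int.negSucc 13866599,Int.ofNat 0,Int.ofNat 42935220,Int.ofNat 0,Int.ofNat 0,Int.ofNat 0,Int.ofNat 0,Int.ofNat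 0,Int.ofNat 0],[Int.ofNat 0,Int.negSucc 746429,Int.ofNat 0,Int.ofNat 0,Int.ofNat 0,Int.negSucc 17333249,Int.negSucc 6409379,Int.ofNat 0,Int.negSucc 13866599,Int.ofNat 39903960,Int.ofNat 2879100,Int.ofNat 28164060,Int.negSucc 31953599,Int.ofNat 0,Int.ofNat 21575160,Int.ofNat 0,Int.ofNat 0,Int.ofNat 0],[Int.ofNat 0,Int.ofNat 0,Int.ofNat 411300,Int.ofNat 0,Int.ofNat 0,Int.ofNat 0,Int.ofNat 3290400,Int.ofNat 0,Int.ofNat 0,Int.ofNat 2879100,Int.negSucc 12338999,Int.ofNat 0,Int.ofNat 1645200,Int.ofNat 0,Int.negSucc 6580799,Int.ofNat 0,Int.ofNat 30436200,Int.ofNat 0],[Int.ofNat 0,Int.ofNat 2141350,Int.ofNat 1014400,Int.ofNat 0,Int.ofNat 0,Int.ofNat 667710,Int.negSucc 5440439,Int.ofNat 0,Int.ofNat 42935220,Int.ofNat 28164060,Int.ofNat 0,Int.negSucc 170573679,Int.negSucc 22316799,Int.ofNat 0,Int.ofNat 119689680,Int.ofNat 0,Int.ofNat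 0,Int.ofNat 0],[Int.ofNat 0,Int.ofNat 1014400,Int.negSucc 1082599,Int.ofNat 0,Int.ofNat 0,Int.ofNat 0,Int.negSucc 7484399,Int.ofNat 0,Int.ofNat 0,Int.negSucc 31953599,Int.ofNat 1645200,Int.negSucc 22316799,Int.ofNat 45285800,Int.ofNat 0,Int.negSucc 1888199,Int.ofNat 0,Int.ofNat 25500600,Int.ofNat 0],[Int.ofNat 0,Int.ofNat 0,Int.ofNat 0,Int.ofNat 0,Int.ofNat 0,Int.ofNat 0,Int.ofNat 0,Int.ofNat 0,Int.ofNat 0,Int.ofNat 0,Int.ofNat 0,Int.ofNat 0,Int.ofNat 0,Int.ofNat 0,Int.ofNat 0,Int.ofNat 0,Int.ofNat 0,Int.ofNat 0],[Int.ofNat 0,Int.negSucc 5440439,Int.negSucc 822599,Int.ofNat 0,Int.ofNat 0,Int.ofNat 0,Int.ofNat 14726280,Int.ofNat 0,Int.ofNat 0,Int.ofNat 21575160,Int.negSucc 6580799,Int.ofNat 119689680,Int.negSucc 1888199,Int.ofNat 0,Int.negSucc 234046559,Int.ofNat 0,Int.ofNat 70743600,Int.ofNat 0],[Int.ofNat 0,Int.ofNat 0,Int.ofNat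 0,Int.ofNat 0,Int.ofNat 0,Int.ofNat 0,Int.ofNat 0,Int.ofNat 0,Int.ofNat 0,Int.ofNat 0,Int.ofNat 0,Int.ofNat 0,Int.ofNat 0,Int.ofNat 0,Int.ofNat 0,Int.ofNat 0,Int.ofNat 0,Int.ofNat 0],[Int.ofNat 0,Int.ofNat 0,Int.negSucc 822599,Int.ofNat 0,Int.ofNat 0,Int.ofNat 0,Int.negSucc 6580799,Int.ofNat 0,Int.ofNat 0,Int.ofNat 0,Int.ofNat 30436200,Int.ofNat 0,Int.ofNat 25500600,Int.ofNat 0,Int.ofNat 70743600,Int.ofNat 0,Int.negSucc 210585599,Int.ofNat 0],[Int.ofNat 0,Int.ofNat 0,Int.ofNat 0,Int.ofNat 0,Int.ofNat 0,Int.ofNat 0,Int.ofNat 0,Int.ofNat 0,Int.ofNat 0,Int.ofNat 0,Int.ofNat 0,Int.ofNat 0,Int.ofNat 0,Int.ofNat 0,Int.ofNat 0,Int.ofNat 0,Int.ofNat 0,Int.ofNat 0]]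

theorem P2_check : checkBil P2_M TB2 91 = true := by decide +kernel

theorem P2_bil (r t r' t' : ℝ) :
    bilR P2_M (invB2 r t) (invB2 r' t') = 1310720 * P2_F r t r' t' := by
  simp only [bilR, P2_M, invB2, List.map_cons, List.map_nil, rdot, rrdot, Int.cast_ofNat_Int,
    Int.cast_negSucc]
  push_cast
  simp only [P2_F, P2_psi, P2_T, rec6poly, mP0, mP1, mP2, mP3, mP4, mP5, mP6, mP7, mP8,
    mP9, mP10, mP11, mP12, mN0, mN1, mN2, mN3, mN4, mN5, mN6, mN7, mN8, mN9, mN10, mNN9, mNN10, mNN0, mNN1, mNN2, mNN3, mNN4, mNN5, mNN6, mNN7, mNN8]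
  ring

/-- pair bound -/
theorem pair_P2 {p r : Fin 3 → ℝ} (hp : p ∈ Sx 3) (hr : r ∈ Sx 3) :
    B tt p r ≤ tt p + tt r + P2_T (rr p) (tt p) (rr r) (tt r) := by
  obtain ⟨u, v, h0, h1, h2, h3, h4⟩ := exists_skew hp
  obtain ⟨u', v', h0', h1', h2', h3', h4'⟩ := exists_skew hr
  have hB := B_le_perm (P2_W (p 0) (p 1) (p 2)) hr (fun y hy => tt_le2 P2_l2 P2_V2 hp hy)
  rw [h0, h1, h2, h0', h1', h2', P2_perm, ← h3, ← h4, ← h3', ← h4'] at hB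
  have hΦ := B2_chamber P2_M P2_check hp hr
  rw [P2_bil] at hΦ
  simp only [P2_F] at hΦ
  linarith

end Crest.Agent.PottsTree.CertQ3

end
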