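import Crest.Agent.Lib.PottsTree.CertQ3PairCore

/-! helper48 P3 (with 5 in place of 47/10) -/

set_option linter.unusedSimpArgs false
set_option linter.unusedVariables false
set_option maxRecDepth 100000

noncomputable section

namespace Crest.Agent.PottsTree.CertQ3

open Crest.Agent.PottsTree

def P3_l (P : ℝ) : ℝ := 1 + (-1)*P + (64429/65536)*P^2 + (-15025/16384)*P^3 + (22901/32768)*P^4 + (-29547/65536)*P^5 + (8173/65536)*P^6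
theorem P3_V (P : ℝ) (h0 : -1 ≤ P) (h1 : P ≤ 2) : 0 ≤ 1 - (1+P)*P3_l P := by
  have key : ∀ a b : ℝ, 0 ≤ a → 0 ≤ b → 0 ≤ (1/129140163)*a^0*b^17 + (489959/8463329722368)*a^1*b^16 + (1383781/8463329722368)*a^2*b^15 + (49129/264479053824)*a^3*b^14 + (77753/4231664861184)*a^4*b^13 + (201817/4231664861184)*a^5*b^12 + (5175043/8463329722368)*a^6*b^11 + (938377/1057916215296)*a^7*b^10 + (395659/2115832430592)*a^8*b^9 + (198209/1057916215296)*a^9*b^8 + (23117435/8463329722368)*a^10*b^7 + (794641/132239526912)*a^11*b^6 + (28005817/4231664861184)*a^12*b^5 + (18409079/4231664861184)*a^13*b^4 + (14774141/8463329722368)*a^14*b^3 + (421139/1057916215296)*a^15*b^2 + (21065/528958107648)*a^16*b^1 + (49/8463329722368)*a^17*b^0 := by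
    intro a b ha hb
    positivity
  have e : 1 - (1+P)*P3_l P = P^2 * ((1/129140163)*(P+1)^0*(2-P)^17 + (489959/8463329722368)*(P+1)^1*(2-P)^16 + (1383781/8463329722368)*(P+1)^2*(2-P)^15 + (49129/264479053824)*(P+1)^3*(2-P)^14 + (77753/4231664861184)*(P+1)^4*(2-P)^13 + (201817/4231664861184)*(P+1)^5*(2-P)^12 + (5175043/8463329722368)*(P+1)^6*(2-P)^11 + (938377/1057916215296)*(P+1)^7*(2-P)^10 + (395659/2115832430592)*(P+1)^8*(2-P)^9 + (198209/1057916215296)*(P+1)^9*(2-P)^8 + (23117435/8463329722368)*(P+1)^10*(2-P)^7 + (794641/132239526912)*(P+1)^11*(2-P)^6 + (28005817/4231664861184)*(P+1)^12*(2-P)^5 + (18409079/4231664861184)*(P+1)^13*(2-P)^4 + (14774141/8463329722368)*(P+1)^14*(2-P)^3 + (421139/1057916215296)*(P+1)^15*(2-P)^2 + (21065/528958107648)*(P+1)^16*(2-P)^1 + (49/8463329722368)*(P+1)^17*(2-P)^0) := by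
    unfold P3_l
    ring
  rw [e]
  exact mul_nonneg (sq_nonneg P) (key _ _ (by linarith) (by linarith))

def P3_c (P : ℝ) : ℝ := 1 + (-3)*P + (301969/65536)*P^2 + (-127875/32768)*P^3 + (36507/32768)*P^4
theorem P3_Vc (P : ℝ) (h0 : -1 ≤ P) (h1 : P ≤ 2) : 0 ≤ 1 - P3_c P*(1+P)^3 := by
  have key : ∀ a b : ℝ, 0 ≤ a → 0 ≤ b → 0 ≤ (1/129140163)*a^0*b^17 + (23/129140163)*a^1*b^16 + (259/129140163)*a^2*b^15 + (101262689/8463329722368)*a^3*b^14 + (11128067/264479053824)*a^4*b^13 + (781918499/8463329722368)*a^5*b^12 + (66915685/528958107648)*a^6*b^11 + (826912097/8463329722368)*a^7*b^10 + (6868169/264479053824)*a^8*b^9 + (1622203/8463329722368)*a^9*b^8 + (15837415/264479053824)*a^10*b^7 + (1127247691/8463329722368)*a^11*b^6 + (36729871/264479053824)*a^12*b^5 + (726621169/8463329722368)*a^13*b^4 + (17205749/528958107648)*a^14*b^3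 + (59617267/8463329722368)*a^15*b^2 + (177937/264479053824)*a^16*b^1 + (49/8463329722368)*a^17*b^0 := by
    intro a b ha hb
    positivity
  have e : 1 - P3_c P*(1+P)^3 = P^2 * ((1/129140163)*(P+1)^0*(2-P)^17 + (23/129140163)*(P+1)^1*(2-P)^16 + (259/129140163)*(P+1)^2*(2-P)^15 + (101262689/8463329722368)*(P+1)^3*(2-P)^14 + (11128067/264479053824)*(P+1)^4*(2-P)^13 + (781918499/8463329722368)*(P+1)^5*(2-P)^12 + (66915685/528958107648)*(P+1)^6*(2-P)^11 + (826912097/8463329722368)*(P+1)^7*(2-P)^10 + (6868169/264479053824)*(P+1)^8*(2-P)^9 + (1622203/8463329722368)*(P+1)^9*(2-P)^8 + (15837415/264479053824)*(P+1)^10*(2-P)^7 + (1127247691/8463329722368)*(P+1)^11*(2-P)^6 + (36729871/264479053824)*(P+1)^12*(2-P)^5 + (726621169/8463329722368)*(P+1)^13*(2-P)^4 + (17205749/528958107648)*(P+1)^14*(2-P)^3 + (59617267/8463329722368)*(P+1)^15*(2-P)^2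 + (177937/264479053824)*(P+1)^16*(2-P)^1 + (49/8463329722368)*(P+1)^17*(2-P)^0) := by
    unfold P3_c
    ring
  rw [e]
  exact mul_nonneg (sq_nonneg P) (key _ _ (by linarith) (by linarith))

def P3_W (a0 a1 a2 b0 b1 b2 : ℝ) : ℝ := Zf a0 a1 a2 b0 b1 b2 - (Zf a0 a1 a2 b0 b1 b2 ^ 2 - Nf a0 a1 a2 b0 b1 b2) * P3_l (Zf a0 a1 a2 b0 b1 b2 - 1) - (Zf a0 a1 a2 b0 b1 b2 ^ 2 - Nf a0 a1 a2 b0 b1 b2) * Nf a0 a1 a2 b0 b1 b2 * P3_c (Zf a0 a1 a2 b0 b1 b2 - 1)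

theorem P3_split (u v u' v' : ℝ) :
    perm6 (P3_W (xa u v) (xb u v) (xc u v)) (xa u' v') (xb u' v') (xc u' v') =
      perm6 (fun b0 b1 b2 => (Zf (xa u v) (xb u v) (xc u v) b0 b1 b2 - 1) ^ 0) (xa u' v') (xb u' v') (xc u' v') + perm6 (fun b0 b1 b2 => (Zf (xa u v) (xb u v) (xc u v) b0 b1 b2 - 1) ^ 1) (xa u' v') (xb u' v') (xc u' v') - (1 * (perm6 (fun b0 b1 b2 => (Zf (xa u v) (xb u v) (xc u v) b0 b1 b2 - 1) ^ 0) (xa u' v') (xb u' v') (xc u' v') + 2 * (perm6 (fun b0 b1 b2 => (Zf (xa u v) (xb u v) (xc u v) b0 b1 b2 - 1) ^ 1) (xa u' v') (xb u' v') (xc u' v')) + perm6 (fun b0 b1 b2 => (Zf (xa u v) (xb u v) (xc u v) b0 b1 b2 - 1) ^ 2) (xa u' v') (xb u' v') (xc u' v') - perm6 (fun b0 b1 b2 => Nf (xa u v) (xb u v) (xc u v) b0 b1 b2 * (Zf (xa u v) (xb u v) (xc u v) b0 b1 b2 - 1) ^ 0) (xa u' v') (xb u' v') (xc u' v')) + (-1) * (perm6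 (fun b0 b1 b2 => (Zf (xa u v) (xb u v) (xc u v) b0 b1 b2 - 1) ^ 1) (xa u' v') (xb u' v') (xc u' v') + 2 * (perm6 (fun b0 b1 b2 => (Zf (xa u v) (xb u v) (xc u v) b0 b1 b2 - 1) ^ 2) (xa u' v') (xb u' v') (xc u' v')) + perm6 (fun b0 b1 b2 => (Zf (xa u v) (xb u v) (xc u v) b0 b1 b2 - 1) ^ 3) (xa u' v') (xb u' v') (xc u' v') - perm6 (fun b0 b1 b2 => Nf (xa u v) (xb u v) (xc u v) b0 b1 b2 * (Zf (xa u v) (xb u v) (xc u v) b0 b1 b2 - 1) ^ 1) (xa u' v') (xb u' v') (xc u' v')) + (64429/65536) * (perm6 (fun b0 b1 b2 => (Zf (xa u v) (xb u v) (xc u v) b0 b1 b2 - 1) ^ 2) (xa u' v') (xb u' v') (xc u' v') + 2 * (perm6 (fun b0 b1 b2 => (Zf (xa u v) (xb u v) (xc u v) b0 b1 b2 - 1) ^ 3) (xa u' v') (xb u' v') (xc u' v')) + perm6 (fun b0 b1 b2 => (Zf (xa u v) (xb u v) (xc u v) b0 b1 b2 - 1) ^ 4) (xa u' v') (xb u' v') (xc u' v') - perm6 (fun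 b0 b1 b2 => Nf (xa u v) (xb u v) (xc u v) b0 b1 b2 * (Zf (xa u v) (xb u v) (xc u v) b0 b1 b2 - 1) ^ 2) (xa u' v') (xb u' v') (xc u' v')) + (-15025/16384) * (perm6 (fun b0 b1 b2 => (Zf (xa u v) (xb u v) (xc u v) b0 b1 b2 - 1) ^ 3) (xa u' v') (xb u' v') (xc u' v') + 2 * (perm6 (fun b0 b1 b2 => (Zf (xa u v) (xb u v) (xc u v) b0 b1 b2 - 1) ^ 4) (xa u' v') (xb u' v') (xc u' v')) + perm6 (fun b0 b1 b2 => (Zf (xa u v) (xb u v) (xc u v) b0 b1 b2 - 1) ^ 5) (xa u' v') (xb u' v') (xc u' v') - perm6 (fun b0 b1 b2 => Nf (xa u v) (xb u v) (xc u v) b0 b1 b2 * (Zf (xa u v) (xb u v) (xc u v) b0 b1 b2 - 1) ^ 3) (xa u' v') (xb u' v') (xc u' v')) + (22901/32768) * (perm6 (fun b0 b1 b2 => (Zf (xa u v) (xb u v) (xc u v) b0 b1 b2 - 1) ^ 4) (xa u' v') (xb u' v') (xc u' v') + 2 * (perm6 (fun b0 b1 b2 => (Zf (xa u v) (xb u v) (xc u v) b0 b1 b2 -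 1) ^ 5) (xa u' v') (xb u' v') (xc u' v')) + perm6 (fun b0 b1 b2 => (Zf (xa u v) (xb u v) (xc u v) b0 b1 b2 - 1) ^ 6) (xa u' v') (xb u' v') (xc u' v') - perm6 (fun b0 b1 b2 => Nf (xa u v) (xb u v) (xc u v) b0 b1 b2 * (Zf (xa u v) (xb u v) (xc u v) b0 b1 b2 - 1) ^ 4) (xa u' v') (xb u' v') (xc u' v')) + (-29547/65536) * (perm6 (fun b0 b1 b2 => (Zf (xa u v) (xb u v) (xc u v) b0 b1 b2 - 1) ^ 5) (xa u' v') (xb u' v') (xc u' v') + 2 * (perm6 (fun b0 b1 b2 => (Zf (xa u v) (xb u v) (xc u v) b0 b1 b2 - 1) ^ 6) (xa u' v') (xb u' v') (xc u' v')) + perm6 (fun b0 b1 b2 => (Zf (xa u v) (xb u v) (xc u v) b0 b1 b2 - 1) ^ 7) (xa u' v') (xb u' v') (xc u' v') - perm6 (fun b0 b1 b2 => Nf (xa u v) (xb u v) (xc u v) b0 b1 b2 * (Zf (xa u v) (xb u v) (xc u v) b0 b1 b2 - 1) ^ 5) (xa u' v') (xb u' v') (xc u' v')) + (8173/65536) * (perm6 (fun b0 b1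 b2 => (Zf (xa u v) (xb u v) (xc u v) b0 b1 b2 - 1) ^ 6) (xa u' v') (xb u' v') (xc u' v') + 2 * (perm6 (fun b0 b1 b2 => (Zf (xa u v) (xb u v) (xc u v) b0 b1 b2 - 1) ^ 7) (xa u' v') (xb u' v') (xc u' v')) + perm6 (fun b0 b1 b2 => (Zf (xa u v) (xb u v) (xc u v) b0 b1 b2 - 1) ^ 8) (xa u' v') (xb u' v') (xc u' v') - perm6 (fun b0 b1 b2 => Nf (xa u v) (xb u v) (xc u v) b0 b1 b2 * (Zf (xa u v) (xb u v) (xc u v) b0 b1 b2 - 1) ^ 6) (xa u' v') (xb u' v') (xc u' v'))) - (1 * (perm6 (fun b0 b1 b2 => Nf (xa u v) (xb u v) (xc u v) b0 b1 b2 * (Zf (xa u v) (xb u v) (xc u v) b0 b1 b2 - 1) ^ 0) (xa u' v') (xb u' v') (xc u' v') + 2 * (perm6 (fun b0 b1 b2 => Nf (xa u v) (xb u v) (xc u v) b0 b1 b2 * (Zf (xa u v) (xb u v) (xc u v) b0 b1 b2 - 1) ^ 1) (xa u' v') (xb u' v') (xc u' v')) + perm6 (fun b0 b1 b2 => Nf (xa u v) (xb u v) (xc u v) b0 b1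 b2 * (Zf (xa u v) (xb u v) (xc u v) b0 b1 b2 - 1) ^ 2) (xa u' v') (xb u' v') (xc u' v') - perm6 (fun b0 b1 b2 => Nf (xa u v) (xb u v) (xc u v) b0 b1 b2 ^ 2 * (Zf (xa u v) (xb u v) (xc u v) b0 b1 b2 - 1) ^ 0) (xa u' v') (xb u' v') (xc u' v')) + (-3) * (perm6 (fun b0 b1 b2 => Nf (xa u v) (xb u v) (xc u v) b0 b1 b2 * (Zf (xa u v) (xb u v) (xc u v) b0 b1 b2 - 1) ^ 1) (xa u' v') (xb u' v') (xc u' v') + 2 * (perm6 (fun b0 b1 b2 => Nf (xa u v) (xb u v) (xc u v) b0 b1 b2 * (Zf (xa u v) (xb u v) (xc u v) b0 b1 b2 - 1) ^ 2) (xa u' v') (xb u' v') (xc u' v')) + perm6 (fun b0 b1 b2 => Nf (xa u v) (xb u v) (xc u v) b0 b1 b2 * (Zf (xa u v) (xb u v) (xc u v) b0 b1 b2 - 1) ^ 3) (xa u' v') (xb u' v') (xc u' v') - perm6 (fun b0 b1 b2 => Nf (xa u v) (xb u v) (xc u v) b0 b1 b2 ^ 2 * (Zf (xa u v) (xb u v) (xc u v) b0 b1 b2 - 1) ^ 1) (xa u' v')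 (xb u' v') (xc u' v')) + (301969/65536) * (perm6 (fun b0 b1 b2 => Nf (xa u v) (xb u v) (xc u v) b0 b1 b2 * (Zf (xa u v) (xb u v) (xc u v) b0 b1 b2 - 1) ^ 2) (xa u' v') (xb u' v') (xc u' v') + 2 * (perm6 (fun b0 b1 b2 => Nf (xa u v) (xb u v) (xc u v) b0 b1 b2 * (Zf (xa u v) (xb u v) (xc u v) b0 b1 b2 - 1) ^ 3) (xa u' v') (xb u' v') (xc u' v')) + perm6 (fun b0 b1 b2 => Nf (xa u v) (xb u v) (xc u v) b0 b1 b2 * (Zf (xa u v) (xb u v) (xc u v) b0 b1 b2 - 1) ^ 4) (xa u' v') (xb u' v') (xc u' v') - perm6 (fun b0 b1 b2 => Nf (xa u v) (xb u v) (xc u v) b0 b1 b2 ^ 2 * (Zf (xa u v) (xb u v) (xc u v) b0 b1 b2 - 1) ^ 2) (xa u' v') (xb u' v') (xc u' v')) + (-127875/32768) * (perm6 (fun b0 b1 b2 => Nf (xa u v) (xb u v) (xc u v) b0 b1 b2 * (Zf (xa u v) (xb u v) (xc u v) b0 b1 b2 - 1) ^ 3) (xa u' v') (xb u' v') (xc u' v') + 2 * (perm6 (fun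 b0 b1 b2 => Nf (xa u v) (xb u v) (xc u v) b0 b1 b2 * (Zf (xa u v) (xb u v) (xc u v) b0 b1 b2 - 1) ^ 4) (xa u' v') (xb u' v') (xc u' v')) + perm6 (fun b0 b1 b2 => Nf (xa u v) (xb u v) (xc u v) b0 b1 b2 * (Zf (xa u v) (xb u v) (xc u v) b0 b1 b2 - 1) ^ 5) (xa u' v') (xb u' v') (xc u' v') - perm6 (fun b0 b1 b2 => Nf (xa u v) (xb u v) (xc u v) b0 b1 b2 ^ 2 * (Zf (xa u v) (xb u v) (xc u v) b0 b1 b2 - 1) ^ 3) (xa u' v') (xb u' v') (xc u' v')) + (36507/32768) * (perm6 (fun b0 b1 b2 => Nf (xa u v) (xb u v) (xc u v) b0 b1 b2 * (Zf (xa u v) (xb u v) (xc u v) b0 b1 b2 - 1) ^ 4) (xa u' v') (xb u' v') (xc u' v') + 2 * (perm6 (fun b0 b1 b2 => Nf (xa u v) (xb u v) (xc u v) b0 b1 b2 * (Zf (xa u v) (xb u v) (xc u v) b0 b1 b2 - 1) ^ 5) (xa u' v') (xb u' v') (xc u' v')) + perm6 (fun b0 b1 b2 => Nf (xa u v) (xb u v) (xc u v) b0 b1 b2 * (Zf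 (xa u v) (xb u v) (xc u v) b0 b1 b2 - 1) ^ 6) (xa u' v') (xb u' v') (xc u' v') - perm6 (fun b0 b1 b2 => Nf (xa u v) (xb u v) (xc u v) b0 b1 b2 ^ 2 * (Zf (xa u v) (xb u v) (xc u v) b0 b1 b2 - 1) ^ 4) (xa u' v') (xb u' v') (xc u' v'))) := by
  simp only [perm6, P3_W, P3_l, P3_c]
  ring

def P3_psi (r t r' t' : ℝ) : ℝ := mP0 r t r' t' + mP1 r t r' t' - (1 * (mP0 r t r' t' + 2 * mP1 r t r' t' + mP2 r t r' t' - mN0 r t r' t')+ (-1) * (mP1 r t r' t' + 2 * mP2 r t r' t' + mP3 r t r' t' - mN1 r t r' t')+ (64429/65536) * (mP2 r t r' t' + 2 * mP3 r t r' t' + mP4 r t r' t' - mN2 r t r' t')+ (-15025/16384) * (mP3 r t r' t' + 2 * mP4 r t r' t' + mP5 r t r' t' - mN3 r t r' t')+ (22901/32768) * (mP4 r t r' t' + 2 * mP5 r t r' t' + mP6 r t r' t' - mN4 r t r' t')+ (-29547/65536) * (mP5 r t r' t' + 2 * mP6 r t r' t' + mP7 r t r' t' - mN5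 r t r' t')+ (8173/65536) * (mP6 r t r' t' + 2 * mP7 r t r' t' + mP8 r t r' t' - mN6 r t r' t')) - (1 * (mN0 r t r' t' + 2 * mN1 r t r' t' + mN2 r t r' t' - mNN0 r t r' t') + (-3) * (mN1 r t r' t' + 2 * mN2 r t r' t' + mN3 r t r' t' - mNN1 r t r' t') + (301969/65536) * (mN2 r t r' t' + 2 * mN3 r t r' t' + mN4 r t r' t' - mNN2 r t r' t') + (-127875/32768) * (mN3 r t r' t' + 2 * mN4 r t r' t' + mN5 r t r' t' - mNN3 r t r' t') + (36507/32768) * (mN4 r t r' t' + 2 * mN5 r t r' t' + mN6 r t r' t' - mNN4 r t r' t'))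

theorem P3_perm (u v u' v' : ℝ) :
    perm6 (P3_W (xa u v) (xb u v) (xc u v)) (xa u' v') (xb u' v') (xc u' v') = 6 * P3_psi (rU u v) (tU u v) (rU u' v') (tU u' v') := by
  rw [P3_split, mom_mN0, mom_mN1, mom_mN2, mom_mN3, mom_mN4, mom_mN5, mom_mN6, mom_mNN0, mom_mNN1, mom_mNN2, mom_mNN3, mom_mNN4, mom_mP0, mom_mP1, mom_mP2, mom_mP3, mom_mP4, mom_mP5, mom_mP6, mom_mP7, mom_mP8]
  simp only [P3_psi]
  ring

def P3_T (r t r' t' : ℝ) : ℝ := 8*t*t' + 5*r*r'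

def P3_F (r t r' t' : ℝ) : ℝ := (r ^ 2) + (r' ^ 2) + P3_T r t r' t' - P3_psi r t r' t'

def P3_M : List (List ℤ) := [[Int.ofNat 240762,Int.ofNat 0,Int.ofNat 0,Int.ofNat 0,Int.negSucc 262143,Int.negSucc 195649,Int.ofNat 0,Int.ofNat 0,Int.ofNat 1392584,Int.ofNat 255750,Int.ofNat 0,Int.negSucc 1207875,Int.ofNat 0,Int.ofNat 0,Int.ofNat 0,Int.ofNat 0,Int.ofNat 0,Int.ofNat 0],[Int.ofNat 0,Int.negSucc 158307,Int.ofNat 0,Int.ofNat 0,Int.ofNat 0,Int.ofNat 329181,Int.ofNat 64841,Int.ofNat 0,Int.negSucc 603937,Int.negSucc 372230,Int.ofNat 0,Int.ofNat 1339616,Int.ofNat 0,Int.ofNat 0,Int.negSucc 275709,Int.ofNat 0,Int.ofNat 0,Int.ofNat 0],[Int.ofNat 0,Int.ofNat 0,Int.ofNat 0,Int.ofNat 0,Int.ofNat 0,Int.ofNat 0,Int.ofNat 0,Int.ofNat 0,Int.ofNat 0,Int.ofNat 0,Int.ofNat 0,Int.ofNat 0,Int.ofNat 0,Int.ofNat 0,Int.ofNat 0,Int.ofNat 0,Int.ofNat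 0,Int.ofNat 0],[Int.ofNat 0,Int.ofNat 0,Int.ofNat 0,Int.ofNat 0,Int.ofNat 0,Int.ofNat 0,Int.ofNat 0,Int.ofNat 0,Int.ofNat 0,Int.ofNat 0,Int.ofNat 0,Int.ofNat 0,Int.ofNat 0,Int.ofNat 0,Int.ofNat 0,Int.ofNat 0,Int.ofNat 0,Int.ofNat 0],[Int.negSucc 262143,Int.ofNat 0,Int.ofNat 0,Int.ofNat 0,Int.ofNat 126644,Int.ofNat 786432,Int.ofNat 0,Int.ofNat 0,Int.ofNat 688016,Int.ofNat 0,Int.ofNat 0,Int.negSucc 1207875,Int.ofNat 0,Int.ofNat 0,Int.ofNat 0,Int.ofNat 0,Int.ofNat 0,Int.ofNat 0],[Int.negSucc 195649,Int.ofNat 329181,Int.ofNat 0,Int.ofNat 0,Int.ofNat 786432,Int.negSucc 1315631,Int.negSucc 146027,Int.ofNat 0,Int.negSucc 2774991,Int.ofNat 659235,Int.ofNat 0,Int.ofNat 3836210,Int.ofNat 0,Int.ofNat 0,Int.negSucc 876167,Int.ofNat 0,Int.ofNat 0,Int.ofNat 0],[Int.ofNat 0,Int.ofNat 64841,Int.ofNat 0,Int.ofNat 0,Int.ofNat 0,Int.negSucc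 146027,Int.ofNat 130225,Int.ofNat 0,Int.ofNat 0,Int.ofNat 243018,Int.ofNat 0,Int.negSucc 713793,Int.ofNat 0,Int.ofNat 0,Int.negSucc 260449,Int.ofNat 0,Int.ofNat 0,Int.ofNat 0],[Int.ofNat 0,Int.ofNat 0,Int.ofNat 0,Int.ofNat 0,Int.ofNat 0,Int.ofNat 0,Int.ofNat 0,Int.ofNat 0,Int.ofNat 0,Int.ofNat 0,Int.ofNat 0,Int.ofNat 0,Int.ofNat 0,Int.ofNat 0,Int.ofNat 0,Int.ofNat 0,Int.ofNat 0,Int.ofNat 0],[Int.ofNat 1392584,Int.negSucc 603937,Int.ofNat 0,Int.ofNat 0,Int.ofNat 688016,Int.negSucc 2774991,Int.ofNat 0,Int.ofNat 0,Int.negSucc 964751,Int.ofNat 3069000,Int.ofNat 0,Int.ofNat 326544,Int.ofNat 0,Int.ofNat 0,Int.negSucc 876167,Int.ofNat 0,Int.ofNat 0,Int.ofNat 0],[Int.ofNat 255750,Int.negSucc 372230,Int.ofNat 0,Int.ofNat 0,Int.ofNat 0,Int.ofNat 659235,Int.ofNat 243018,Int.ofNat 0,Int.ofNat 3069000,Int.negSucc 1397132,Int.ofNat 0,Int.negSucc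 1878821,Int.ofNat 0,Int.ofNat 0,Int.ofNat 290970,Int.ofNat 0,Int.ofNat 0,Int.ofNat 0],[Int.ofNat 0,Int.ofNat 0,Int.ofNat 0,Int.ofNat 0,Int.ofNat 0,Int.ofNat 0,Int.ofNat 0,Int.ofNat 0,Int.ofNat 0,Int.ofNat 0,Int.ofNat 0,Int.ofNat 0,Int.ofNat 0,Int.ofNat 0,Int.ofNat 0,Int.ofNat 0,Int.ofNat 0,Int.ofNat 0],[Int.negSucc 1207875,Int.ofNat 1339616,Int.ofNat 0,Int.ofNat 0,Int.negSucc 1207875,Int.ofNat 3836210,Int.negSucc 713793,Int.ofNat 0,Int.ofNat 326544,Int.negSucc 1878821,Int.ofNat 0,Int.negSucc 3929591,Int.ofNat 0,Int.ofNat 0,Int.ofNat 808612,Int.ofNat 0,Int.ofNat 0,Int.ofNat 0],[Int.ofNat 0,Int.ofNat 0,Int.ofNat 0,Int.ofNat 0,Int.ofNat 0,Int.ofNat 0,Int.ofNat 0,Int.ofNat 0,Int.ofNat 0,Int.ofNat 0,Int.ofNat 0,Int.ofNat 0,Int.ofNat 0,Int.ofNat 0,Int.ofNat 0,Int.ofNat 0,Int.ofNat 0,Int.ofNat 0],[Int.ofNat 0,Int.ofNat 0,Int.ofNat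 0,Int.ofNat 0,Int.ofNat 0,Int.ofNat 0,Int.ofNat 0,Int.ofNat 0,Int.ofNat 0,Int.ofNat 0,Int.ofNat 0,Int.ofNat 0,Int.ofNat 0,Int.ofNat 0,Int.ofNat 0,Int.ofNat 0,Int.ofNat 0,Int.ofNat 0],[Int.ofNat 0,Int.negSucc 275709,Int.ofNat 0,Int.ofNat 0,Int.ofNat 0,Int.negSucc 876167,Int.negSucc 260449,Int.ofNat 0,Int.negSucc 876167,Int.ofNat 290970,Int.ofNat 0,Int.ofNat 808612,Int.ofNat 0,Int.ofNat 0,Int.ofNat 3382592,Int.ofNat 0,Int.ofNat 0,Int.ofNat 0],[Int.ofNat 0,Int.ofNat 0,Int.ofNat 0,Int.ofNat 0,Int.ofNat 0,Int.ofNat 0,Int.ofNat 0,Int.ofNat 0,Int.ofNat 0,Int.ofNat 0,Int.ofNat 0,Int.ofNat 0,Int.ofNat 0,Int.ofNat 0,Int.ofNat 0,Int.ofNat 0,Int.ofNat 0,Int.ofNat 0],[Int.ofNat 0,Int.ofNat 0,Int.ofNat 0,Int.ofNat 0,Int.ofNat 0,Int.ofNat 0,Int.ofNat 0,Int.ofNat 0,Int.ofNat 0,Int.ofNat 0,Int.ofNat 0,Int.ofNat 0,Int.ofNat 0,Int.ofNat 0,Int.ofNat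 0,Int.ofNat 0,Int.ofNat 0,Int.ofNat 0],[Int.ofNat 0,Int.ofNat 0,Int.ofNat 0,Int.ofNat 0,Int.ofNat 0,Int.ofNat 0,Int.ofNat 0,Int.ofNat 0,Int.ofNat 0,Int.ofNat 0,Int.ofNat 0,Int.ofNat 0,Int.ofNat 0,Int.ofNat 0,Int.ofNat 0,Int.ofNat 0,Int.ofNat 0,Int.ofNat 0]]

theorem P3_check : checkBil P3_M TB2 91 = true := by decide +kernel

theorem P3_bil (r t r' t' : ℝ) :
    bilR P3_M (invB2 r t) (invB2 r' t') = 131072 * P3_F r t r' t' := by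
  simp only [bilR, P3_M, invB2, List.map_cons, List.map_nil, rdot, rrdot, Int.cast_ofNat_Int,
    Int.cast_negSucc]
  push_cast
  simp only [P3_F, P3_psi, P3_T, rec6poly, mP0, mP1, mP2, mP3, mP4, mP5, mP6, mP7, mP8,
    mP9, mP10, mP11, mP12, mN0, mN1, mN2, mN3, mN4, mN5, mN6, mN7, mN8, mN9, mN10, mNN9, mNN10, mNN0, mNN1, mNN2, mNN3, mNN4, mNN5, mNN6, mNN7, mNN8]
  ring

/-- pair bound -/
theorem pair_P3 {p r : Fin 3 → ℝ} (hp : p ∈ Sx 3) (hr : r ∈ Sx 3) :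
    B rr2 p r ≤ rr p ^ 2 + rr r ^ 2 + P3_T (rr p) (tt p) (rr r) (tt r) := by
  obtain ⟨u, v, h0, h1, h2, h3, h4⟩ := exists_skew hp
  obtain ⟨u', v', h0', h1', h2', h3', h4'⟩ := exists_skew hr
  have hB := B_le_perm (P3_W (p 0) (p 1) (p 2)) hr (fun y hy => rr2_le2 P3_l P3_c P3_V P3_Vc hp hy)
  rw [h0, h1, h2, h0', h1', h2', P3_perm, ← h3, ← h4, ← h3', ← h4'] at hB
  have hΦ := B2_chamber P3_M P3_check hp hr
  rw [P3_bil] at hΦ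
  simp only [P3_F] at hΦ
  linarith

end Crest.Agent.PottsTree.CertQ3

end
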