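import Crest.Agent.Lib.PottsTree.CertQ3MomA
import Crest.Agent.Lib.PottsTree.CertQ3MomB
import Crest.Agent.Lib.PottsTree.CertQ3MomC
import Crest.Agent.Lib.PottsTree.CertQ3MomD
import Crest.Agent.Lib.PottsTree.CertQ3MomE
import Crest.Agent.Lib.PottsTree.CertQ3Core

/-!
# Potts tree, `q = 3`: high moments by the degree-six recursion, and the averaged minorants
-/

set_option linter.unusedSimpArgs false
set_option linter.unusedVariables false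

noncomputable section

namespace Crest.Agent.PottsTree.CertQ3

/-- `P⁶ = 6RP⁴ + 4TP³ - 9R²P² - 12RTP - C` for every permutation -/
def chiRhs (r t r' t' P : ℝ) : ℝ :=
  6 * (r * r') * P ^ 4 + 4 * (t * t') * P ^ 3 - 9 * (r * r') ^ 2 * P ^ 2 -
    12 * (r * r') * (t * t') * P - (4 * (t * t') ^ 2 - 4 * (r ^ 3 - t ^ 2) * (r' ^ 3 - t' ^ 2))

theorem chi0 (u v u' v' : ℝ) :
    (Zf (xa u v) (xb u v) (xc u v) (xa u' v') (xb u' v') (xc u' v') - 1) ^ 6 = chiRhs (rU u v) (tU u v) (rU u' v') (tU u' v') (Zf (xa u v) (xb u v) (xc u v) (xa u' v') (xb u' v') (xc u' v') - 1) := by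
  simp only [chiRhs, Zf, xa, xb, xc, rU, tU]
  ring

theorem chi1 (u v u' v' : ℝ) :
    (Zf (xa u v) (xb u v) (xc u v) (xb u' v') (xc u' v') (xa u' v') - 1) ^ 6 = chiRhs (rU u v) (tU u v) (rU u' v') (tU u' v') (Zf (xa u v) (xb u v) (xc u v) (xb u' v') (xc u' v') (xa u' v') - 1) := by
  simp only [chiRhs, Zf, xa, xb, xc, rU, tU]
  ring

theorem chi2 (u v u' v' : ℝ) :
    (Zf (xa u v) (xb u v) (xc u v) (xc u' v') (xa u' v') (xb u' v') - 1) ^ 6 = chiRhs (rU u v) (tU u v) (rU u' v') (tU u' v') (Zf (xa u v) (xb u v) (xc u v) (xc u' v') (xa u' v') (xb u' v') - 1) := by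
  simp only [chiRhs, Zf, xa, xb, xc, rU, tU]
  ring

theorem chi3 (u v u' v' : ℝ) :
    (Zf (xa u v) (xb u v) (xc u v) (xa u' v') (xc u' v') (xb u' v') - 1) ^ 6 = chiRhs (rU u v) (tU u v) (rU u' v') (tU u' v') (Zf (xa u v) (xb u v) (xc u v) (xa u' v') (xc u' v') (xb u' v') - 1) := by
  simp only [chiRhs, Zf, xa, xb, xc, rU, tU]
  ring

theorem chi4 (u v u' v' : ℝ) :
    (Zf (xa u v) (xb u v) (xc u v) (xc u' v') (xb u' v') (xa u' v') - 1) ^ 6 = chiRhs (rU u v) (tU u v) (rU u' v') (tU u' v') (Zf (xa u v) (xb u v) (xc u v) (xc u' v') (xb u' v') (xa u' v') - 1) := by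
  simp only [chiRhs, Zf, xa, xb, xc, rU, tU]
  ring

theorem chi5 (u v u' v' : ℝ) :
    (Zf (xa u v) (xb u v) (xc u v) (xb u' v') (xa u' v') (xc u' v') - 1) ^ 6 = chiRhs (rU u v) (tU u v) (rU u' v') (tU u' v') (Zf (xa u v) (xb u v) (xc u v) (xb u' v') (xa u' v') (xc u' v') - 1) := by
  simp only [chiRhs, Zf, xa, xb, xc, rU, tU]
  ring

theorem rec6 (w : ℝ → ℝ → ℝ → ℝ) (j : ℕ) (u v u' v' : ℝ) :
    perm6 (fun b0 b1 b2 => w b0 b1 b2 * (Zf (xa u v) (xb u v) (xc u v) b0 b1 b2 - 1) ^ (j + 6)) (xa u' v') (xb u' v') (xc u' v') =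
      6 * (rU u v * rU u' v') * perm6 (fun b0 b1 b2 => w b0 b1 b2 * (Zf (xa u v) (xb u v) (xc u v) b0 b1 b2 - 1) ^ (j + 4)) (xa u' v') (xb u' v') (xc u' v') + 4 * (tU u v * tU u' v') * perm6 (fun b0 b1 b2 => w b0 b1 b2 * (Zf (xa u v) (xb u v) (xc u v) b0 b1 b2 - 1) ^ (j + 3)) (xa u' v') (xb u' v') (xc u' v')
        - 9 * (rU u v * rU u' v') ^ 2 * perm6 (fun b0 b1 b2 => w b0 b1 b2 * (Zf (xa u v) (xb u v) (xc u v) b0 b1 b2 - 1) ^ (j + 2)) (xa u' v') (xb u' v') (xc u' v')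
        - 12 * (rU u v * rU u' v') * (tU u v * tU u' v') * perm6 (fun b0 b1 b2 => w b0 b1 b2 * (Zf (xa u v) (xb u v) (xc u v) b0 b1 b2 - 1) ^ (j + 1)) (xa u' v') (xb u' v') (xc u' v')
        - (4 * (tU u v * tU u' v') ^ 2 -
            4 * (rU u v ^ 3 - tU u v ^ 2) * (rU u' v' ^ 3 - tU u' v' ^ 2)) *
          perm6 (fun b0 b1 b2 => w b0 b1 b2 * (Zf (xa u v) (xb u v) (xc u v) b0 b1 b2 - 1) ^ (j + 0)) (xa u' v') (xb u' v') (xc u' v') := by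
  have h0 := chi0 u v u' v'
  have h1 := chi1 u v u' v'
  have h2 := chi2 u v u' v'
  have h3 := chi3 u v u' v'
  have h4 := chi4 u v u' v'
  have h5 := chi5 u v u' v'
  simp only [chiRhs] at h0 h1 h2 h3 h4 h5
  simp only [perm6]
  linear_combination w (xa u' v') (xb u' v') (xc u' v') * (Zf (xa u v) (xb u v) (xc u v) (xa u' v') (xb u' v') (xc u' v') - 1) ^ j * h0 + w (xb u' v') (xc u' v') (xa u' v') * (Zf (xa u v) (xb u v) (xc u v) (xb u' v') (xc u' v') (xa u' v') - 1) ^ j * h1 + w (xc u' v') (xa u' v') (xb u' v') * (Zf (xa u v) (xb u v) (xc u v) (xc u' v') (xa u' v') (xb u' v') - 1) ^ j * h2 + w (xa u' v') (xc u' v') (xb u' v') * (Zf (xa u v) (xb u v) (xc u v) (xa u' v') (xc u' v') (xb u' v') - 1) ^ j * h3 + w (xc u' v') (xb u' v') (xa u' v') * (Zf (xa u v) (xb u v) (xc u v) (xc u' v') (xb u' v') (xa u' v') - 1) ^ j * h4 + w (xb u' v') (xa u'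 v') (xc u' v') * (Zf (xa u v) (xb u v) (xc u v) (xb u' v') (xa u' v') (xc u' v') - 1) ^ j * h5

def rec6poly (m0 m1 m2 m3 m4 r t r' t' : ℝ) : ℝ :=
  6 * (r * r') * m4 + 4 * (t * t') * m3 - 9 * (r * r') ^ 2 * m2 - 12 * (r * r') * (t * t') * m1
    - (4 * (t * t') ^ 2 - 4 * (r ^ 3 - t ^ 2) * (r' ^ 3 - t' ^ 2)) * m0

def mP6 (r t r' t' : ℝ) : ℝ := rec6poly (mP0 r t r' t') (mP1 r t r' t') (mP2 r t r' t') (mP3 r t r' t') (mP4 r t r' t') r t r' t'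
def mP7 (r t r' t' : ℝ) : ℝ := rec6poly (mP1 r t r' t') (mP2 r t r' t') (mP3 r t r' t') (mP4 r t r' t') (mP5 r t r' t') r t r' t'
def mP8 (r t r' t' : ℝ) : ℝ := rec6poly (mP2 r t r' t') (mP3 r t r' t') (mP4 r t r' t') (mP5 r t r' t') (mP6 r t r' t') r t r' t'
def mN6 (r t r' t' : ℝ) : ℝ := rec6poly (mN0 r t r' t') (mN1 r t r' t') (mN2 r t r' t') (mN3 r t r' t') (mN4 r t r' t') r t r' t'
def mNN6 (r t r' t' : ℝ) : ℝ := rec6poly (mNN0 r t r' t') (mNN1 r t r' t') (mNN2 r t r' t') (mNN3 r t r' t') (mNN4 r t r' t') r t r' t'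
def mNN7 (r t r' t' : ℝ) : ℝ := rec6poly (mNN1 r t r' t') (mNN2 r t r' t') (mNN3 r t r' t') (mNN4 r t r' t') (mNN5 r t r' t') r t r' t'
def mNN8 (r t r' t' : ℝ) : ℝ := rec6poly (mNN2 r t r' t') (mNN3 r t r' t') (mNN4 r t r' t') (mNN5 r t r' t') (mNN6 r t r' t') r t r' t'

theorem mom_mP6 (u v u' v' : ℝ) :
    perm6 (fun b0 b1 b2 => (Zf (xa u v) (xb u v) (xc u v) b0 b1 b2 - 1) ^ 6) (xa u' v') (xb u' v') (xc u' v') =
      6 * mP6 (rU u v) (tU u v) (rU u' v') (tU u' v') := by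
  have h := rec6 (fun _ _ _ => 1) 0 u v u' v'
  simp only [one_mul, zero_add, Nat.reduceAdd] at h
  rw [h, mom_mP4, mom_mP3, mom_mP2, mom_mP1, mom_mP0]
  simp only [mP6, rec6poly]
  ring

theorem mom_mP7 (u v u' v' : ℝ) :
    perm6 (fun b0 b1 b2 => (Zf (xa u v) (xb u v) (xc u v) b0 b1 b2 - 1) ^ 7) (xa u' v') (xb u' v') (xc u' v') =
      6 * mP7 (rU u v) (tU u v) (rU u' v') (tU u' v') := by
  have h := rec6 (fun _ _ _ => 1) 1 u v u' v'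
  simp only [one_mul, zero_add, Nat.reduceAdd] at h
  rw [h, mom_mP5, mom_mP4, mom_mP3, mom_mP2, mom_mP1]
  simp only [mP7, rec6poly]
  ring

theorem mom_mP8 (u v u' v' : ℝ) :
    perm6 (fun b0 b1 b2 => (Zf (xa u v) (xb u v) (xc u v) b0 b1 b2 - 1) ^ 8) (xa u' v') (xb u' v') (xc u' v') =
      6 * mP8 (rU u v) (tU u v) (rU u' v') (tU u' v') := by
  have h := rec6 (fun _ _ _ => 1) 2 u v u' v'
  simp only [one_mul, zero_add, Nat.reduceAdd] at h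
  rw [h, mom_mP6, mom_mP5, mom_mP4, mom_mP3, mom_mP2]
  simp only [mP8, rec6poly]
  ring

theorem mom_mN6 (u v u' v' : ℝ) :
    perm6 (fun b0 b1 b2 => Nf (xa u v) (xb u v) (xc u v) b0 b1 b2 * (Zf (xa u v) (xb u v) (xc u v) b0 b1 b2 - 1) ^ 6) (xa u' v') (xb u' v') (xc u' v') =
      6 * mN6 (rU u v) (tU u v) (rU u' v') (tU u' v') := by
  have h := rec6 (fun b0 b1 b2 => Nf (xa u v) (xb u v) (xc u v) b0 b1 b2) 0 u v u' v'
  simp only [zero_add, Nat.reduceAdd] at h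
  rw [h, mom_mN4, mom_mN3, mom_mN2, mom_mN1, mom_mN0]
  simp only [mN6, rec6poly]
  ring

theorem mom_mNN6 (u v u' v' : ℝ) :
    perm6 (fun b0 b1 b2 => Nf (xa u v) (xb u v) (xc u v) b0 b1 b2 ^ 2 * (Zf (xa u v) (xb u v) (xc u v) b0 b1 b2 - 1) ^ 6) (xa u' v') (xb u' v') (xc u' v') =
      6 * mNN6 (rU u v) (tU u v) (rU u' v') (tU u' v') := by
  have h := rec6 (fun b0 b1 b2 => Nf (xa u v) (xb u v) (xc u v) b0 b1 b2 ^ 2) 0 u v u' v'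
  simp only [zero_add, Nat.reduceAdd] at h
  rw [h, mom_mNN4, mom_mNN3, mom_mNN2, mom_mNN1, mom_mNN0]
  simp only [mNN6, rec6poly]
  ring

theorem mom_mNN7 (u v u' v' : ℝ) :
    perm6 (fun b0 b1 b2 => Nf (xa u v) (xb u v) (xc u v) b0 b1 b2 ^ 2 * (Zf (xa u v) (xb u v) (xc u v) b0 b1 b2 - 1) ^ 7) (xa u' v') (xb u' v') (xc u' v') =
      6 * mNN7 (rU u v) (tU u v) (rU u' v') (tU u' v') := by
  have h := rec6 (fun b0 b1 b2 => Nf (xa u v) (xb u v) (xc u v) b0 b1 b2 ^ 2) 1 u v u' v'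
  simp only [zero_add, Nat.reduceAdd] at h
  rw [h, mom_mNN5, mom_mNN4, mom_mNN3, mom_mNN2, mom_mNN1]
  simp only [mNN7, rec6poly]
  ring

theorem mom_mNN8 (u v u' v' : ℝ) :
    perm6 (fun b0 b1 b2 => Nf (xa u v) (xb u v) (xc u v) b0 b1 b2 ^ 2 * (Zf (xa u v) (xb u v) (xc u v) b0 b1 b2 - 1) ^ 8) (xa u' v') (xb u' v') (xc u' v') =
      6 * mNN8 (rU u v) (tU u v) (rU u' v') (tU u' v') := by
  have h := rec6 (fun b0 b1 b2 => Nf (xa u v) (xb u v) (xc u v) b0 b1 b2 ^ 2) 2 u v u' v'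
  simp only [zero_add, Nat.reduceAdd] at h
  rw [h, mom_mNN6, mom_mNN5, mom_mNN4, mom_mNN3, mom_mNN2]
  simp only [mNN8, rec6poly]
  ring

def xiF (r t : ℝ) : ℝ := 2 / 5 * r + 2 * t - 2 * r ^ 2
def rhoF (r t : ℝ) : ℝ := (4101/4096) * r + (-2437/4096) * r ^ 2 + (-277/1024) * t

def Psi2 (r t r' t' : ℝ) : ℝ :=
  17 / 5 * (1 * mN0 r t r' t' + (-1) * mN1 r t r' t' + (530561/1048576) * mN2 r t r' t' + (86749/131072) * mN3 r t r' t' + (-1584449/1048576) * mN4 r t r' t' + (592425/524288) * mN5 r t r' t' + (-175779/524288) * mN6 r t r' t')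
    - (mP1 r t r' t' + mP0 r t r' t')
    - 2 * (1 * mNN0 r t r' t' + (-3) * mNN1 r t r' t' + (2789813/524288) * mNN2 r t r' t' + (-6586835/1048576) * mNN3 r t r' t' + (5139779/1048576) * mNN4 r t r' t' + (-2601277/1048576) * mNN5 r t r' t' + (822651/1048576) * mNN6 r t r' t' + (-307/2048) * mNN7 r t r' t' + (13443/1048576) * mNN8 r t r' t')
    + (1 - 3 * r + 2 * t) * (1 - 3 * r' + 2 * t') * (1 * mP0 r t r' t' + (-2) * mP1 r t r' t' + (1170139/524288) * mP2 r t r' t' + (-3745233/1048576) * mP3 r t r' t' + (1491291/1048576) * mP4 r t r' t')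

def Psi1 (r t r' t' : ℝ) : ℝ :=
  mP0 r t r' t' + mP1 r t r' t' - (1 * (mP0 r t r' t' + 2 * mP1 r t r' t' + mP2 r t r' t' - mN0 r t r' t') + (-1) * (mP1 r t r' t' + 2 * mP2 r t r' t' + mP3 r t r' t' - mN1 r t r' t') + (1877/2048) * (mP2 r t r' t' + 2 * mP3 r t r' t' + mP4 r t r' t' - mN2 r t r' t') + (-2913/4096) * (mP3 r t r' t' + 2 * mP4 r t r' t' + mP5 r t r' t' - mN3 r t r' t') + (1667/4096) * (mP4 r t r' t' + 2 * mP5 r t r' t' + mP6 r t r' t' - mN4 r t r' t') + (-659/4096) * (mP5 r t r' t' + 2 * mP6 r t r' t' + mP7 r t r' t' - mN5 r t r' t') + (127/4096) * (mP6 r t r' t' + 2 * mP7 r t r' t' + mP8 r t r' t' - mN6 r t r' t'))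

theorem gg_eq (u v u' v' : ℝ) :
    729 * (xa u v * xb u v * xc u v * (xa u' v' * xb u' v' * xc u' v')) =
      (1 - 3 * rU u v + 2 * tU u v) * (1 - 3 * rU u' v' + 2 * tU u' v') := by
  simp only [xa, xb, xc, rU, tU]
  ring

theorem perm6_Wf_split (u v u' v' : ℝ) :
    perm6 (Wf (xa u v) (xb u v) (xc u v)) (xa u' v') (xb u' v') (xc u' v') =
      17 / 5 * (1 * (perm6 (fun b0 b1 b2 => Nf (xa u v) (xb u v) (xc u v) b0 b1 b2 * (Zf (xa u v) (xb u v) (xc u v) b0 b1 b2 - 1) ^ 0) (xa u' v') (xb u' v') (xc u' v')) + (-1) * (perm6 (fun b0 b1 b2 => Nf (xa u v) (xb u v) (xc u v) b0 b1 b2 * (Zf (xa u v) (xb u v) (xc u v) b0 b1 b2 - 1) ^ 1) (xa u' v') (xb u' v') (xc u' v')) + (530561/1048576) * (perm6 (fun b0 b1 b2 => Nf (xa u v) (xb u v) (xc u v) b0 b1 b2 * (Zf (xa u v) (xb u v) (xc u v) b0 b1 b2 - 1) ^ 2) (xa u' v') (xb u' v') (xc u' v')) + (86749/131072)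 * (perm6 (fun b0 b1 b2 => Nf (xa u v) (xb u v) (xc u v) b0 b1 b2 * (Zf (xa u v) (xb u v) (xc u v) b0 b1 b2 - 1) ^ 3) (xa u' v') (xb u' v') (xc u' v')) + (-1584449/1048576) * (perm6 (fun b0 b1 b2 => Nf (xa u v) (xb u v) (xc u v) b0 b1 b2 * (Zf (xa u v) (xb u v) (xc u v) b0 b1 b2 - 1) ^ 4) (xa u' v') (xb u' v') (xc u' v')) + (592425/524288) * (perm6 (fun b0 b1 b2 => Nf (xa u v) (xb u v) (xc u v) b0 b1 b2 * (Zf (xa u v) (xb u v) (xc u v) b0 b1 b2 - 1) ^ 5) (xa u' v') (xb u' v') (xc u' v')) + (-175779/524288) * (perm6 (fun b0 b1 b2 => Nf (xa u v) (xb u v) (xc u v) b0 b1 b2 * (Zf (xa u v) (xb u v) (xc u v) b0 b1 b2 - 1) ^ 6) (xa u' v') (xb u' v') (xc u' v')))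
      - (perm6 (fun b0 b1 b2 => (Zf (xa u v) (xb u v) (xc u v) b0 b1 b2 - 1) ^ 1) (xa u' v') (xb u' v') (xc u' v') + perm6 (fun b0 b1 b2 => (Zf (xa u v) (xb u v) (xc u v) b0 b1 b2 - 1) ^ 0) (xa u' v') (xb u' v') (xc u' v'))
      - 2 * (1 * (perm6 (fun b0 b1 b2 => Nf (xa u v) (xb u v) (xc u v) b0 b1 b2 ^ 2 * (Zf (xa u v) (xb u v) (xc u v) b0 b1 b2 - 1) ^ 0) (xa u' v') (xb u' v') (xc u' v')) + (-3) * (perm6 (fun b0 b1 b2 => Nf (xa u v) (xb u v) (xc u v) b0 b1 b2 ^ 2 * (Zf (xa u v) (xb u v) (xc u v) b0 b1 b2 - 1) ^ 1) (xa u' v') (xb u' v') (xc u' v')) + (2789813/524288) * (perm6 (fun b0 b1 b2 => Nf (xa u v) (xb u v) (xc u v) b0 b1 b2 ^ 2 * (Zf (xa u v) (xb u v) (xc u v) b0 b1 b2 - 1) ^ 2) (xa u' v') (xb u' v') (xc u' v')) + (-6586835/1048576) * (perm6 (fun b0 b1 b2 => Nf (xa u v) (xb u v) (xc u v) b0 b1 b2 ^ 2 * (Zf (xa u v) (xb u v) (xc u v) b0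 b1 b2 - 1) ^ 3) (xa u' v') (xb u' v') (xc u' v')) + (5139779/1048576) * (perm6 (fun b0 b1 b2 => Nf (xa u v) (xb u v) (xc u v) b0 b1 b2 ^ 2 * (Zf (xa u v) (xb u v) (xc u v) b0 b1 b2 - 1) ^ 4) (xa u' v') (xb u' v') (xc u' v')) + (-2601277/1048576) * (perm6 (fun b0 b1 b2 => Nf (xa u v) (xb u v) (xc u v) b0 b1 b2 ^ 2 * (Zf (xa u v) (xb u v) (xc u v) b0 b1 b2 - 1) ^ 5) (xa u' v') (xb u' v') (xc u' v')) + (822651/1048576) * (perm6 (fun b0 b1 b2 => Nf (xa u v) (xb u v) (xc u v) b0 b1 b2 ^ 2 * (Zf (xa u v) (xb u v) (xc u v) b0 b1 b2 - 1) ^ 6) (xa u' v') (xb u' v') (xc u' v')) + (-307/2048) * (perm6 (fun b0 b1 b2 => Nf (xa u v) (xb u v) (xc u v) b0 b1 b2 ^ 2 * (Zf (xa u v) (xb u v) (xc u v) b0 b1 b2 - 1) ^ 7) (xa u' v') (xb u' v') (xc u' v')) + (13443/1048576) * (perm6 (fun b0 b1 b2 => Nf (xa u v) (xb u v) (xc u v) b0 b1 b2 ^ 2 * (Zf (xa u v) (xb u v)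 (xc u v) b0 b1 b2 - 1) ^ 8) (xa u' v') (xb u' v') (xc u' v')))
      + 729 * (xa u v * xb u v * xc u v * (xa u' v' * xb u' v' * xc u' v')) * (1 * (perm6 (fun b0 b1 b2 => (Zf (xa u v) (xb u v) (xc u v) b0 b1 b2 - 1) ^ 0) (xa u' v') (xb u' v') (xc u' v')) + (-2) * (perm6 (fun b0 b1 b2 => (Zf (xa u v) (xb u v) (xc u v) b0 b1 b2 - 1) ^ 1) (xa u' v') (xb u' v') (xc u' v')) + (1170139/524288) * (perm6 (fun b0 b1 b2 => (Zf (xa u v) (xb u v) (xc u v) b0 b1 b2 - 1) ^ 2) (xa u' v') (xb u' v') (xc u' v')) + (-3745233/1048576) * (perm6 (fun b0 b1 b2 => (Zf (xa u v) (xb u v) (xc u v) b0 b1 b2 - 1) ^ 3) (xa u' v') (xb u' v') (xc u' v')) + (1491291/1048576) * (perm6 (fun b0 b1 b2 => (Zf (xa u v) (xb u v) (xc u v) b0 b1 b2 - 1) ^ 4) (xa u' v') (xb u' v') (xc u' v'))) := by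
  simp only [perm6, Wf, l1, l2, cc]
  ring

theorem perm6_Wf (u v u' v' : ℝ) :
    perm6 (Wf (xa u v) (xb u v) (xc u v)) (xa u' v') (xb u' v') (xc u' v') = 6 * Psi2 (rU u v) (tU u v) (rU u' v') (tU u' v') := by
  rw [perm6_Wf_split, mom_mN0, mom_mN1, mom_mN2, mom_mN3, mom_mN4, mom_mN5, mom_mN6, mom_mNN0, mom_mNN1, mom_mNN2, mom_mNN3, mom_mNN4, mom_mNN5, mom_mNN6, mom_mNN7, mom_mNN8, mom_mP0, mom_mP1, mom_mP2, mom_mP3, mom_mP4, gg_eq]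
  simp only [Psi2]
  ring

theorem perm6_W1f_split (u v u' v' : ℝ) :
    perm6 (W1f (xa u v) (xb u v) (xc u v)) (xa u' v') (xb u' v') (xc u' v') =
      perm6 (fun b0 b1 b2 => (Zf (xa u v) (xb u v) (xc u v) b0 b1 b2 - 1) ^ 0) (xa u' v') (xb u' v') (xc u' v') + perm6 (fun b0 b1 b2 => (Zf (xa u v) (xb u v) (xc u v) b0 b1 b2 - 1) ^ 1) (xa u' v') (xb u' v') (xc u' v') - (1 * (perm6 (fun b0 b1 b2 => (Zf (xa u v) (xb u v) (xc u v) b0 b1 b2 - 1) ^ 0) (xa u' v') (xb u' v') (xc u' v') + 2 * (perm6 (fun b0 b1 b2 => (Zf (xa u v) (xb u v) (xc u v) b0 b1 b2 - 1) ^ 1) (xa u' v') (xb u' v') (xc u' v')) + perm6 (fun b0 b1 b2 => (Zf (xa u v) (xb u v) (xc u v) b0 b1 b2 - 1) ^ 2) (xa u' v') (xb u' v') (xc u' v') - perm6 (fun b0 b1 b2 => Nf (xa u v) (xb u v) (xc u v) b0 b1 b2 * (Zf (xa u v) (xb u v) (xc u v) b0 b1 b2 - 1) ^ 0) (xa u' v') (xb u' v') (xc u' v')) +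 (-1) * (perm6 (fun b0 b1 b2 => (Zf (xa u v) (xb u v) (xc u v) b0 b1 b2 - 1) ^ 1) (xa u' v') (xb u' v') (xc u' v') + 2 * (perm6 (fun b0 b1 b2 => (Zf (xa u v) (xb u v) (xc u v) b0 b1 b2 - 1) ^ 2) (xa u' v') (xb u' v') (xc u' v')) + perm6 (fun b0 b1 b2 => (Zf (xa u v) (xb u v) (xc u v) b0 b1 b2 - 1) ^ 3) (xa u' v') (xb u' v') (xc u' v') - perm6 (fun b0 b1 b2 => Nf (xa u v) (xb u v) (xc u v) b0 b1 b2 * (Zf (xa u v) (xb u v) (xc u v) b0 b1 b2 - 1) ^ 1) (xa u' v') (xb u' v') (xc u' v')) + (1877/2048) * (perm6 (fun b0 b1 b2 => (Zf (xa u v) (xb u v) (xc u v) b0 b1 b2 - 1) ^ 2) (xa u' v') (xb u' v') (xc u' v') + 2 * (perm6 (fun b0 b1 b2 => (Zf (xa u v) (xb u v) (xc u v) b0 b1 b2 - 1) ^ 3) (xa u' v') (xb u' v') (xc u' v')) + perm6 (fun b0 b1 b2 => (Zf (xa u v) (xb u v) (xc u v) b0 b1 b2 - 1) ^ 4) (xa u' v') (xb u' v') (xc u' v') - perm6 (fun b0 b1 b2 =>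 Nf (xa u v) (xb u v) (xc u v) b0 b1 b2 * (Zf (xa u v) (xb u v) (xc u v) b0 b1 b2 - 1) ^ 2) (xa u' v') (xb u' v') (xc u' v')) + (-2913/4096) * (perm6 (fun b0 b1 b2 => (Zf (xa u v) (xb u v) (xc u v) b0 b1 b2 - 1) ^ 3) (xa u' v') (xb u' v') (xc u' v') + 2 * (perm6 (fun b0 b1 b2 => (Zf (xa u v) (xb u v) (xc u v) b0 b1 b2 - 1) ^ 4) (xa u' v') (xb u' v') (xc u' v')) + perm6 (fun b0 b1 b2 => (Zf (xa u v) (xb u v) (xc u v) b0 b1 b2 - 1) ^ 5) (xa u' v') (xb u' v') (xc u' v') - perm6 (fun b0 b1 b2 => Nf (xa u v) (xb u v) (xc u v) b0 b1 b2 * (Zf (xa u v) (xb u v) (xc u v) b0 b1 b2 - 1) ^ 3) (xa u' v') (xb u' v') (xc u' v')) + (1667/4096) * (perm6 (fun b0 b1 b2 => (Zf (xa u v) (xb u v) (xc u v) b0 b1 b2 - 1) ^ 4) (xa u' v') (xb u' v') (xc u' v') + 2 * (perm6 (fun b0 b1 b2 => (Zf (xa u v) (xb u v) (xc u v) b0 b1 b2 - 1) ^ 5) (xa u' v') (xb u' v') (xc u' v'))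 + perm6 (fun b0 b1 b2 => (Zf (xa u v) (xb u v) (xc u v) b0 b1 b2 - 1) ^ 6) (xa u' v') (xb u' v') (xc u' v') - perm6 (fun b0 b1 b2 => Nf (xa u v) (xb u v) (xc u v) b0 b1 b2 * (Zf (xa u v) (xb u v) (xc u v) b0 b1 b2 - 1) ^ 4) (xa u' v') (xb u' v') (xc u' v')) + (-659/4096) * (perm6 (fun b0 b1 b2 => (Zf (xa u v) (xb u v) (xc u v) b0 b1 b2 - 1) ^ 5) (xa u' v') (xb u' v') (xc u' v') + 2 * (perm6 (fun b0 b1 b2 => (Zf (xa u v) (xb u v) (xc u v) b0 b1 b2 - 1) ^ 6) (xa u' v') (xb u' v') (xc u' v')) + perm6 (fun b0 b1 b2 => (Zf (xa u v) (xb u v) (xc u v) b0 b1 b2 - 1) ^ 7) (xa u' v') (xb u' v') (xc u' v') - perm6 (fun b0 b1 b2 => Nf (xa u v) (xb u v) (xc u v) b0 b1 b2 * (Zf (xa u v) (xb u v) (xc u v) b0 b1 b2 - 1) ^ 5) (xa u' v') (xb u' v') (xc u' v')) + (127/4096) * (perm6 (fun b0 b1 b2 => (Zf (xa u v) (xb u v) (xc u v) b0 b1 b2 - 1) ^ 6) (xa u' v') (xb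 u' v') (xc u' v') + 2 * (perm6 (fun b0 b1 b2 => (Zf (xa u v) (xb u v) (xc u v) b0 b1 b2 - 1) ^ 7) (xa u' v') (xb u' v') (xc u' v')) + perm6 (fun b0 b1 b2 => (Zf (xa u v) (xb u v) (xc u v) b0 b1 b2 - 1) ^ 8) (xa u' v') (xb u' v') (xc u' v') - perm6 (fun b0 b1 b2 => Nf (xa u v) (xb u v) (xc u v) b0 b1 b2 * (Zf (xa u v) (xb u v) (xc u v) b0 b1 b2 - 1) ^ 6) (xa u' v') (xb u' v') (xc u' v'))) := by
  simp only [perm6, W1f, ell]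
  ring

theorem perm6_W1f (u v u' v' : ℝ) :
    perm6 (W1f (xa u v) (xb u v) (xc u v)) (xa u' v') (xb u' v') (xc u' v') = 6 * Psi1 (rU u v) (tU u v) (rU u' v') (tU u' v') := by
  rw [perm6_W1f_split, mom_mN0, mom_mN1, mom_mN2, mom_mN3, mom_mN4, mom_mN5, mom_mN6, mom_mP0, mom_mP1, mom_mP2, mom_mP3, mom_mP4, mom_mP5, mom_mP6, mom_mP7, mom_mP8]
  simp only [Psi1]
  ring

/-- what must be nonnegative for `N2` -/
def Phi2 (r t r' t' : ℝ) : ℝ :=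
  Psi2 r t r' t' - (1 - 3 * r' + 2 * t') ^ 2 * xiF r t - (1 - 3 * r + 2 * t) ^ 2 * xiF r' t'

/-- what must be nonnegative for `N1` -/
def Phi1 (r t r' t' : ℝ) : ℝ :=
  r + r' - Psi1 r t r' t' - rhoF r' t' * xiF r t - rhoF r t * xiF r' t' -
    (1/20) * (r * r' * (r + r'))

end Crest.Agent.PottsTree.CertQ3

end
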