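import Crest.Agent.Lib.PottsTree.LatDigit

/-!
# Fast sign checks of bilinear forms

A table of integers `t k b` (`k < K` rows, `b < A` cells) is stored as two bignums per row, the positive
and the negative parts of the digits in base `2 ^ W`.  To see that all the entries of `Tᵀ M T` are
nonnegative one only multiplies bignums by small numbers, and all the digit signs of a column are read
at once by an `AND` with a mask: `O(K² + K A)` bignum operations instead of `K A²` integer operations.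
Example (benchmark): `K = 60`, `A = 969`, `W = 114`: 23 s of kernel time (cut in several theorems if the
memory matters: the whnf cache of the kernel keeps all the intermediate bignums, 11 GB in this example).

Use: `checkT`, `zRow`, `checkCols`, and `bil_nonneg_fast` at the end.  The big literals should be written
`nat_lit 0x...`; the elaborator is much slower on plain numerals.
-/

set_option autoImplicit false

noncomputable section

namespace Crest.Agent.PottsTree.KronBil

open Finset Crest.Agent.PottsTree.Lat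

/-! ### Definitions -/

/-- signed value of a packed row at a cell -/
def tv (W : ℕ) (p : ℕ × ℕ) (b : ℕ) : ℤ := (dg W p.1 b : ℤ) - dg W p.2 b

/-- the values of the rows at a cell -/
def colv (W : ℕ) (T : List (ℕ × ℕ)) (b : ℕ) : List ℤ := T.map fun p => tv W p b

/-- `∑ c_i v_i` truncated to the shorter list -/
def dot : List ℤ → List ℤ → ℤ
  | c :: cs, v :: vs => c * v + dot cs vs
  | _, _ => 0

/-- positive part of `∑ c_k E(T_k)`, `E p = p.1 - p.2` -/
def rowP (cs : List ℤ) (ps : List (ℕ × ℕ)) : ℕ :=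
  List.rec (motive := fun _ => List (ℕ × ℕ) → ℕ) (fun _ => 0)
    (fun c _ ih ps => List.rec (motive := fun _ => ℕ) 0
      (fun p qs _ => Int.rec (motive := fun _ => ℕ) (fun m => Nat.add (Nat.mul m p.1) (ih qs))
        (fun m => Nat.add (Nat.mul (Nat.succ m) p.2) (ih qs)) c) ps) cs ps

/-- negative part of `∑ c_k E(T_k)` -/
def rowN (cs : List ℤ) (ps : List (ℕ × ℕ)) : ℕ :=
  List.rec (motive := fun _ => List (ℕ × ℕ) → ℕ) (fun _ => 0)
    (fun c _ ih ps => List.rec (motive := fun _ => ℕ) 0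
      (fun p qs _ => Int.rec (motive := fun _ => ℕ) (fun m => Nat.add (Nat.mul m p.2) (ih qs))
        (fun m => Nat.add (Nat.mul (Nat.succ m) p.1) (ih qs)) c) ps) cs ps

/-- the guard: `2 ^ (W - 1)` in all the digits below `A` -/
def guard (W A : ℕ) : ℕ := 2 ^ (W - 1) * ((2 ^ (W * A) - 1) / (2 ^ W - 1))

/-- offset packing of `∑ c_k E(T_k)` -/
def zRow (G : ℕ) (c : List ℤ) (T : List (ℕ × ℕ)) : ℕ :=
  Nat.sub (Nat.add G (rowP c T)) (rowN c T)

/-- the signed digit of an offset-packed row -/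
def sdg (W : ℕ) (Z a : ℕ) : ℤ :=
  Bool.rec (Int.negSucc (Nat.pred (Nat.sub (Nat.pow 2 (Nat.pred W))
      (Nat.mod (Nat.shiftRight Z (Nat.mul W a)) (Nat.pow 2 W)))))
    (Int.ofNat (Nat.sub (Nat.mod (Nat.shiftRight Z (Nat.mul W a)) (Nat.pow 2 W))
      (Nat.pow 2 (Nat.pred W))))
    (Nat.ble (Nat.pow 2 (Nat.pred W)) (Nat.mod (Nat.shiftRight Z (Nat.mul W a)) (Nat.pow 2 W)))

/-- all the entries of the column `a` are nonnegative -/
def checkCol (W G : ℕ) (Zs : List ℕ) (T : List (ℕ × ℕ)) (a : ℕ) : Bool :=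
  Nat.beq (Nat.land (zRow G (Zs.map (sdg W · a)) T) G) G

/-- columns `lo, ..., lo + n - 1` -/
def checkCols (W G : ℕ) (Zs : List ℕ) (T : List (ℕ × ℕ)) (lo n : ℕ) : Bool :=
  Nat.rec (motive := fun _ => Bool) true
    (fun n ih => Bool.rec false ih (checkCol W G Zs T (Nat.add lo n))) n

/-- the sum of absolute values -/
def l1 : List ℤ → ℕ
  | [] => 0
  | c :: cs => c.natAbs + l1 cs

/-- the sum of the absolute values of the entries of `M` -/
def l11 : List (List ℤ) → ℕ
  | [] => 0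
  | r :: rs => l1 r + l11 rs

/-- the mask of the digits `≥ 2 ^ u`, on the cells below `A` -/
def highMask (W u A : ℕ) : ℕ := (2 ^ W - 2 ^ u) * ((2 ^ (W * A) - 1) / (2 ^ W - 1))

/-- bounds for a table: all the cells below `A` (and no other one), digits below `2 ^ u` -/
def checkT (W u A : ℕ) (T : List (ℕ × ℕ)) : Bool :=
  T.all fun p => Nat.ble (Nat.succ p.1) (2 ^ (W * A)) && Nat.ble (Nat.succ p.2) (2 ^ (W * A)) &&
    Nat.beq (Nat.land p.1 (highMask W u A)) 0 && Nat.beq (Nat.land p.2 (highMask W u A)) 0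

/-! ### `rowP`, `rowN` -/

@[simp] lemma rowP_nil (ps : List (ℕ × ℕ)) : rowP [] ps = 0 := rfl
@[simp] lemma rowN_nil (ps : List (ℕ × ℕ)) : rowN [] ps = 0 := rfl
@[simp] lemma rowP_nil' (cs : List ℤ) : rowP cs [] = 0 := by cases cs <;> rfl
@[simp] lemma rowN_nil' (cs : List ℤ) : rowN cs [] = 0 := by cases cs <;> rfl

lemma rowP_cons_ofNat (m : ℕ) (cs : List ℤ) (p : ℕ × ℕ) (ps : List (ℕ × ℕ)) :
    rowP (Int.ofNat m :: cs) (p :: ps) = m * p.1 + rowP cs ps := rfl
lemma rowP_cons_negSucc (m : ℕ) (cs : List ℤ) (p : ℕ × ℕ) (ps : List (ℕ × ℕ)) :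
    rowP (Int.negSucc m :: cs) (p :: ps) = (m + 1) * p.2 + rowP cs ps := rfl
lemma rowN_cons_ofNat (m : ℕ) (cs : List ℤ) (p : ℕ × ℕ) (ps : List (ℕ × ℕ)) :
    rowN (Int.ofNat m :: cs) (p :: ps) = m * p.2 + rowN cs ps := rfl
lemma rowN_cons_negSucc (m : ℕ) (cs : List ℤ) (p : ℕ × ℕ) (ps : List (ℕ × ℕ)) :
    rowN (Int.negSucc m :: cs) (p :: ps) = (m + 1) * p.1 + rowN cs ps := rfl

/-- the integer represented by a pair -/
def E (p : ℕ × ℕ) : ℤ := (p.1 : ℤ) - p.2

lemma rowP_sub_rowN (c : List ℤ) (T : List (ℕ × ℕ)) :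
    (rowP c T : ℤ) - rowN c T = dot c (T.map E) := by
  induction c generalizing T with
  | nil => simp [dot]
  | cons a as ih =>
    cases T with
    | nil => simp [dot]
    | cons p ps =>
      have h := ih ps
      cases a with
      | ofNat m =>
        simp only [rowP_cons_ofNat, rowN_cons_ofNat, List.map_cons, dot, ← h, E]
        push_cast
        simp only [Int.ofNat_eq_natCast]
        ring
      | negSucc m =>
        simp only [rowP_cons_negSucc, rowN_cons_negSucc, List.map_cons, dot, ← h, E]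
        push_cast
        rw [Int.negSucc_eq]
        ring

/-! ### Digits -/

lemma E_eq_sum {W A : ℕ} {p : ℕ × ℕ} (h1 : p.1 < 2 ^ (W * A)) (h2 : p.2 < 2 ^ (W * A)) :
    E p = ∑ b ∈ range A, tv W p b * (2 ^ W : ℤ) ^ b := by
  have e1 := eq_sum_dg h1
  have e2 := eq_sum_dg h2
  have c1 : (p.1 : ℤ) = ∑ j ∈ range A, (dg W p.1 j : ℤ) * (2 ^ W : ℤ) ^ j := by
    conv_lhs => rw [e1]
    push_cast
    exact Finset.sum_congr rfl fun j _ => by rw [pow_mul]
  have c2 : (p.2 : ℤ) = ∑ j ∈ range A, (dg W p.2 j : ℤ) * (2 ^ W : ℤ) ^ j := by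
    conv_lhs => rw [e2]
    push_cast
    exact Finset.sum_congr rfl fun j _ => by rw [pow_mul]
  simp only [E, tv]
  rw [c1, c2, ← Finset.sum_sub_distrib]
  exact Finset.sum_congr rfl fun j _ => by ring

lemma dot_map_E {W A : ℕ} (c : List ℤ) (T : List (ℕ × ℕ))
    (h : ∀ p ∈ T, p.1 < 2 ^ (W * A) ∧ p.2 < 2 ^ (W * A)) :
    dot c (T.map E) = ∑ b ∈ range A, dot c (colv W T b) * (2 ^ W : ℤ) ^ b := by
  induction c generalizing T with
  | nil => simp [dot]
  | cons a as ih =>
    cases T with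
    | nil => simp [dot, colv]
    | cons p ps =>
      have h0 := h p (by simp)
      have h1 := ih ps fun q hq => h q (by simp [hq])
      simp only [List.map_cons, dot, colv] at h1 ⊢
      rw [h1, E_eq_sum h0.1 h0.2, Finset.mul_sum, ← Finset.sum_add_distrib]
      exact Finset.sum_congr rfl fun j _ => by ring

lemma guard_eq {W : ℕ} (hW : 0 < W) (A : ℕ) :
    guard W A = ∑ b ∈ range A, 2 ^ (W - 1) * 2 ^ (W * b) := by
  cases A with
  | zero => simp [guard]
  | succ A =>
    have h := ones_eq hW 0 A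
    simp only [ones, mul_zero, pow_zero] at h
    simp only [guard]
    rw [h, Finset.mul_sum]
    simp [Nat.Ico_zero_eq_range]

lemma highMask_eq {W : ℕ} (hW : 0 < W) (u A : ℕ) :
    highMask W u A = ∑ b ∈ range A, (2 ^ W - 2 ^ u) * 2 ^ (W * b) := by
  cases A with
  | zero => simp [highMask]
  | succ A =>
    have h := ones_eq hW 0 A
    simp only [ones, mul_zero, pow_zero] at h
    simp only [highMask]
    rw [h, Finset.mul_sum]
    simp [Nat.Ico_zero_eq_range]

lemma dg_guard {W A b : ℕ} (hW : 0 < W) (hb : b < A) : dg W (guard W A) b = 2 ^ (W - 1) := by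
  have h := dg_of_sum (s := W) A (fun _ => 2 ^ (W - 1)) (fun n _ =>
    Nat.pow_lt_pow_right (by norm_num) (by omega)) b
  rw [guard_eq hW, h, if_pos hb]

lemma dg_highMask {W u A b : ℕ} (hW : 0 < W) (hu : u ≤ W) (hb : b < A) :
    dg W (highMask W u A) b = 2 ^ W - 2 ^ u := by
  have h := dg_of_sum (s := W) A (fun _ => 2 ^ W - 2 ^ u) (fun n _ => by
    have : 0 < 2 ^ u := by positivity
    have : 0 < 2 ^ W := by positivity
    omega) b
  rw [highMask_eq hW, h, if_pos hb]

/-- **Signed digits**: an offset `c = 2 ^ (W - 1)` makes all the digits of a small signed sum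
nonnegative. -/
lemma signed_digits {W A : ℕ} (hW : 0 < W) (f : ℕ → ℤ) (hf : ∀ b < A, |f b| < 2 ^ (W - 1))
    (Z : ℕ) (hZ : (Z : ℤ) = guard W A + ∑ b ∈ range A, f b * (2 ^ W : ℤ) ^ b) (b : ℕ) (hb : b < A) :
    (dg W Z b : ℤ) = 2 ^ (W - 1) + f b := by
  have hc : (2 : ℤ) ^ W = 2 * 2 ^ (W - 1) := by
    rw [← pow_succ']
    congr 1
    omega
  set e : ℕ → ℕ := fun b => ((2 : ℤ) ^ (W - 1) + f b).toNat with he
  have he0 : ∀ b < A, ((e b : ℕ) : ℤ) = 2 ^ (W - 1) + f b := by
    intro b hb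
    simp only [he]
    rw [Int.toNat_of_nonneg]
    have := abs_lt.1 (hf b hb)
    linarith [this.1]
  have he1 : ∀ n < A, e n < 2 ^ W := by
    intro n hn
    have h1 := he0 n hn
    have := abs_lt.1 (hf n hn)
    have h2 : ((e n : ℕ) : ℤ) < 2 ^ W := by
      rw [h1, hc]
      linarith [this.2]
    exact_mod_cast h2
  have key : Z = ∑ j ∈ range A, e j * 2 ^ (W * j) := by
    zify
    rw [hZ, guard_eq hW]
    push_cast
    rw [← Finset.sum_add_distrib]
    refine Finset.sum_congr rfl fun j hj => ?_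
    rw [he0 j (Finset.mem_range.1 hj), pow_mul]
    ring
  rw [key, dg_of_sum A e he1, if_pos hb, he0 b hb]

/-- the value of an offset-packed row -/
lemma zRow_eq {W A : ℕ} (hW : 0 < W) (c : List ℤ) (T : List (ℕ × ℕ))
    (h : ∀ p ∈ T, p.1 < 2 ^ (W * A) ∧ p.2 < 2 ^ (W * A))
    (hf : ∀ b < A, |dot c (colv W T b)| < 2 ^ (W - 1)) :
    ((zRow (guard W A) c T : ℕ) : ℤ) =
      guard W A + ∑ b ∈ range A, dot c (colv W T b) * (2 ^ W : ℤ) ^ b := by
  have h1 := rowP_sub_rowN c T
  rw [dot_map_E c T h] at h1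
  have hnn : 0 ≤ (guard W A : ℤ) + ∑ b ∈ range A, dot c (colv W T b) * (2 ^ W : ℤ) ^ b := by
    rw [guard_eq hW]
    push_cast
    rw [← Finset.sum_add_distrib]
    refine Finset.sum_nonneg fun j hj => ?_
    have h2 := abs_lt.1 (hf j (Finset.mem_range.1 hj))
    have e : (2 : ℤ) ^ (W - 1) * 2 ^ (W * j) + dot c (colv W T j) * (2 ^ W) ^ j =
        ((2 : ℤ) ^ (W - 1) + dot c (colv W T j)) * (2 ^ W) ^ j := by
      rw [pow_mul]
      ring
    rw [e]
    have : 0 ≤ (2 : ℤ) ^ (W - 1) + dot c (colv W T j) := by linarith [h2.1]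
    positivity
  have hle : rowN c T ≤ guard W A + rowP c T := by
    zify
    linarith
  simp only [zRow, show ∀ a b : ℕ, Nat.sub a b = a - b from fun _ _ => rfl,
    show ∀ a b : ℕ, Nat.add a b = a + b from fun _ _ => rfl]
  push_cast [Nat.cast_sub hle]
  linarith

lemma sdg_eq {W : ℕ} (hW : 0 < W) (Z a : ℕ) :
    sdg W Z a = (dg W Z a : ℤ) - 2 ^ (W - 1) := by
  have hd : Nat.mod (Nat.shiftRight Z (Nat.mul W a)) (Nat.pow 2 W) = dg W Z a := by
    change (Z >>> (W * a)) % 2 ^ W = Z / 2 ^ (W * a) % 2 ^ W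
    rw [Nat.shiftRight_eq_div_pow]
  have hp : Nat.pow 2 (Nat.pred W) = 2 ^ (W - 1) := rfl
  simp only [sdg, hd, hp]
  cases hb : Nat.ble (2 ^ (W - 1)) (dg W Z a) with
  | true =>
    have h1 : 2 ^ (W - 1) ≤ dg W Z a := Nat.le_of_ble_eq_true hb
    simp only [Int.ofNat_eq_natCast]
    rw [show Nat.sub (dg W Z a) (2 ^ (W - 1)) = dg W Z a - 2 ^ (W - 1) from rfl]
    push_cast [Nat.cast_sub h1]
    ring
  | false =>
    have h1 : ¬ 2 ^ (W - 1) ≤ dg W Z a := fun h => by
      rw [Nat.ble_eq_true_of_le h] at hb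
      exact absurd hb (by simp)
    rw [not_le] at h1
    rw [Int.negSucc_eq]
    rw [show Nat.sub (2 ^ (W - 1)) (dg W Z a) = 2 ^ (W - 1) - dg W Z a from rfl]
    have h2 : 0 < 2 ^ (W - 1) - dg W Z a := Nat.sub_pos_of_lt h1
    rw [show Nat.pred (2 ^ (W - 1) - dg W Z a) = 2 ^ (W - 1) - dg W Z a - 1 from rfl]
    have h3 : ((2 ^ (W - 1) - dg W Z a - 1 : ℕ) : ℤ) + 1 = 2 ^ (W - 1) - dg W Z a := by
      have : ((2 ^ (W - 1) - dg W Z a - 1 : ℕ) : ℤ) = ((2 ^ (W - 1) - dg W Z a : ℕ) : ℤ) - 1 := by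
        push_cast [Nat.cast_sub (Nat.succ_le_of_lt h2)]
        ring
      rw [this]
      push_cast [Nat.cast_sub h1.le]
      ring
    rw [h3]
    ring

/-! ### Bounds -/

lemma abs_dot_le (c v : List ℤ) (B : ℤ) (hB : 0 ≤ B) (h : ∀ x ∈ v, |x| ≤ B) :
    |dot c v| ≤ l1 c * B := by
  induction c generalizing v with
  | nil => simp [dot, l1]
  | cons a as ih =>
    cases v with
    | nil =>
      simp only [dot, abs_zero]
      have : (0 : ℤ) ≤ ((l1 (a :: as) : ℕ) : ℤ) := by positivity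
      positivity
    | cons x xs =>
      have h1 := h x (by simp)
      have h2 := ih xs fun y hy => h y (by simp [hy])
      simp only [dot, l1]
      calc |a * x + dot as xs| ≤ |a * x| + |dot as xs| := abs_add_le _ _
        _ = |a| * |x| + |dot as xs| := by rw [abs_mul]
        _ ≤ |a| * B + (l1 as) * B := by
          have := mul_le_mul_of_nonneg_left h1 (abs_nonneg a)
          linarith
        _ = _ := by
          push_cast
          rw [Int.abs_eq_natAbs]
          ring

lemma abs_tv_lt {W u A b : ℕ} {p : ℕ × ℕ} (hu : u ≤ W) (hW : 0 < W)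
    (h1 : Nat.land p.1 (highMask W u A) = 0) (h2 : Nat.land p.2 (highMask W u A) = 0) (hb : b < A) :
    |tv W p b| ≤ 2 ^ u := by
  have key : ∀ N : ℕ, Nat.land N (highMask W u A) = 0 → dg W N b < 2 ^ u := by
    intro N hN
    have h3 := dg_and W N (highMask W u A) b
    have h0 : N &&& highMask W u A = 0 := hN
    rw [h0, dg_highMask hW hu hb, and_high hu (dg_lt W N b)] at h3
    have h4 : dg W 0 b = 0 := by simp [dg]
    rw [h4] at h3
    have h5 : dg W N b / 2 ^ u = 0 := by
      have : 0 < 2 ^ u := by positivity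
      rcases Nat.mul_eq_zero.1 h3.symm with h | h
      · exact h
      · omega
    rcases Nat.div_eq_zero_iff.1 h5 with h | h
    · exact absurd h (by positivity)
    · exact h
  have h3 := key _ h1
  have h4 := key _ h2
  simp only [tv]
  rw [abs_le]
  have h5 : ((dg W p.1 b : ℕ) : ℤ) < 2 ^ u := by exact_mod_cast h3
  have h6 : ((dg W p.2 b : ℕ) : ℤ) < 2 ^ u := by exact_mod_cast h4
  have h7 : (0 : ℤ) ≤ ((dg W p.1 b : ℕ) : ℤ) := by positivity
  have h8 : (0 : ℤ) ≤ ((dg W p.2 b : ℕ) : ℤ) := by positivity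
  constructor <;> linarith

/-- What `checkT` says. -/
structure TableOK (W u A : ℕ) (T : List (ℕ × ℕ)) : Prop where
  lt : ∀ p ∈ T, p.1 < 2 ^ (W * A) ∧ p.2 < 2 ^ (W * A)
  bd : ∀ p ∈ T, Nat.land p.1 (highMask W u A) = 0 ∧ Nat.land p.2 (highMask W u A) = 0

lemma tableOK_of_check {W u A : ℕ} {T : List (ℕ × ℕ)} (h : checkT W u A T = true) :
    TableOK W u A T := by
  simp only [checkT, List.all_eq_true, Bool.and_eq_true] at h
  refine ⟨fun p hp => ?_, fun p hp => ?_⟩
  · obtain ⟨⟨⟨h1, h2⟩, _⟩, _⟩ := h p hp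
    exact ⟨Nat.le_of_ble_eq_true h1, Nat.le_of_ble_eq_true h2⟩
  · obtain ⟨⟨_, h3⟩, h4⟩ := h p hp
    exact ⟨Nat.eq_of_beq_eq_true h3, Nat.eq_of_beq_eq_true h4⟩

lemma abs_colv_le {W u A b : ℕ} {T : List (ℕ × ℕ)} (hT : TableOK W u A T) (hu : u ≤ W) (hW : 0 < W)
    (hb : b < A) : ∀ x ∈ colv W T b, |x| ≤ 2 ^ u := by
  intro x hx
  simp only [colv, List.mem_map] at hx
  obtain ⟨p, hp, rfl⟩ := hx
  exact abs_tv_lt hu hW (hT.bd p hp).1 (hT.bd p hp).2 hb

lemma l1_le_l11 {M : List (List ℤ)} {r : List ℤ} (hr : r ∈ M) : l1 r ≤ l11 M := by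
  induction M with
  | nil => simp at hr
  | cons s ss ih =>
    simp only [l11]
    rcases List.mem_cons.1 hr with rfl | h
    · omega
    · have := ih h
      omega

lemma l1_map_dot_le (M : List (List ℤ)) (v : List ℤ) (B : ℤ) (hB : 0 ≤ B) (h : ∀ x ∈ v, |x| ≤ B) :
    ((l1 (M.map fun r => dot r v) : ℕ) : ℤ) ≤ l11 M * B := by
  induction M with
  | nil => simp [l1, l11]
  | cons r rs ih =>
    simp only [List.map_cons, l1, l11]
    push_cast
    have h1 := abs_dot_le r v B hB h
    linarith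

/-! ### The main result on entries -/

/-- All the hypotheses of the check, except the columns. -/
structure Setup (W u A : ℕ) (M : List (List ℤ)) (T : List (ℕ × ℕ)) (Zs : List ℕ) : Prop where
  hW : 0 < W
  hu : u ≤ W
  hT : TableOK W u A T
  hM : l11 M * 2 ^ (2 * u) < 2 ^ (W - 1)
  hZ : M.map (zRow (guard W A) · T) = Zs

lemma Setup.rho_lt {W u A : ℕ} {M : List (List ℤ)} {T : List (ℕ × ℕ)} {Zs : List ℕ}
    (S : Setup W u A M T Zs) {r : List ℤ} (hr : r ∈ M) {b : ℕ} (hb : b < A) :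
    |dot r (colv W T b)| < 2 ^ (W - 1) := by
  have h1 := abs_dot_le r (colv W T b) (2 ^ u) (by positivity) (abs_colv_le S.hT S.hu S.hW hb)
  have h2 : ((l1 r : ℕ) : ℤ) ≤ l11 M := by exact_mod_cast l1_le_l11 hr
  have h3 : ((l11 M * 2 ^ (2 * u) : ℕ) : ℤ) < ((2 ^ (W - 1) : ℕ) : ℤ) := by exact_mod_cast S.hM
  push_cast at h3
  have h4 : (2 : ℤ) ^ u ≤ 2 ^ (2 * u) := pow_le_pow_right₀ (by norm_num) (by omega)
  have h5 : (0 : ℤ) ≤ 2 ^ u := by positivity
  have h6 : (0 : ℤ) ≤ ((l11 M : ℕ) : ℤ) := by positivity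
  calc |dot r (colv W T b)| ≤ (l1 r) * 2 ^ u := h1
    _ ≤ (l11 M : ℤ) * 2 ^ u := mul_le_mul_of_nonneg_right h2 h5
    _ ≤ (l11 M : ℤ) * 2 ^ (2 * u) := mul_le_mul_of_nonneg_left h4 h6
    _ < _ := h3

/-- the signed digits of the column `a` are the entries of `M T` -/
lemma Setup.map_sdg {W u A : ℕ} {M : List (List ℤ)} {T : List (ℕ × ℕ)} {Zs : List ℕ}
    (S : Setup W u A M T Zs) {a : ℕ} (ha : a < A) :
    Zs.map (sdg W · a) = M.map fun r => dot r (colv W T a) := by
  rw [← S.hZ, List.map_map]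
  apply List.map_congr_left
  intro r hr
  simp only [Function.comp]
  rw [sdg_eq S.hW]
  have h1 := zRow_eq (A := A) S.hW r T S.hT.lt (fun b hb => S.rho_lt hr hb)
  have h2 := signed_digits S.hW (fun b => dot r (colv W T b)) (fun b hb => S.rho_lt hr hb) _ h1 a ha
  rw [h2]
  ring

/-- **Entries of the form.** -/
theorem entry_nonneg {W u A : ℕ} {M : List (List ℤ)} {T : List (ℕ × ℕ)} {Zs : List ℕ}
    (S : Setup W u A M T Zs) {a : ℕ} (ha : a < A) (hc : checkCol W (guard W A) Zs T a = true)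
    {b : ℕ} (hb : b < A) :
    0 ≤ dot (M.map fun r => dot r (colv W T a)) (colv W T b) := by
  have hW := S.hW
  set gs := M.map fun r => dot r (colv W T a) with hgs
  have hlt : ∀ b < A, |dot gs (colv W T b)| < 2 ^ (W - 1) := by
    intro b hb
    have h1 := abs_dot_le gs (colv W T b) (2 ^ u) (by positivity) (abs_colv_le S.hT S.hu S.hW hb)
    have h2 := l1_map_dot_le M (colv W T a) (2 ^ u) (by positivity) (abs_colv_le S.hT S.hu S.hW ha)
    have h3 : ((l11 M * 2 ^ (2 * u) : ℕ) : ℤ) < ((2 ^ (W - 1) : ℕ) : ℤ) := by exact_mod_cast S.hM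
    push_cast at h3
    have h5 : (0 : ℤ) ≤ 2 ^ u := by positivity
    have e : (2 : ℤ) ^ (2 * u) = 2 ^ u * 2 ^ u := by rw [two_mul, pow_add]
    calc |dot gs (colv W T b)| ≤ (l1 gs) * 2 ^ u := h1
      _ ≤ ((l11 M : ℤ) * 2 ^ u) * 2 ^ u := mul_le_mul_of_nonneg_right h2 h5
      _ = (l11 M : ℤ) * 2 ^ (2 * u) := by rw [e]; ring
      _ < _ := h3
  have h1 := zRow_eq (A := A) S.hW gs T S.hT.lt hlt
  have h2 := signed_digits S.hW (fun b => dot gs (colv W T b)) hlt _ h1 b hb
  simp only [checkCol] at hc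
  rw [S.map_sdg ha, ← hgs] at hc
  have h3 : Nat.land (zRow (guard W A) gs T) (guard W A) = guard W A := Nat.eq_of_beq_eq_true hc
  have h4 := dg_and W (zRow (guard W A) gs T) (guard W A) b
  have h5 : zRow (guard W A) gs T &&& guard W A = guard W A := h3
  rw [h5, dg_guard hW hb] at h4
  have h6 : 2 ^ (W - 1) ≤ dg W (zRow (guard W A) gs T) b := by
    conv_lhs => rw [h4]
    exact Nat.and_le_left
  have h7 : ((2 ^ (W - 1) : ℕ) : ℤ) ≤ dg W (zRow (guard W A) gs T) b := by exact_mod_cast h6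
  push_cast at h7
  linarith

/-- the column check for a range -/
lemma checkCols_sound {W G : ℕ} {Zs : List ℕ} {T : List (ℕ × ℕ)} {lo n : ℕ}
    (h : checkCols W G Zs T lo n = true) : ∀ a, lo ≤ a → a < lo + n → checkCol W G Zs T a = true := by
  induction n with
  | zero =>
    intro a h1 h2
    omega
  | succ n ih =>
    have e : checkCols W G Zs T lo (n + 1) =
        Bool.rec false (checkCols W G Zs T lo n) (checkCol W G Zs T (Nat.add lo n)) := rfl
    rw [e] at h
    cases hc : checkCol W G Zs T (Nat.add lo n) with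
    | false =>
      rw [hc] at h
      exact absurd h (by simp)
    | true =>
      rw [hc] at h
      intro a h1 h2
      by_cases h3 : a < lo + n
      · exact ih h a h1 h3
      · have : a = lo + n := by omega
        rw [this]
        exact hc

/-! ### Real values -/

/-- `∑ c_i x_i`, truncated -/
def rd : List ℤ → List ℝ → ℝ
  | c :: cs, x :: xs => (c : ℝ) * x + rd cs xs
  | _, _ => 0

/-- `∑ y_i x_i` for real lists -/
def rrd : List ℝ → List ℝ → ℝ
  | y :: ys, x :: xs => y * x + rrd ys xs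
  | _, _ => 0

/-- the bilinear form of a matrix on real vectors -/
def bilR (M : List (List ℤ)) (X Y : List ℝ) : ℝ := rrd (M.map fun r => rd r X) Y

/-- the value of a packed row on a weight vector -/
def val (W A : ℕ) (x : ℕ → ℝ) (p : ℕ × ℕ) : ℝ := ∑ b ∈ range A, (tv W p b : ℝ) * x b

/-- the values of the rows -/
def vals (W A : ℕ) (x : ℕ → ℝ) (T : List (ℕ × ℕ)) : List ℝ := T.map (val W A x)

lemma rd_vals (W A : ℕ) (x : ℕ → ℝ) (c : List ℤ) (T : List (ℕ × ℕ)) :
    rd c (vals W A x T) = ∑ a ∈ range A, (dot c (colv W T a) : ℝ) * x a := by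
  induction c generalizing T with
  | nil => simp [rd, dot]
  | cons c cs ih =>
    cases T with
    | nil => simp [rd, dot, vals, colv]
    | cons p ps =>
      have h := ih ps
      simp only [vals, List.map_cons, rd, colv, dot] at h ⊢
      rw [h, val, Finset.mul_sum, ← Finset.sum_add_distrib]
      refine Finset.sum_congr rfl fun j _ => ?_
      push_cast
      ring

lemma rrd_vals (W A : ℕ) (y : ℕ → ℝ) (g : List (ℕ → ℝ)) (T : List (ℕ × ℕ)) (x : ℕ → ℝ) :
    rrd (g.map fun f => ∑ a ∈ range A, f a * x a) (vals W A y T) =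
      ∑ a ∈ range A, ∑ b ∈ range A,
        x a * y b * rrd (g.map fun f => f a) (List.map (fun t : ℤ => (t : ℝ)) (colv W T b)) := by
  induction g generalizing T with
  | nil => simp [rrd]
  | cons f fs ih =>
    cases T with
    | nil => simp [rrd, vals, colv]
    | cons p ps =>
      have h := ih ps
      simp only [vals, List.map_cons, rrd, colv] at h ⊢
      rw [h, val, Finset.sum_mul_sum, ← Finset.sum_add_distrib]
      refine Finset.sum_congr rfl fun a _ => ?_
      rw [← Finset.sum_add_distrib]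
      refine Finset.sum_congr rfl fun b _ => ?_
      ring

lemma rrd_cast (g v : List ℤ) :
    rrd (List.map (fun t : ℤ => (t : ℝ)) g) (List.map (fun t : ℤ => (t : ℝ)) v) = (dot g v : ℝ) := by
  induction g generalizing v with
  | nil => simp [rrd, dot]
  | cons a as ih =>
    cases v with
    | nil => simp [rrd, dot]
    | cons x xs =>
      simp only [List.map_cons, rrd, dot, ih]
      push_cast
      ring

/-- The bilinear form in terms of the entries. -/
lemma bilR_vals (W A : ℕ) (M : List (List ℤ)) (T : List (ℕ × ℕ)) (x y : ℕ → ℝ) :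
    bilR M (vals W A x T) (vals W A y T) =
      ∑ a ∈ range A, ∑ b ∈ range A, x a * y b *
        (dot (M.map fun r => dot r (colv W T a)) (colv W T b) : ℝ) := by
  simp only [bilR, rd_vals]
  have h := rrd_vals W A y (M.map fun r a => (dot r (colv W T a) : ℝ)) T x
  have e1 : (List.map (fun f : ℕ → ℝ => ∑ a ∈ range A, f a * x a)
      (M.map fun r a => (dot r (colv W T a) : ℝ))) =
      M.map fun r => ∑ a ∈ range A, (dot r (colv W T a) : ℝ) * x a := by
    rw [List.map_map]
    rfl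
  rw [e1] at h
  rw [h]
  refine Finset.sum_congr rfl fun a _ => Finset.sum_congr rfl fun b _ => ?_
  rw [← rrd_cast]
  have e2 : (List.map (fun f : ℕ → ℝ => f a) (M.map fun r a => (dot r (colv W T a) : ℝ))) =
      List.map (fun t : ℤ => (t : ℝ)) (M.map fun r => dot r (colv W T a)) := by
    rw [List.map_map, List.map_map]
    rfl
  rw [e2]

/-- **Soundness of the check**: for nonnegative weights `x`, `y`, the form is nonnegative. -/
theorem bil_nonneg_fast {W u A : ℕ} {M : List (List ℤ)} {T : List (ℕ × ℕ)} {Zs : List ℕ}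
    (S : Setup W u A M T Zs) (hc : ∀ a < A, checkCol W (guard W A) Zs T a = true) {x y : ℕ → ℝ}
    (hx : ∀ a, 0 ≤ x a) (hy : ∀ a, 0 ≤ y a) :
    0 ≤ bilR M (vals W A x T) (vals W A y T) := by
  rw [bilR_vals]
  refine Finset.sum_nonneg fun a ha => Finset.sum_nonneg fun b hb => ?_
  have h1 := entry_nonneg S (Finset.mem_range.1 ha) (hc a (Finset.mem_range.1 ha))
    (Finset.mem_range.1 hb)
  have h2 : (0 : ℝ) ≤ (dot (M.map fun r => dot r (colv W T a)) (colv W T b) : ℝ) := by
    exact_mod_cast h1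
  exact mul_nonneg (mul_nonneg (hx a) (hy b)) h2

end Crest.Agent.PottsTree.KronBil

end
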