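import Crest.Agent.Lib.PottsTree.KronBil

/-!
# Fast verification of polynomial rows

A polynomial expression `e` in variables `v_i`, homogeneous of degree `n`, is evaluated once, in the kernel,
at the big point `v_i = X ^ (w i)`, `X = 2 ^ W`.  If the value is the integer represented by a packed row
`p` and the coefficient bound holds, then for all real `v`:
`e.ev v = ∑ b, tv W p b * x b`, with `x (idx α) = ∏ v_i ^ α_i` for the exponents of degree `n`.
-/

set_option autoImplicit false

noncomputable section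

namespace Crest.Agent.PottsTree.KronBil

open Finset Crest.Agent.PottsTree.Lat

/-- Polynomial expressions. -/
inductive PE (m : ℕ) where
  | const (c : ℤ) : PE m
  | var (i : Fin m) : PE m
  | add (a b : PE m) : PE m
  | mul (a b : PE m) : PE m

namespace PE

variable {m : ℕ}

/-- evaluation in a commutative ring -/
def ev {R : Type*} [CommRing R] (v : Fin m → R) : PE m → R
  | const c => (c : R)
  | var i => v i
  | add a b => ev v a + ev v b
  | mul a b => ev v a * ev v b

/-- powers -/
def pow (a : PE m) : ℕ → PE m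
  | 0 => const 1
  | k + 1 => mul (pow a k) a

@[simp] lemma ev_pow {R : Type*} [CommRing R] (v : Fin m → R) (a : PE m) (k : ℕ) :
    ev v (pow a k) = ev v a ^ k := by
  induction k with
  | zero => simp [pow, ev]
  | succ k ih => simp [pow, ev, ih, pow_succ]

/-- the degree, if homogeneous -/
def deg : PE m → ℕ
  | const _ => 0
  | var _ => 1
  | add a _ => deg a
  | mul a b => deg a + deg b

/-- homogeneity test -/
def homog : PE m → Bool
  | const _ => true
  | var _ => true
  | add a b => homog a && homog b && Nat.beq (deg a) (deg b)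
  | mul a b => homog a && homog b

/-- a bound for the sum of the absolute values of the coefficients -/
def bnd : PE m → ℕ
  | const c => c.natAbs
  | var _ => 1
  | add a b => Nat.add (bnd a) (bnd b)
  | mul a b => Nat.mul (bnd a) (bnd b)

/-- value at a natural point: the positive and the negative part -/
def evPN (pt : Fin m → ℕ) : PE m → ℕ × ℕ
  | const c => (c.toNat, (-c).toNat)
  | var i => (pt i, 0)
  | add a b =>
    let x := evPN pt a
    let y := evPN pt b
    (Nat.add x.1 y.1, Nat.add x.2 y.2)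
  | mul a b =>
    let x := evPN pt a
    let y := evPN pt b
    (Nat.add (Nat.mul x.1 y.1) (Nat.mul x.2 y.2), Nat.add (Nat.mul x.1 y.2) (Nat.mul x.2 y.1))

lemma evPN_spec (pt : Fin m → ℕ) (e : PE m) :
    ((evPN pt e).1 : ℤ) - (evPN pt e).2 = ev (fun i => (pt i : ℤ)) e := by
  induction e with
  | const c =>
    simp only [evPN, ev, Int.cast_id]
    have h1 := Int.toNat_sub_toNat_neg c
    exact h1
  | var i => simp [evPN, ev]
  | add a b iha ihb =>
    simp only [evPN, ev, ← iha, ← ihb, show ∀ x y : ℕ, Nat.add x y = x + y from fun _ _ => rfl]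
    push_cast
    ring
  | mul a b iha ihb =>
    simp only [evPN, ev, ← iha, ← ihb, show ∀ x y : ℕ, Nat.add x y = x + y from fun _ _ => rfl,
      show ∀ x y : ℕ, Nat.mul x y = x * y from fun _ _ => rfl]
    push_cast
    ring

/-- the expansion, as a list of terms (with repetitions) -/
def terms : PE m → List (ℤ × (Fin m → ℕ))
  | const c => [(c, 0)]
  | var i => [(1, Pi.single i 1)]
  | add a b => terms a ++ terms b
  | mul a b => (terms a).flatMap fun s => (terms b).map fun t => (s.1 * t.1, s.2 + t.2)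

/-- the sum of the terms -/
def sumT {R : Type*} [CommRing R] (v : Fin m → R) (l : List (ℤ × (Fin m → ℕ))) : R :=
  (l.map fun t => (t.1 : R) * ∏ i, v i ^ t.2 i).sum

lemma sumT_append {R : Type*} [CommRing R] (v : Fin m → R) (l l' : List (ℤ × (Fin m → ℕ))) :
    sumT v (l ++ l') = sumT v l + sumT v l' := by
  simp [sumT]

lemma sumT_map_mul {R : Type*} [CommRing R] (v : Fin m → R) (s : ℤ × (Fin m → ℕ))
    (l' : List (ℤ × (Fin m → ℕ))) :
    sumT v (l'.map fun t => (s.1 * t.1, s.2 + t.2)) =
      ((s.1 : R) * ∏ i, v i ^ s.2 i) * sumT v l' := by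
  induction l' with
  | nil => simp [sumT]
  | cons t ts ih' =>
    have e : ∏ i, v i ^ (s.2 i + t.2 i) = (∏ i, v i ^ s.2 i) * ∏ i, v i ^ t.2 i := by
      rw [← Finset.prod_mul_distrib]
      exact Finset.prod_congr rfl fun i _ => pow_add _ _ _
    simp only [sumT, List.map_cons, List.sum_cons, Pi.add_apply, Int.cast_mul] at ih' ⊢
    rw [ih', e]
    ring

lemma sumT_mul {R : Type*} [CommRing R] (v : Fin m → R) (l l' : List (ℤ × (Fin m → ℕ))) :
    sumT v (l.flatMap fun s => l'.map fun t => (s.1 * t.1, s.2 + t.2)) = sumT v l * sumT v l' := by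
  induction l with
  | nil => simp [sumT]
  | cons s ss ih =>
    rw [List.flatMap_cons, sumT_append, ih, sumT_map_mul]
    simp only [sumT, List.map_cons, List.sum_cons]
    ring

/-- every expression is the sum of its terms, in all commutative rings -/
theorem ev_eq_sumT {R : Type*} [CommRing R] (v : Fin m → R) (e : PE m) : ev v e = sumT v (terms e) := by
  induction e with
  | const c => simp [ev, terms, sumT]
  | var i =>
    simp only [ev, terms, sumT, List.map_cons, List.map_nil, List.sum_cons, List.sum_nil, add_zero,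
      Int.cast_one, one_mul]
    rw [Finset.prod_eq_single i]
    · simp
    · intro j _ hj
      simp [Pi.single_eq_of_ne hj]
    · simp
  | add a b iha ihb => rw [terms, sumT_append, ev, iha, ihb]
  | mul a b iha ihb => rw [terms, sumT_mul, ev, iha, ihb]

lemma mem_mul {l l' : List (ℤ × (Fin m → ℕ))} {t : ℤ × (Fin m → ℕ)}
    (h : t ∈ l.flatMap fun s => l'.map fun t => (s.1 * t.1, s.2 + t.2)) :
    ∃ s ∈ l, ∃ r ∈ l', t = (s.1 * r.1, s.2 + r.2) := by
  simp only [List.mem_flatMap, List.mem_map] at h
  obtain ⟨s, hs, r, hr, rfl⟩ := h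
  exact ⟨s, hs, r, hr, rfl⟩

/-- the terms of a homogeneous expression have the right degree -/
theorem terms_deg {e : PE m} (h : homog e = true) : ∀ t ∈ terms e, ∑ i, t.2 i = deg e := by
  induction e with
  | const c =>
    intro t ht
    simp only [terms, List.mem_singleton] at ht
    subst ht
    simp [deg]
  | var i =>
    intro t ht
    simp only [terms, List.mem_singleton] at ht
    subst ht
    simp [deg]
  | add a b iha ihb =>
    simp only [homog, Bool.and_eq_true] at h
    obtain ⟨⟨h1, h2⟩, h3⟩ := h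
    have h3' : deg a = deg b := Nat.eq_of_beq_eq_true h3
    intro t ht
    simp only [terms, List.mem_append] at ht
    rcases ht with ht | ht
    · simpa [deg] using iha h1 t ht
    · simpa [deg, h3'] using ihb h2 t ht
  | mul a b iha ihb =>
    simp only [homog, Bool.and_eq_true] at h
    intro t ht
    obtain ⟨s, hs, r, hr, rfl⟩ := mem_mul ht
    simp only [Pi.add_apply, Finset.sum_add_distrib, deg]
    rw [iha h.1 s hs, ihb h.2 r hr]

/-- the sum of the absolute values -/
def nrm (l : List (ℤ × (Fin m → ℕ))) : ℕ := (l.map fun t => t.1.natAbs).sum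

lemma nrm_append (l l' : List (ℤ × (Fin m → ℕ))) : nrm (l ++ l') = nrm l + nrm l' := by
  simp [nrm]

lemma nrm_map_mul (s : ℤ × (Fin m → ℕ)) (l' : List (ℤ × (Fin m → ℕ))) :
    nrm (l'.map fun t => (s.1 * t.1, s.2 + t.2)) = s.1.natAbs * nrm l' := by
  induction l' with
  | nil => simp [nrm]
  | cons t ts ih' =>
    simp only [nrm, List.map_cons, List.sum_cons, Int.natAbs_mul] at ih' ⊢
    rw [ih']
    ring

lemma nrm_mul (l l' : List (ℤ × (Fin m → ℕ))) :
    nrm (l.flatMap fun s => l'.map fun t => (s.1 * t.1, s.2 + t.2)) = nrm l * nrm l' := by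
  induction l with
  | nil => simp [nrm]
  | cons s ss ih =>
    rw [List.flatMap_cons, nrm_append, ih, nrm_map_mul]
    simp only [nrm, List.map_cons, List.sum_cons]
    ring

theorem nrm_terms (e : PE m) : nrm (terms e) = bnd e := by
  induction e with
  | const c => simp [terms, nrm, bnd]
  | var i => simp [terms, nrm, bnd]
  | add a b iha ihb =>
    rw [terms, nrm_append, iha, ihb]
    rfl
  | mul a b iha ihb =>
    rw [terms, nrm_mul, iha, ihb]
    rfl

/-! ### Collecting terms -/

/-- the coefficient at `b`, for an index map -/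
def coefF (idx : (Fin m → ℕ) → ℕ) (l : List (ℤ × (Fin m → ℕ))) (b : ℕ) : ℤ :=
  (l.map fun t => if idx t.2 = b then t.1 else 0).sum

lemma abs_coefF_le (idx : (Fin m → ℕ) → ℕ) (l : List (ℤ × (Fin m → ℕ))) (b : ℕ) :
    |coefF idx l b| ≤ nrm l := by
  induction l with
  | nil => simp [coefF, nrm]
  | cons t ts ih =>
    simp only [coefF, nrm, List.map_cons, List.sum_cons] at ih ⊢
    refine (abs_add_le _ _).trans ?_
    push_cast
    have h : |if idx t.2 = b then t.1 else 0| ≤ |t.1| := by
      split_ifs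
      · exact le_rfl
      · simp
    have h2 : |t.1| = (t.1.natAbs : ℤ) := Int.abs_eq_natAbs t.1
    push_cast at ih
    linarith

lemma sum_coefF {R : Type*} [CommRing R] (idx : (Fin m → ℕ) → ℕ) (A : ℕ)
    (l : List (ℤ × (Fin m → ℕ))) (hl : ∀ t ∈ l, idx t.2 < A) (x : ℕ → R) :
    ∑ b ∈ range A, (coefF idx l b : R) * x b = (l.map fun t => (t.1 : R) * x (idx t.2)).sum := by
  induction l with
  | nil => simp [coefF]
  | cons t ts ih =>
    have h1 := ih fun s hs => hl s (by simp [hs])
    have h2 := hl t (by simp)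
    simp only [coefF, List.map_cons, List.sum_cons] at h1 ⊢
    rw [← h1]
    push_cast
    simp only [add_mul]
    rw [Finset.sum_add_distrib]
    congr 1
    rw [Finset.sum_eq_single (idx t.2)]
    · simp
    · intro b _ hb
      simp [Ne.symm hb]
    · intro h
      exact absurd (Finset.mem_range.2 h2) h

end PE

open PE

/-- the big point -/
def bigPt {m : ℕ} (W : ℕ) (w : Fin m → ℕ) (i : Fin m) : ℕ := 2 ^ (W * w i)

/-- the index of an exponent -/
def idxOf {m : ℕ} (w : Fin m → ℕ) (α : Fin m → ℕ) : ℕ := ∑ i, w i * α i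

lemma prod_bigPt {m : ℕ} (W : ℕ) (w : Fin m → ℕ) (α : Fin m → ℕ) :
    ∏ i, ((bigPt W w i : ℕ) : ℤ) ^ α i = (2 ^ W : ℤ) ^ idxOf w α := by
  simp only [bigPt, idxOf]
  push_cast
  simp only [← pow_mul]
  rw [Finset.prod_pow_eq_pow_sum]
  congr 1
  rw [Finset.mul_sum]
  exact Finset.sum_congr rfl fun i _ => by ring

/-- The check of a row. -/
def checkRow {m : ℕ} (W : ℕ) (w : Fin m → ℕ) (e : PE m) (p : ℕ × ℕ) : Bool :=
  homog e && Nat.ble (Nat.succ (bnd e)) (2 ^ (W - 1)) &&
    Nat.beq (Nat.add (evPN (bigPt W w) e).1 p.2) (Nat.add (evPN (bigPt W w) e).2 p.1)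

/-- **Row identity.** -/
theorem row_eq {m W u A : ℕ} (hW : 0 < W) (hu : u < W) {w : Fin m → ℕ} {e : PE m} {p : ℕ × ℕ}
    (h : checkRow W w e p = true) (hp1 : p.1 < 2 ^ (W * A)) (hp2 : p.2 < 2 ^ (W * A))
    (hp3 : Nat.land p.1 (highMask W u A) = 0) (hp4 : Nat.land p.2 (highMask W u A) = 0)
    (hA : ∀ α : Fin m → ℕ, ∑ i, α i = deg e → idxOf w α < A)
    {R : Type*} [CommRing R] (v : Fin m → R) (x : ℕ → R)
    (hx : ∀ α : Fin m → ℕ, ∑ i, α i = deg e → x (idxOf w α) = ∏ i, v i ^ α i) :
    ev v e = ∑ b ∈ range A, (tv W p b : R) * x b := by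
  simp only [checkRow, Bool.and_eq_true] at h
  obtain ⟨⟨h1, h2⟩, h3⟩ := h
  have h2' : bnd e < 2 ^ (W - 1) := Nat.le_of_ble_eq_true h2
  have h3' : (evPN (bigPt W w) e).1 + p.2 = (evPN (bigPt W w) e).2 + p.1 :=
    Nat.eq_of_beq_eq_true h3
  have hdeg := terms_deg h1
  have hidx : ∀ t ∈ terms e, idxOf w t.2 < A := fun t ht => hA _ (hdeg t ht)
  -- the value at the big point
  have hval : E p = ∑ b ∈ range A, coefF (idxOf w) (terms e) b * (2 ^ W : ℤ) ^ b := by
    have h4 := sum_coefF (R := ℤ) (idxOf w) A (terms e) hidx (fun b => (2 ^ W : ℤ) ^ b)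
    simp only [Int.cast_id] at h4
    rw [h4]
    have h5 := evPN_spec (bigPt W w) e
    rw [ev_eq_sumT] at h5
    have h6 : sumT (fun i => ((bigPt W w i : ℕ) : ℤ)) (terms e) =
        ((terms e).map fun t => t.1 * (2 ^ W : ℤ) ^ idxOf w t.2).sum := by
      simp only [sumT, Int.cast_id, prod_bigPt]
    rw [h6] at h5
    rw [← h5]
    have h7 : ((evPN (bigPt W w) e).1 : ℤ) + p.2 = (evPN (bigPt W w) e).2 + p.1 := by exact_mod_cast h3'
    simp only [E]
    linarith
  have hE := E_eq_sum hp1 hp2
  -- digits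
  have hc : ∀ b < A, |coefF (idxOf w) (terms e) b| < 2 ^ (W - 1) := by
    intro b _
    have h4 := abs_coefF_le (idxOf w) (terms e) b
    rw [nrm_terms] at h4
    have h5 : ((bnd e : ℕ) : ℤ) < ((2 ^ (W - 1) : ℕ) : ℤ) := by exact_mod_cast h2'
    push_cast at h5
    linarith
  have htv : ∀ b < A, |tv W p b| < 2 ^ (W - 1) := by
    intro b hb
    have h4 := abs_tv_lt (u := u) (A := A) (b := b) (p := p) hu.le hW hp3 hp4 hb
    have h5 : (2 : ℤ) ^ u ≤ 2 ^ (W - 1) := pow_le_pow_right₀ (by norm_num) (by omega)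
    by_cases hlt : u + 1 ≤ W - 1
    · have h6 : (2 : ℤ) ^ u < 2 ^ (W - 1) := pow_lt_pow_right₀ (by norm_num) (by omega)
      linarith
    · -- the digits are `< 2 ^ u`, so strict
      have key : ∀ N : ℕ, Nat.land N (highMask W u A) = 0 → dg W N b < 2 ^ u := by
        intro N hN
        have h3 := dg_and W N (highMask W u A) b
        have h0 : N &&& highMask W u A = 0 := hN
        rw [h0, dg_highMask hW hu.le hb, and_high hu.le (dg_lt W N b)] at h3
        have h4 : dg W 0 b = 0 := by simp [dg]
        rw [h4] at h3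
        have h5 : dg W N b / 2 ^ u = 0 := by
          have : 0 < 2 ^ u := by positivity
          rcases Nat.mul_eq_zero.1 h3.symm with h | h
          · exact h
          · omega
        rcases Nat.div_eq_zero_iff.1 h5 with h | h
        · exact absurd h (by positivity)
        · exact h
      have h7 := key _ hp3
      have h8 := key _ hp4
      simp only [tv]
      rw [abs_lt]
      have h9 : ((dg W p.1 b : ℕ) : ℤ) < 2 ^ u := by exact_mod_cast h7
      have h10 : ((dg W p.2 b : ℕ) : ℤ) < 2 ^ u := by exact_mod_cast h8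
      have h11 : (0 : ℤ) ≤ ((dg W p.1 b : ℕ) : ℤ) := by positivity
      have h12 : (0 : ℤ) ≤ ((dg W p.2 b : ℕ) : ℤ) := by positivity
      constructor <;> linarith
  -- the same integer, hence the same digits
  set Z : ℕ := ((guard W A : ℤ) + E p).toNat with hZ
  have hnn : 0 ≤ (guard W A : ℤ) + E p := by
    rw [hE, guard_eq hW]
    push_cast
    rw [← Finset.sum_add_distrib]
    refine Finset.sum_nonneg fun j hj => ?_
    have h2 := abs_lt.1 (htv j (Finset.mem_range.1 hj))
    have e : (2 : ℤ) ^ (W - 1) * 2 ^ (W * j) + tv W p j * (2 ^ W) ^ j =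
        ((2 : ℤ) ^ (W - 1) + tv W p j) * (2 ^ W) ^ j := by
      rw [pow_mul]
      ring
    rw [e]
    have : 0 ≤ (2 : ℤ) ^ (W - 1) + tv W p j := by linarith [h2.1]
    positivity
  have hZ1 : (Z : ℤ) = guard W A + E p := Int.toNat_of_nonneg hnn
  have hcoef : ∀ b < A, coefF (idxOf w) (terms e) b = tv W p b := by
    intro b hb
    have d1 := signed_digits hW (coefF (idxOf w) (terms e)) hc Z (by rw [hZ1, hval]) b hb
    have d2 := signed_digits hW (tv W p) htv Z (by rw [hZ1, hE]) b hb
    linarith
  -- conclude in `R`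
  rw [ev_eq_sumT]
  have h5 := sum_coefF (R := R) (idxOf w) A (terms e) hidx x
  have h6 : ∑ b ∈ range A, (tv W p b : R) * x b =
      ∑ b ∈ range A, (coefF (idxOf w) (terms e) b : R) * x b :=
    Finset.sum_congr rfl fun b hb => by rw [hcoef b (Finset.mem_range.1 hb)]
  rw [h6, h5]
  simp only [sumT]
  congr 1
  apply List.map_congr_left
  intro t ht
  rw [hx _ (hdeg t ht)]

end Crest.Agent.PottsTree.KronBil

end
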