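import Crest.Agent.Lib.PottsTree.Mono
import Crest.Agent.Lib.PottsTree.Poisson

/-!
# Monotonicity of the experiments in the parameters

The experiments of the regular tree and of the Poisson tree are monotone in the Blackwell order
in `b`, in `d` and in `lam` along a ray through `0`.
-/

namespace Crest.Agent.PottsTree

open Finset Filter
open Crest.ProbabilityR.Broadcast
open ConeData

variable {q : ℕ}

/-! ### Sublinearity of `hom` and Jensen for countable families -/

lemma post_add {x y : Fin q → ℝ} (hx : mass x ≠ 0) (hy : mass y ≠ 0) (hxy : mass x + mass y ≠ 0) :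
    post (fun i => x i + y i) =
      (mass x / (mass x + mass y)) • post x + (mass y / (mass x + mass y)) • post y := by
  have hm : mass (fun i => x i + y i) = mass x + mass y := by
    simp [mass, Finset.sum_add_distrib]
  funext i
  simp only [post, hm, Pi.add_apply, Pi.smul_apply, smul_eq_mul]
  field_simp

lemma hom_add_le {f : (Fin q → ℝ) → ℝ} (hf : ConvexOn ℝ (Sx q) f) {x y : Fin q → ℝ}
    (hx : ∀ i, 0 ≤ x i) (hy : ∀ i, 0 ≤ y i) :
    hom f (fun i => x i + y i) ≤ hom f x + hom f y := by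
  by_cases h1 : mass x = 0
  · have h0 : ∀ i, x i = 0 := eq_zero_of_mass_eq_zero hx h1
    simp [h0, hom_of_mass_zero f h1]
  by_cases h2 : mass y = 0
  · have h0 : ∀ i, y i = 0 := eq_zero_of_mass_eq_zero hy h2
    simp [h0, hom_of_mass_zero f h2]
  have hpx : 0 < mass x := lt_of_le_of_ne (mass_nonneg hx) (Ne.symm h1)
  have hpy : 0 < mass y := lt_of_le_of_ne (mass_nonneg hy) (Ne.symm h2)
  have hs : 0 < mass x + mass y := add_pos hpx hpy
  have hm : mass (fun i => x i + y i) = mass x + mass y := by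
    simp [mass, Finset.sum_add_distrib]
  have hconv := hf.2 (post_mem hx h1) (post_mem hy h2)
    (show 0 ≤ mass x / (mass x + mass y) by positivity)
    (show 0 ≤ mass y / (mass x + mass y) by positivity)
    (by rw [← add_div]; exact div_self hs.ne')
  simp only [smul_eq_mul] at hconv
  simp only [hom]
  rw [hm, post_add h1 h2 hs.ne']
  calc (mass x + mass y) * f ((mass x / (mass x + mass y)) • post x +
        (mass y / (mass x + mass y)) • post y)
      ≤ (mass x + mass y) * (mass x / (mass x + mass y) * f (post x) +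
        mass y / (mass x + mass y) * f (post y)) :=
        mul_le_mul_of_nonneg_left hconv hs.le
    _ = mass x * f (post x) + mass y * f (post y) := by
        field_simp

lemma hom_sum_le {ι : Type*} {f : (Fin q → ℝ) → ℝ} (hf : ConvexOn ℝ (Sx q) f) (s : Finset ι)
    {x : ι → Fin q → ℝ} (hx : ∀ k i, 0 ≤ x k i) {y : Fin q → ℝ} (hy : ∀ i, 0 ≤ y i) :
    hom f (fun i => ∑ k ∈ s, x k i + y i) ≤ ∑ k ∈ s, hom f (x k) + hom f y := by
  classical
  induction s using Finset.induction_on with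
  | empty => simp
  | insert a s ha ih =>
    simp only [Finset.sum_insert ha]
    have h1 : (fun i => x a i + ∑ k ∈ s, x k i + y i) =
        fun i => x a i + (∑ k ∈ s, x k i + y i) := by
      funext i
      ring
    rw [h1]
    have h2 := hom_add_le hf (hx a) (y := fun i => ∑ k ∈ s, x k i + y i)
      (fun i => add_nonneg (Finset.sum_nonneg fun k _ => hx k i) (hy i))
    linarith

/-- Jensen at the uniform point, for any family. -/
lemma le_pot_of_convex' {Ω : Type*} {L : Ω → Fin q → ℝ} (hq : q ≠ 0) (hL : IsLik L)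
    {f : (Fin q → ℝ) → ℝ} (hb : BddS f) (hfc : ConvexOn ℝ (Sx q) f) :
    f (fun _ => 1 / (q : ℝ)) ≤ Pot f L := by
  classical
  have hq' : (q : ℝ) ≠ 0 := by exact_mod_cast hq
  have hq0 : (0 : ℝ) < q := lt_of_le_of_ne (by positivity) (Ne.symm hq')
  obtain ⟨C, hC⟩ := id hb
  have h1 : hom f (fun _ : Fin q => (1 : ℝ)) = (q : ℝ) * f (fun _ => 1 / (q : ℝ)) := by
    have := hom_const_fn hq f 1
    rw [this, one_mul]
  -- finite partial sums
  have hpart : ∀ s : Finset Ω, (q : ℝ) * f (fun _ => 1 / (q : ℝ)) ≤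
      ∑ ω ∈ s, hom f (L ω) + C * ((q : ℝ) - ∑ ω ∈ s, mass (L ω)) := by
    intro s
    set R : Fin q → ℝ := fun i => 1 - ∑ ω ∈ s, L ω i with hR
    have hR0 : ∀ i, 0 ≤ R i := by
      intro i
      have h2 := (hL.summable i).sum_le_tsum s (fun ω _ => hL.nonneg ω i)
      rw [hL.sum_one] at h2
      simp only [hR]
      linarith
    have h3 := hom_sum_le hfc s hL.nonneg hR0
    have h4 : (fun i => ∑ ω ∈ s, L ω i + R i) = fun _ => (1 : ℝ) := by
      funext i
      simp [hR]
    rw [h4, h1] at h3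
    have h5 := abs_hom_le hC hR0
    have h6 : mass R = (q : ℝ) - ∑ ω ∈ s, mass (L ω) := by
      simp only [mass, hR, Finset.sum_sub_distrib]
      rw [Finset.sum_comm]
      simp
    rw [h6] at h5
    have := (abs_le.1 h5).2
    linarith
  have hlim1 := (hL.summable_hom hb).hasSum
  have hlim2 := hL.summable_mass.hasSum
  rw [hL.tsum_mass] at hlim2
  have hlim3 : Tendsto (fun s : Finset Ω => ∑ ω ∈ s, hom f (L ω) +
      C * ((q : ℝ) - ∑ ω ∈ s, mass (L ω))) atTop
      (nhds (∑' ω, hom f (L ω) + C * ((q : ℝ) - q))) :=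
    Filter.Tendsto.add hlim1 (Filter.Tendsto.const_mul C (Filter.Tendsto.sub tendsto_const_nhds hlim2))
  have hfin : (q : ℝ) * f (fun _ => 1 / (q : ℝ)) ≤ ∑' ω, hom f (L ω) + C * ((q : ℝ) - q) :=
    ge_of_tendsto' hlim3 hpart
  simp only [sub_self, mul_zero, add_zero] at hfin
  simp only [Pot]
  rw [show f (fun _ => 1 / (q : ℝ)) = (q : ℝ)⁻¹ * ((q : ℝ) * f (fun _ => 1 / (q : ℝ))) by
    field_simp]
  exact mul_le_mul_of_nonneg_left hfin (by positivity)

/-- A contraction with a parameter in `[0,1]` loses information (any family). -/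
lemma dom_contract_self' {Ω : Type*} {L : Ω → Fin q → ℝ} (hq : q ≠ 0) (hL : IsLik L)
    {t : ℝ} (h0 : 0 ≤ t) (h1 : t ≤ 1) : Dom (contract t L) L := by
  intro f hf hfc
  rw [pot_contract hq]
  have hq' : (q : ℝ) ≠ 0 := by exact_mod_cast hq
  have hu : (fun _ => 1 / (q : ℝ)) ∈ Sx q := by
    refine ⟨fun i => by positivity, ?_⟩
    simp
    field_simp
  have hle : ∀ p ∈ Sx q, f (T q t p) ≤ t * f p + (1 - t) * f (fun _ => 1 / (q : ℝ)) := by
    intro p hp
    have := hfc.2 hp hu h0 (by linarith : 0 ≤ 1 - t) (by ring)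
    simp only [smul_eq_mul] at this
    have e : T q t p = t • p + (1 - t) • (fun _ => 1 / (q : ℝ)) := by
      funext i
      simp only [T, Pi.add_apply, Pi.smul_apply, smul_eq_mul]
      ring
    rw [e]
    exact this
  have hb : BddS (fun p : Fin q → ℝ => t * f p + (1 - t) * f (fun _ => 1 / (q : ℝ))) :=
    (hf.const_mul t).add (BddS.const _)
  have hchan : ChanOK q t := chanOK_of_nonneg h0 h1
  calc Pot (fun p => f (T q t p)) L
      ≤ Pot (fun p : Fin q → ℝ => t * f p + (1 - t) * f (fun _ => 1 / (q : ℝ))) L :=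
        pot_mono hL (BddS.comp_T hq hchan hf) hb hle
    _ = t * Pot f L + (1 - t) * f (fun _ => 1 / (q : ℝ)) := by
        rw [pot_add hL (hf.const_mul t) (BddS.const _), pot_const_mul, pot_const hq hL]
    _ ≤ t * Pot f L + (1 - t) * Pot f L := by
        have := le_pot_of_convex' hq hL hf hfc
        have h2 : 0 ≤ 1 - t := by linarith
        nlinarith
    _ = Pot f L := by ring

/-- Forgetting a part of the observation. -/
lemma dom_star_self {Ω Ω' : Type*} {L : Ω → Fin q → ℝ} {L' : Ω' → Fin q → ℝ} (hq : q ≠ 0)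
    (hL : IsLik L) (hL' : IsLik L') : Dom L (star L L') := by
  intro f hf hfc
  obtain ⟨C, hC⟩ := id hf
  have hq' : (q : ℝ) ≠ 0 := by exact_mod_cast hq
  have hqC : 0 ≤ (q : ℝ) := by positivity
  rw [pot_star hL hL' hf]
  have hbd : ∀ p ∈ Sx q, ∀ r ∈ Sx q, |(q : ℝ) * K f p r| ≤ (q : ℝ) * C := by
    intro p hp r hr
    rw [abs_mul, abs_of_nonneg hqC]
    exact mul_le_mul_of_nonneg_left (abs_K_le hC hp hr) hqC
  refine pot_mono hL hf (bddS_pot_of_bdd hq hL' hbd) fun p hp => ?_
  have hJ := le_pot_of_convex' hq hL' (BddS2 hf hp) ((convexOn_K hfc hp).smul hqC)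
  refine le_trans (le_of_eq ?_) hJ
  have hin : ∑ j, p j * (1 / (q : ℝ)) = 1 / q := by
    rw [← Finset.sum_mul, hp.2, one_mul]
  have hsp : sp p (fun _ => 1 / (q : ℝ)) = p := by
    funext i
    simp only [sp]
    rw [hin]
    field_simp
  simp only [K]
  rw [hin, hsp]
  field_simp

/-! ### The parameter `lam` -/

lemma T_mul (hq : q ≠ 0) (t lam : ℝ) (p : Fin q → ℝ) : T q (t * lam) p = T q t (T q lam p) := by
  have hq' : (q : ℝ) ≠ 0 := by exact_mod_cast hq
  funext i
  simp only [T]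
  field_simp
  ring

lemma chanOK_mul (hq : q ≠ 0) {t lam : ℝ} (h0 : 0 ≤ t) (h1 : t ≤ 1) (hc : ChanOK q lam) :
    ChanOK q (t * lam) := by
  have hq' : (q : ℝ) ≠ 0 := by exact_mod_cast hq
  have hq0 : (0 : ℝ) < q := lt_of_le_of_ne (by positivity) (Ne.symm hq')
  intro i j
  have h2 := hc i j
  simp only [channel] at h2 ⊢
  have h3 : 0 ≤ (1 - t) / (q : ℝ) := div_nonneg (by linarith) hq0.le
  have e : (if i = j then t * lam else 0) + (1 - t * lam) / (q : ℝ) =
      t * ((if i = j then lam else 0) + (1 - lam) / (q : ℝ)) + (1 - t) / (q : ℝ) := by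
    split_ifs <;> field_simp <;> ring
  rw [e]
  positivity

lemma dom_contract_mul {Ω : Type*} {L : Ω → Fin q → ℝ} (hq : q ≠ 0) (hL : IsLik L) {t lam : ℝ}
    (h0 : 0 ≤ t) (h1 : t ≤ 1) (hc : ChanOK q lam) : Dom (contract (t * lam) L) (contract lam L) := by
  intro f hf hfc
  have e : Pot f (contract (t * lam) L) = Pot f (contract t (contract lam L)) := by
    rw [pot_contract hq, pot_contract hq, pot_contract hq]
    simp only [T_mul hq]
  rw [e]
  exact dom_contract_self' hq (isLik_contract hq hc hL) h0 h1 f hf hfc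

/-! ### Star powers -/

lemma isLik_starPow {Ω : Type*} {L : Ω → Fin q → ℝ} (hL : IsLik L) (k : ℕ) :
    IsLik (starPow L k) := by
  induction k with
  | zero => exact isLik_starPow_zero L
  | succ k ih =>
    exact IsLik.congr_equiv (Fin.consEquiv (fun _ => Ω)) (starPow_cons L k) (isLik_star hL ih)

lemma pot_starPow_succ {Ω : Type*} (L : Ω → Fin q → ℝ) (k : ℕ) (f : (Fin q → ℝ) → ℝ) :
    Pot f (starPow L (k + 1)) = Pot f (star L (starPow L k)) :=
  pot_congr_equiv (Fin.consEquiv (fun _ => Ω)) (starPow_cons L k) f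

lemma dom_starPow_of_dom {Ω Ω' : Type*} {L : Ω → Fin q → ℝ} {L' : Ω' → Fin q → ℝ} (hq : q ≠ 0)
    (hL : IsLik L) (hL' : IsLik L') (h : Dom L' L) (k : ℕ) : Dom (starPow L' k) (starPow L k) := by
  induction k with
  | zero =>
    intro f _ _
    rw [pot_starPow_zero L' hq, pot_starPow_zero L hq]
  | succ k ih =>
    intro f hf hfc
    rw [pot_starPow_succ, pot_starPow_succ]
    exact Dom.star hq hL (isLik_starPow hL k) hL' (isLik_starPow hL' k) h ih f hf hfc

lemma dom_starPow_succ {Ω : Type*} {L : Ω → Fin q → ℝ} (hq : q ≠ 0) (hL : IsLik L) (k : ℕ) :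
    Dom (starPow L k) (starPow L (k + 1)) := by
  intro f hf hfc
  rw [pot_starPow_succ, pot_star_comm (starPow L k) L f]
  exact dom_star_self hq (isLik_starPow hL k) hL f hf hfc

lemma dom_starPow_le {Ω : Type*} {L : Ω → Fin q → ℝ} (hq : q ≠ 0) (hL : IsLik L) {k k' : ℕ}
    (h : k ≤ k') : Dom (starPow L k) (starPow L k') := by
  induction k', h using Nat.le_induction with
  | base => exact Dom.refl _
  | succ k' _ ih => exact ih.trans (dom_starPow_succ hq hL k')

/-! ### The regular tree -/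

lemma isLik_regL (hq : q ≠ 0) (b : ℕ) {lam : ℝ} (hc : ChanOK q lam) (ℓ : ℕ) :
    IsLik (regL q b lam ℓ) := by
  induction ℓ with
  | zero => exact IsLik.congr_equiv (regEquiv0 q b) (regL_zero b lam) isLik_baseL
  | succ ℓ ih =>
    exact IsLik.congr_equiv (regEquivS q b ℓ) (regL_succ b ℓ lam)
      (isLik_starPow (isLik_contract hq hc ih) b)

/-- Monotonicity of the regular experiments in `b` and `lam`. -/
theorem dom_regL (hq : q ≠ 0) {b b' : ℕ} (hb : b ≤ b') {t lam : ℝ} (h0 : 0 ≤ t) (h1 : t ≤ 1)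
    (hc : ChanOK q lam) (ℓ : ℕ) : Dom (regL q b (t * lam) ℓ) (regL q b' lam ℓ) := by
  have hc' : ChanOK q (t * lam) := chanOK_mul hq h0 h1 hc
  induction ℓ with
  | zero =>
    intro f _ _
    rw [pot_congr_equiv (regEquiv0 q b) (regL_zero b (t * lam)) f,
      pot_congr_equiv (regEquiv0 q b') (regL_zero b' lam) f]
  | succ ℓ ih =>
    intro f hf hfc
    rw [pot_congr_equiv (regEquivS q b ℓ) (regL_succ b ℓ (t * lam)) f,
      pot_congr_equiv (regEquivS q b' ℓ) (regL_succ b' ℓ lam) f]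
    have hR := isLik_regL hq b hc' ℓ
    have hR' := isLik_regL hq b' hc ℓ
    have h2 : Dom (contract (t * lam) (regL q b (t * lam) ℓ)) (contract lam (regL q b' lam ℓ)) :=
      (Dom.contract hq hc' ih).trans (dom_contract_mul hq hR' h0 h1 hc)
    have hC := isLik_contract hq hc hR'
    exact ((dom_starPow_of_dom hq hC (isLik_contract hq hc' hR) h2 b).trans
      (dom_starPow_le hq hC hb)) f hf hfc

/-- Monotonicity of the regular advantage in `b` and `lam`. -/
theorem advantage_le_of_param (hq : q ≠ 0) {b b' : ℕ} (hb : b ≤ b') {t lam : ℝ} (h0 : 0 ≤ t)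
    (h1 : t ≤ 1) (hc : ChanOK q lam) (ℓ : ℕ) :
    advantage q b (t * lam) ℓ ≤ advantage q b' lam ℓ := by
  rw [advantage_eq hq b (t * lam) ℓ (isLik_regL hq b (chanOK_mul hq h0 h1 hc) ℓ),
    advantage_eq hq b' lam ℓ (isLik_regL hq b' hc ℓ)]
  exact dom_regL hq hb h0 h1 hc ℓ _ (bddS_tv hq) convexOn_tv

/-! ### Poisson weights -/

lemma poi_add (a b : ℝ) (n : ℕ) :
    poi (a + b) n = ∑ kl ∈ antidiagonal n, poi a kl.1 * poi b kl.2 := by
  simp only [poi]
  have h := Commute.add_pow' (Commute.all a b) n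
  rw [h, Real.exp_neg, Real.exp_add, mul_inv, Finset.mul_sum, Finset.sum_div]
  refine Finset.sum_congr rfl fun kl hkl => ?_
  obtain ⟨k, l⟩ := kl
  have hn : k + l = n := Finset.HasAntidiagonal.mem_antidiagonal.1 hkl
  subst hn
  simp only [nsmul_eq_mul]
  rw [Nat.cast_add_choose ℝ]
  rw [Real.exp_neg, Real.exp_neg]
  have h1 : (k.factorial : ℝ) ≠ 0 := by positivity
  have h2 : (l.factorial : ℝ) ≠ 0 := by positivity
  have h3 : ((k + l).factorial : ℝ) ≠ 0 := by positivity
  field_simp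

/-- A bounded nondecreasing sequence has a larger mean for a larger Poisson parameter. -/
lemma tsum_poi_mono {a : ℕ → ℝ} (ha : Monotone a) {C : ℝ} (hC : ∀ n, |a n| ≤ C) {d d' : ℝ}
    (hd' : 0 ≤ d') (hdd : d' ≤ d) : ∑' n, poi d' n * a n ≤ ∑' n, poi d n * a n := by
  set δ := d - d' with hδ
  have hδ0 : 0 ≤ δ := by linarith
  have hd : d = d' + δ := by rw [hδ]; ring
  have hC0 : 0 ≤ C := (abs_nonneg _).trans (hC 0)
  have hs1 : Summable fun n => ‖poi d' n * a n‖ := by
    refine Summable.of_nonneg_of_le (fun n => norm_nonneg _) (fun n => ?_)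
      ((hasSum_poi d').summable.mul_right C)
    rw [Real.norm_eq_abs, abs_mul, abs_of_nonneg (poi_nonneg hd' n)]
    exact mul_le_mul_of_nonneg_left (hC n) (poi_nonneg hd' n)
  have hs2 : Summable fun n => ‖poi δ n‖ := by
    simp only [Real.norm_eq_abs, abs_of_nonneg (poi_nonneg hδ0 _)]
    exact (hasSum_poi δ).summable
  have hcauchy := tsum_mul_tsum_eq_tsum_sum_antidiagonal_of_summable_norm hs1 hs2
  rw [(hasSum_poi δ).tsum_eq, mul_one] at hcauchy
  rw [hcauchy]
  have hs3 := summable_norm_sum_mul_antidiagonal_of_summable_norm hs1 hs2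
  refine hs3.of_norm.tsum_le_tsum (fun n => ?_) ?_
  · rw [hd, poi_add, Finset.sum_mul]
    refine Finset.sum_le_sum fun kl hkl => ?_
    have hn : kl.1 + kl.2 = n := Finset.HasAntidiagonal.mem_antidiagonal.1 hkl
    have h1 : a kl.1 ≤ a n := ha (by omega)
    have h2 := poi_nonneg hd' kl.1
    have h3 := poi_nonneg hδ0 kl.2
    calc poi d' kl.1 * a kl.1 * poi δ kl.2 = (poi d' kl.1 * poi δ kl.2) * a kl.1 := by ring
      _ ≤ (poi d' kl.1 * poi δ kl.2) * a n :=
          mul_le_mul_of_nonneg_left h1 (mul_nonneg h2 h3)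
  · refine Summable.of_norm_bounded (g := fun n => poi d n * C)
      ((hasSum_poi d).summable.mul_right C) (fun n => ?_)
    rw [Real.norm_eq_abs, abs_mul, abs_of_nonneg (poi_nonneg (by linarith) n)]
    exact mul_le_mul_of_nonneg_left (hC n) (poi_nonneg (by linarith) n)

/-! ### The Poisson tree -/

lemma isLik_poisMix {Ω : Type*} {L : Ω → Fin q → ℝ} (hL : IsLik L) {d : ℝ} (hd : 0 ≤ d) :
    IsLik (poisMix d L) :=
  IsLik.congr_equiv List.equivSigmaTuple.symm (poisMix_equiv d L)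
    (isLik_mix (poi_nonneg hd) (hasSum_poi d).summable (hasSum_poi d).tsum_eq
      fun n => isLik_starPow hL n)

lemma pot_poisMix {Ω : Type*} {L : Ω → Fin q → ℝ} (hL : IsLik L) {d : ℝ} (hd : 0 ≤ d)
    {f : (Fin q → ℝ) → ℝ} (hf : BddS f) :
    Pot f (poisMix d L) = ∑' n, poi d n * Pot f (starPow L n) := by
  rw [pot_congr_equiv List.equivSigmaTuple.symm (poisMix_equiv d L),
    pot_mix (poi_nonneg hd) (hasSum_poi d).summable (hasSum_poi d).tsum_eq
      (fun n => isLik_starPow hL n) hf]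

lemma summable_poi_mul {a : ℕ → ℝ} {C : ℝ} (hC : ∀ n, |a n| ≤ C) {d : ℝ} (hd : 0 ≤ d) :
    Summable fun n => poi d n * a n := by
  refine Summable.of_norm_bounded (g := fun n => poi d n * C)
    ((hasSum_poi d).summable.mul_right C) (fun n => ?_)
  rw [Real.norm_eq_abs, abs_mul, abs_of_nonneg (poi_nonneg hd n)]
  exact mul_le_mul_of_nonneg_left (hC n) (poi_nonneg hd n)

/-- Monotonicity of the Poisson mixture in the parameter and in the experiment. -/
theorem dom_poisMix (hq : q ≠ 0) {Ω Ω' : Type*} {L : Ω → Fin q → ℝ} {L' : Ω' → Fin q → ℝ}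
    (hL : IsLik L) (hL' : IsLik L') (h : Dom L' L) {d d' : ℝ} (hd' : 0 ≤ d') (hdd : d' ≤ d) :
    Dom (poisMix d' L') (poisMix d L) := by
  intro f hf hfc
  obtain ⟨C, hC⟩ := id hf
  have hd : 0 ≤ d := hd'.trans hdd
  rw [pot_poisMix hL' hd' hf, pot_poisMix hL hd hf]
  have hb1 : ∀ n, |Pot f (starPow L n)| ≤ C := fun n => abs_pot_le hq (isLik_starPow hL n) hC
  have hb2 : ∀ n, |Pot f (starPow L' n)| ≤ C := fun n => abs_pot_le hq (isLik_starPow hL' n) hC
  have hmono : Monotone fun n => Pot f (starPow L n) :=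
    monotone_nat_of_le_succ fun n => dom_starPow_succ hq hL n f hf hfc
  calc ∑' n, poi d' n * Pot f (starPow L' n) ≤ ∑' n, poi d' n * Pot f (starPow L n) := by
        refine (summable_poi_mul hb2 hd').tsum_le_tsum (fun n => ?_)
          (summable_poi_mul hb1 hd')
        exact mul_le_mul_of_nonneg_left (dom_starPow_of_dom hq hL hL' h n f hf hfc)
          (poi_nonneg hd' n)
    _ ≤ ∑' n, poi d n * Pot f (starPow L n) := tsum_poi_mono hmono hb1 hd' hdd

lemma isLik_gwL (hq : q ≠ 0) {lam d : ℝ} (hd : 0 ≤ d) (hc : ChanOK q lam) (ℓ : ℕ) :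
    IsLik (gwL q lam d ℓ) := by
  induction ℓ with
  | zero =>
    rw [gwL_zero]
    exact isLik_baseL
  | succ ℓ ih =>
    rw [gwL_succ]
    exact isLik_poisMix (isLik_contract hq hc ih) hd

/-- Monotonicity of the Poisson experiments in `d` and `lam`. -/
theorem dom_gwL (hq : q ≠ 0) {d d' : ℝ} (hd' : 0 ≤ d') (hdd : d' ≤ d) {t lam : ℝ} (h0 : 0 ≤ t)
    (h1 : t ≤ 1) (hc : ChanOK q lam) (ℓ : ℕ) :
    Dom (gwL q (t * lam) d' ℓ) (gwL q lam d ℓ) := by
  have hc' : ChanOK q (t * lam) := chanOK_mul hq h0 h1 hc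
  have hd : 0 ≤ d := hd'.trans hdd
  induction ℓ with
  | zero =>
    rw [gwL_zero, gwL_zero]
    exact Dom.refl _
  | succ ℓ ih =>
    rw [gwL_succ, gwL_succ]
    have hR := isLik_gwL hq hd' hc' ℓ
    have hR' := isLik_gwL hq hd hc ℓ
    have h2 : Dom (contract (t * lam) (gwL q (t * lam) d' ℓ)) (contract lam (gwL q lam d ℓ)) :=
      (Dom.contract hq hc' ih).trans (dom_contract_mul hq hR' h0 h1 hc)
    exact dom_poisMix hq (isLik_contract hq hc hR') (isLik_contract hq hc' hR) h2 hd' hdd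

/-- Monotonicity of the Poisson advantage in `d` and `lam`. -/
theorem gwAdvantage_le_of_param (hq : q ≠ 0) {d d' : ℝ} (hd' : 0 ≤ d') (hdd : d' ≤ d) {t lam : ℝ}
    (h0 : 0 ≤ t) (h1 : t ≤ 1) (hc : ChanOK q lam) (ℓ : ℕ) :
    gwAdvantage q (t * lam) d' ℓ ≤ gwAdvantage q lam d ℓ := by
  have hc' : ChanOK q (t * lam) := chanOK_mul hq h0 h1 hc
  have hd : 0 ≤ d := hd'.trans hdd
  have e1 : gwAdvantage q (t * lam) d' ℓ = Pot (tv q) (gwL q (t * lam) d' ℓ) := by
    rw [pot_tv_eq hq (isLik_gwL hq hd' hc' ℓ)]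
    rfl
  have e2 : gwAdvantage q lam d ℓ = Pot (tv q) (gwL q lam d ℓ) := by
    rw [pot_tv_eq hq (isLik_gwL hq hd hc ℓ)]
    rfl
  rw [e1, e2]
  exact dom_gwL hq hd' hdd h0 h1 hc ℓ _ (bddS_tv hq) convexOn_tv

end Crest.Agent.PottsTree
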